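import Vale.Agent.P110.Ultraflat.Interfaces

/-!
P110, M2: pairwise coprime moduli in prescribed ratios and the Gauss sum expansion of the core.
-/

namespace Vale.Agent.P110.Ultra

open Complex Finset

noncomputable section

namespace Core

/-- The Gauss sum of an odd modulus has modulus equal to the square root of the modulus. -/
theorem sum_mul_conj_gauss {K : ℕ} [NeZero K] (hK : Odd K) (α β : ZMod K) (hα : IsUnit α) :
    (∑ x : ZMod K, ZMod.stdAddChar (α * x ^ 2 + β * x)) *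
      (starRingEnd ℂ) (∑ x : ZMod K, ZMod.stdAddChar (α * x ^ 2 + β * x)) = K := by
  classical
  have h2 : IsUnit (2 : ZMod K) := by
    have h := (ZMod.unitOfCoprime 2 (Nat.coprime_two_left.2 hK)).isUnit
    simpa using h
  rw [map_sum, Finset.sum_mul_sum, Finset.sum_comm]
  calc ∑ y : ZMod K, ∑ x : ZMod K, ZMod.stdAddChar (α * x ^ 2 + β * x) *
        (starRingEnd ℂ) (ZMod.stdAddChar (α * y ^ 2 + β * y))
      = ∑ y : ZMod K, ∑ h : ZMod K,
          ZMod.stdAddChar (α * h ^ 2 + β * h) * ZMod.stdAddChar (y * (2 * α * h)) := by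
        refine Finset.sum_congr rfl fun y _ => ?_
        rw [← Equiv.sum_comp (Equiv.addRight y)]
        refine Finset.sum_congr rfl fun h _ => ?_
        rw [← AddChar.map_neg_eq_conj, ← AddChar.map_add_eq_mul, ← AddChar.map_add_eq_mul]
        congr 1
        simp only [Equiv.coe_addRight]
        ring
    _ = ∑ h : ZMod K, ZMod.stdAddChar (α * h ^ 2 + β * h) *
          ∑ y : ZMod K, ZMod.stdAddChar (y * (2 * α * h)) := by
        rw [Finset.sum_comm]
        simp [Finset.mul_sum]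
    _ = ∑ h : ZMod K, if h = 0 then (K : ℂ) else 0 := by
        refine Finset.sum_congr rfl fun h _ => ?_
        rw [AddChar.sum_mulShift _ (ZMod.isPrimitive_stdAddChar K)]
        by_cases hh : h = 0
        · simp [hh]
        · have : 2 * α * h ≠ 0 := fun he => hh ((h2.mul hα).mul_right_eq_zero.1 he)
          simp [hh, this]
    _ = K := by simp

/-- A sum over `ZMod K` as a sum over `range K`. -/
theorem sum_zmod_eq_range {K : ℕ} [NeZero K] (f : ZMod K → ℂ) :
    ∑ x : ZMod K, f x = ∑ i ∈ range K, f (i : ZMod K) := by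
  refine Finset.sum_bij' (fun x _ => x.val) (fun i _ => (i : ZMod K)) ?_ ?_ ?_ ?_ ?_
  · intro x _; exact mem_range.2 (ZMod.val_lt x)
  · intro i _; exact mem_univ _
  · intro x _; exact ZMod.natCast_zmod_val x
  · intro i hi; exact ZMod.val_cast_of_lt (mem_range.1 hi)
  · intro x _; simp

/-- The Gauss expansion of a quadratic phase with a unit coefficient and an odd modulus. -/
theorem gauss_expansion (K : ℕ) (hK : Odd K) (v : ℤ) (hv : IsCoprime v (K : ℤ)) :
    ∃ γ : ℕ → ℂ, (∀ i < K, ‖γ i‖ ^ 2 = (K : ℝ)⁻¹) ∧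
      ∀ k : ℕ, exp ((-(2 * Real.pi * ((v : ℝ) * (k : ℝ) ^ 2 / (K : ℝ))) : ℝ) * I) =
        ∑ i ∈ range K, γ i * exp ((-(2 * Real.pi * ((i : ℝ) * k / (K : ℝ))) : ℝ) * I) := by
  classical
  have : NeZero K := ⟨hK.pos.ne'⟩
  have hKC : (K : ℂ) ≠ 0 := Nat.cast_ne_zero.2 hK.pos.ne'
  set α : ZMod K := -(v : ZMod K) with hα
  have hunit : IsUnit α := by
    obtain ⟨a, c, h⟩ := hv
    have h' : (a : ZMod K) * (v : ZMod K) = 1 := by
      have := congrArg (Int.cast : ℤ → ZMod K) h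
      simpa using this
    exact IsUnit.neg ⟨⟨(v : ZMod K), (a : ZMod K), by rw [mul_comm]; exact h', h'⟩, rfl⟩
  let G : ZMod K → ℂ := fun β => ∑ x : ZMod K, ZMod.stdAddChar (α * x ^ 2 + β * x)
  refine ⟨fun i => (K : ℂ)⁻¹ * G (i : ZMod K), fun i _ => ?_, fun k => ?_⟩
  · have h : G (i : ZMod K) * (starRingEnd ℂ) (G (i : ZMod K)) = (K : ℂ) :=
      sum_mul_conj_gauss hK α _ hunit
    rw [Complex.mul_conj'] at h
    have h' : ‖G (i : ZMod K)‖ ^ 2 = (K : ℝ) := by exact_mod_cast h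
    rw [norm_mul, mul_pow, h', norm_inv, Complex.norm_natCast]
    have : (K : ℝ) ≠ 0 := Nat.cast_ne_zero.2 hK.pos.ne'
    field_simp
  · have hl : exp ((-(2 * Real.pi * ((v : ℝ) * (k : ℝ) ^ 2 / (K : ℝ))) : ℝ) * I) =
        ZMod.stdAddChar (α * (k : ZMod K) ^ 2) := by
      rw [hα, show (-(v : ZMod K) * (k : ZMod K) ^ 2) = ((-(v * (k : ℤ) ^ 2) : ℤ) : ZMod K) by
        push_cast; ring, ZMod.stdAddChar_coe]
      congr 1
      push_cast
      ring
    have hr : ∀ i : ℕ, exp ((-(2 * Real.pi * ((i : ℝ) * k / (K : ℝ))) : ℝ) * I) =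
        ZMod.stdAddChar (-((i : ZMod K) * (k : ZMod K))) := by
      intro i
      rw [show (-((i : ZMod K) * (k : ZMod K))) = ((-((i : ℤ) * (k : ℤ)) : ℤ) : ZMod K) by
        push_cast; ring, ZMod.stdAddChar_coe]
      congr 1
      push_cast
      ring
    simp only [hr]
    rw [hl, ← sum_zmod_eq_range fun i : ZMod K =>
      (K : ℂ)⁻¹ * G i * ZMod.stdAddChar (-(i * (k : ZMod K)))]
    symm
    calc ∑ i : ZMod K, (K : ℂ)⁻¹ * G i * ZMod.stdAddChar (-(i * (k : ZMod K)))
        = ∑ x : ZMod K, (K : ℂ)⁻¹ * ZMod.stdAddChar (α * x ^ 2) *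
            ∑ i : ZMod K, ZMod.stdAddChar (i * (x - (k : ZMod K))) := by
          simp only [G, Finset.mul_sum, Finset.sum_mul]
          rw [Finset.sum_comm]
          refine Finset.sum_congr rfl fun x _ => Finset.sum_congr rfl fun i _ => ?_
          rw [mul_assoc, mul_assoc, ← AddChar.map_add_eq_mul, ← AddChar.map_add_eq_mul]
          congr 2
          ring
      _ = ∑ x : ZMod K, if x = (k : ZMod K) then ZMod.stdAddChar (α * x ^ 2) else 0 := by
          refine Finset.sum_congr rfl fun x _ => ?_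
          rw [AddChar.sum_mulShift _ (ZMod.isPrimitive_stdAddChar K)]
          by_cases hx : x = (k : ZMod K)
          · simp only [hx, sub_self, if_true, ZMod.card]
            field_simp
          · simp [hx, sub_eq_zero]
      _ = ZMod.stdAddChar (α * (k : ZMod K) ^ 2) := by simp

/-- An integer vector orthogonal to one frequency and to no other. -/
theorem exists_selector {d : ℕ} (P : Finset (Vec d)) (hind : Indep P) (m : Vec d) (hm : m ∈ P) :
    ∃ a : Vec d, dotZ m a = 0 ∧ ∀ j ∈ P, j ≠ m → dotZ j a ≠ 0 := by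
  classical
  let p : Vec d → Polynomial ℤ := fun j =>
    ∑ k : Fin (d + 1), Polynomial.monomial (k : ℕ) (m 0 * j k - m k * j 0)
  have hp : ∀ j ∈ P.erase m, p j ≠ 0 := by
    intro j hj h0
    obtain ⟨hne, hj⟩ := Finset.mem_erase.1 hj
    obtain ⟨k, hk⟩ := hind m hm j hj (Ne.symm hne)
    have hc := congrArg (fun q : Polynomial ℤ => q.coeff (k : ℕ)) h0
    simp [p, Polynomial.finsetSum_coeff, Polynomial.coeff_monomial, Fin.val_inj] at hc
    exact hk (by linarith [hc])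
  have hprod : (∏ j ∈ P.erase m, p j) ≠ 0 := Finset.prod_ne_zero_iff.2 hp
  obtain ⟨t, ht⟩ : ∃ t : ℤ, (∏ j ∈ P.erase m, p j).eval t ≠ 0 := by
    by_contra h
    push Not at h
    exact hprod (Polynomial.funext fun t => by simpa using h t)
  let a : Vec d := fun l => m 0 * t ^ (l : ℕ) -
    (Pi.single 0 (∑ k : Fin (d + 1), t ^ (k : ℕ) * m k) : Vec d) l
  have hdot : ∀ j : Vec d, dotZ j a = (p j).eval t := by
    intro j
    have h0 : ∑ l : Fin (d + 1),
        j l * (Pi.single 0 (∑ k : Fin (d + 1), t ^ (k : ℕ) * m k) : Vec d) l =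
        j 0 * ∑ k : Fin (d + 1), t ^ (k : ℕ) * m k := by simp [Pi.single_apply]
    calc dotZ j a = ∑ l : Fin (d + 1), (j l * (m 0 * t ^ (l : ℕ)) -
          j l * (Pi.single 0 (∑ k : Fin (d + 1), t ^ (k : ℕ) * m k) : Vec d) l) := by
          simp only [dotZ, a, mul_sub]
      _ = ∑ l : Fin (d + 1), j l * (m 0 * t ^ (l : ℕ)) -
          ∑ l : Fin (d + 1), j 0 * (t ^ (l : ℕ) * m l) := by
          rw [Finset.sum_sub_distrib, h0, Finset.mul_sum]
      _ = (p j).eval t := by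
          rw [← Finset.sum_sub_distrib]
          simp only [p, Polynomial.eval_finsetSum, Polynomial.eval_monomial]
          exact Finset.sum_congr rfl fun l _ => by ring
  refine ⟨a, ?_, fun j hj hne => ?_⟩
  · rw [hdot]
    simp [p, mul_comm]
  · rw [hdot]
    rw [Polynomial.eval_prod, Finset.prod_ne_zero_iff] at ht
    exact ht j (Finset.mem_erase.2 ⟨hne, hj⟩)

/-- A prime dividing `F z + 1` with `F` a factorial exceeds the argument of the factorial. -/
theorem lt_of_prime_dvd {B z p : ℕ} (hp : p.Prime) (h : p ∣ B.factorial * z + 1) : B < p := by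
  by_contra hle
  push Not at hle
  exact hp.not_dvd_one ((Nat.dvd_add_right ((Nat.dvd_factorial hp.pos hle).mul_right z)).1 h)

end Core

/-- M2 for any pairwise independent set of frequencies. -/
theorem coreStmt_indep (d : ℕ) (P : Finset (Vec d)) (hind : Indep P) (r : Vec d → ℝ)
    (hr : ∀ m ∈ P, 0 < r m) (ε : ℝ) (hε : 0 < ε) (Q : ℕ) (L1 : ℝ) :
    ∃ (n : Vec d → ℕ) (b : Vec d) (Λ : ℝ), L1 ≤ Λ ∧ 0 < Λ ∧
      (∀ m ∈ P, Odd (n m) ∧ (0 < Q → Nat.Coprime (n m) Q) ∧ |(n m : ℝ) / Λ - r m| ≤ ε) ∧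
      ((P : Set (Vec d)).Pairwise fun m m' => Nat.Coprime (n m) (n m')) ∧
      ∀ m ∈ P, ∃ γ : ℕ → ℂ, (∀ i < qOf P n / n m, ‖γ i‖ ^ 2 = ((qOf P n / n m : ℕ) : ℝ)⁻¹) ∧
        ∀ k : ℕ, exp ((-(2 * Real.pi * ((dotZ m b : ℝ) * (k : ℝ) ^ 2 / (qOf P n : ℝ))) : ℝ) * I) =
          ∑ i ∈ range (qOf P n / n m),
            γ i * exp ((-(2 * Real.pi * ((i : ℝ) * k / ((qOf P n / n m : ℕ) : ℝ))) : ℝ) * I) := by
  classical
  choose a ha0 ha using fun m : {x // x ∈ P} => Core.exists_selector P hind m.1 m.2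
  set J : ℕ := P.card + 1 with hJ
  set W : ℕ := ⌈3 / ε⌉₊ + ⌈L1⌉₊ + 1 with hW
  let idx : {x // x ∈ P} → ℕ := fun m => (P.equivFin m : ℕ)
  have hidx : ∀ m, idx m < J := fun m => by have := (P.equivFin m).isLt; simp only [idx]; omega
  let z : {x // x ∈ P} → ℕ := fun m => J * ⌈(W : ℝ) * r m.1⌉₊ + idx m
  have hzinj : Function.Injective z := by
    intro x y h
    have h' := congrArg (fun t => t % J) h
    simp only [z, Nat.mul_add_mod, Nat.mod_eq_of_lt (hidx _)] at h'
    exact P.equivFin.injective (Fin.ext h')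
  let D : ℕ := ∑ i : {x // x ∈ P}, ∑ j : {x // x ∈ P}, (dotZ j.1 (a i)).natAbs
  set B : ℕ := 2 + Q + (∑ i, z i) + D with hB
  set F : ℕ := B.factorial with hF
  have hFpos : 0 < F := Nat.factorial_pos B
  have hzB : ∀ i, z i ≤ B := fun i => by
    have : z i ≤ ∑ j, z j := Finset.single_le_sum (fun j _ => Nat.zero_le (z j)) (mem_univ i)
    omega
  have hDB : ∀ i j : {x // x ∈ P}, (dotZ j.1 (a i)).natAbs ≤ B := fun i j => by
    have h1 : (dotZ j.1 (a i)).natAbs ≤ ∑ k : {x // x ∈ P}, (dotZ k.1 (a i)).natAbs :=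
      Finset.single_le_sum (f := fun k : {x // x ∈ P} => (dotZ k.1 (a i)).natAbs)
        (fun k _ => Nat.zero_le _) (mem_univ j)
    have h2 : (∑ k : {x // x ∈ P}, (dotZ k.1 (a i)).natAbs) ≤ D :=
      Finset.single_le_sum (f := fun l : {x // x ∈ P} =>
        ∑ k : {x // x ∈ P}, (dotZ k.1 (a l)).natAbs) (fun l _ => Nat.zero_le _) (mem_univ i)
    omega
  let nz : {x // x ∈ P} → ℕ := fun i => F * z i + 1
  have hbig : ∀ i p, Nat.Prime p → p ∣ nz i → B < p := fun i p hp h => Core.lt_of_prime_dvd hp h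
  have hodd : ∀ i, Odd (nz i) := fun i => by
    rw [← Nat.not_even_iff_odd, even_iff_two_dvd]
    intro h
    have := hbig i 2 Nat.prime_two h
    omega
  have hcop : ∀ i j, i ≠ j → Nat.Coprime (nz i) (nz j) := by
    intro i j hij
    refine Nat.coprime_of_dvd fun p hp hpi hpj => ?_
    have hBp := hbig i p hp hpi
    have hpz : (p : ℤ) ∣ (F : ℤ) * ((z i : ℤ) - z j) := by
      have h1 : (p : ℤ) ∣ ((F * z i + 1 : ℕ) : ℤ) := Int.natCast_dvd_natCast.2 hpi
      have h2 : (p : ℤ) ∣ ((F * z j + 1 : ℕ) : ℤ) := Int.natCast_dvd_natCast.2 hpj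
      have h3 := dvd_sub h1 h2
      push_cast at h3
      rw [add_sub_add_right_eq_sub, ← mul_sub] at h3
      exact h3
    rcases Int.Prime.dvd_mul' hp hpz with h | h
    · have : p ∣ B.factorial := Int.natCast_dvd_natCast.1 h
      have := hp.dvd_factorial.1 this
      omega
    · refine hij (hzinj ?_)
      have h4 := Int.natAbs_dvd_natAbs.2 h
      have h5 : ((z i : ℤ) - z j).natAbs ≤ B := by have := hzB i; have := hzB j; omega
      have h6 : ((z i : ℤ) - z j).natAbs = 0 := by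
        simp only [Int.natAbs_natCast] at h4
        exact Nat.eq_zero_of_dvd_of_lt h4 (by omega)
      omega
  let n : Vec d → ℕ := fun m => if h : m ∈ P then nz ⟨m, h⟩ else 1
  have hn : ∀ i : {x // x ∈ P}, n i.1 = nz i := fun i => by simp [n, i.2]
  have hpair : ((P : Set (Vec d)).Pairwise fun m m' => Nat.Coprime (n m) (n m')) := by
    intro m hm m' hm' hne
    rw [show n m = nz ⟨m, hm⟩ from hn ⟨m, hm⟩, show n m' = nz ⟨m', hm'⟩ from hn ⟨m', hm'⟩]
    exact hcop _ _ fun h => hne (congrArg Subtype.val h)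
  have hsub : ((univ : Finset {x // x ∈ P}) : Set {x // x ∈ P}).Pairwise
      (Function.onFun Nat.Coprime nz) := fun i _ j _ hij => hcop i j hij
  have hnz0 : ∀ i ∈ (univ : Finset {x // x ∈ P}), nz i ≠ 0 := fun i _ => Nat.succ_ne_zero _
  let crt : Fin (d + 1) → ℕ := fun l =>
    (Nat.chineseRemainderOfFinset (fun i => (a i l % (nz i : ℤ)).toNat) nz univ hnz0 hsub).1
  let b : Vec d := fun l => (crt l : ℤ)
  have hb : ∀ (i : {x // x ∈ P}) (j : Vec d), dotZ j b ≡ dotZ j (a i) [ZMOD (nz i : ℤ)] := by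
    intro i j
    have hl : ∀ l, (nz i : ℤ) ∣ a i l - b l := by
      intro l
      have h := (Nat.chineseRemainderOfFinset (fun i => (a i l % (nz i : ℤ)).toNat) nz univ
        hnz0 hsub).2 i (mem_univ i)
      have h' := Int.natCast_modEq_iff.2 h
      rw [Int.toNat_of_nonneg (Int.emod_nonneg _ (by exact_mod_cast hnz0 i (mem_univ i)))] at h'
      exact Int.modEq_iff_dvd.1 (h'.trans (Int.mod_modEq _ _))
    rw [Int.modEq_iff_dvd, dotZ, dotZ, ← Finset.sum_sub_distrib]
    exact Finset.dvd_sum fun l _ => by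
      rw [← mul_sub]
      exact (hl l).mul_left _
  have hW1 : 1 ≤ W := by omega
  have hJ1 : 1 ≤ J := by omega
  refine ⟨n, b, (F : ℝ) * W * J, ?_, by positivity, ?_, hpair, ?_⟩
  · have h1 : L1 ≤ (W : ℝ) := (Nat.le_ceil L1).trans (by
      have : ⌈L1⌉₊ ≤ W := by omega
      exact_mod_cast this)
    have h2 : (W : ℝ) ≤ (F : ℝ) * W * J := by
      have : W ≤ F * W * J := by
        calc W = 1 * W * 1 := by ring
          _ ≤ F * W * J := by gcongr; omega
      exact_mod_cast this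
    linarith
  · intro m hm
    rw [show n m = nz ⟨m, hm⟩ from hn ⟨m, hm⟩]
    refine ⟨hodd _, fun hQ => Nat.coprime_of_dvd fun p hp hp1 hp2 => ?_, ?_⟩
    · have := hbig _ p hp hp1
      have := Nat.le_of_dvd hQ hp2
      omega
    · have hrm := hr m hm
      have hWε : 3 ≤ (W : ℝ) * ε := by
        have h1 : 3 / ε ≤ (W : ℝ) := (Nat.le_ceil (3 / ε)).trans (by
          have : ⌈3 / ε⌉₊ ≤ W := by omega
          exact_mod_cast this)
        rwa [div_le_iff₀ hε] at h1
      set C : ℕ := ⌈(W : ℝ) * r m⌉₊ with hC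
      have hC1 : (W : ℝ) * r m ≤ C := Nat.le_ceil _
      have hC2 : (C : ℝ) < W * r m + 1 := Nat.ceil_lt_add_one (by positivity)
      have hI : (idx ⟨m, hm⟩ : ℝ) + 1 ≤ J := by exact_mod_cast hidx ⟨m, hm⟩
      have hI0 : (0 : ℝ) ≤ idx ⟨m, hm⟩ := Nat.cast_nonneg _
      have hF1 : (1 : ℝ) ≤ F := by exact_mod_cast hFpos
      have hJR : (1 : ℝ) ≤ J := by exact_mod_cast hJ1
      have hWR : (1 : ℝ) ≤ W := by exact_mod_cast hW1
      have hnv : ((nz ⟨m, hm⟩ : ℕ) : ℝ) = (F : ℝ) * (J * C + idx ⟨m, hm⟩) + 1 := by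
        simp only [nz, z, ← hC]
        push_cast
        ring
      have hΛ : (0 : ℝ) < (F : ℝ) * W * J := by positivity
      rw [hnv, div_sub' hΛ.ne', abs_div, abs_of_pos hΛ, div_le_iff₀ hΛ, abs_le]
      have hFJ : (1 : ℝ) ≤ (F : ℝ) * J := one_le_mul_of_one_le_of_one_le hF1 hJR
      constructor
      · nlinarith [mul_le_mul_of_nonneg_left hC1 (show (0 : ℝ) ≤ F * J by positivity),
          mul_nonneg (show (0 : ℝ) ≤ F by positivity) hI0]
      · nlinarith [mul_le_mul_of_nonneg_left hC2.le (show (0 : ℝ) ≤ F * J by positivity),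
          mul_le_mul_of_nonneg_left hI (show (0 : ℝ) ≤ F by positivity),
          mul_le_mul_of_nonneg_left hWε (show (0 : ℝ) ≤ F * J by positivity)]
  · intro m hm
    have hnm : n m ∣ qOf P n := Finset.dvd_prod_of_mem n hm
    have hnpos : 0 < n m := by rw [show n m = nz ⟨m, hm⟩ from hn ⟨m, hm⟩]; exact Nat.succ_pos _
    have hq : qOf P n = n m * ∏ j ∈ P.erase m, n j := (Finset.mul_prod_erase P n hm).symm
    have hK : qOf P n / n m = ∏ j ∈ P.erase m, n j := by
      rw [hq, Nat.mul_div_cancel_left _ hnpos]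
    have hKodd : Odd (qOf P n / n m) := by
      rw [hK]
      refine Finset.prod_induction n Odd (fun x y hx hy => hx.mul hy) odd_one fun j hj => ?_
      have hj' := (Finset.mem_erase.1 hj).2
      rw [show n j = nz ⟨j, hj'⟩ from hn ⟨j, hj'⟩]
      exact hodd _
    obtain ⟨v, hv⟩ : (n m : ℤ) ∣ dotZ m b := by
      rw [show n m = nz ⟨m, hm⟩ from hn ⟨m, hm⟩]
      have h := hb ⟨m, hm⟩ m
      rw [ha0 ⟨m, hm⟩] at h
      exact Int.modEq_zero_iff_dvd.1 h
    have hvK : IsCoprime v ((qOf P n / n m : ℕ) : ℤ) := by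
      rw [hK, Nat.cast_prod]
      refine IsCoprime.prod_right fun j hj => ?_
      obtain ⟨hne, hj'⟩ := Finset.mem_erase.1 hj
      rw [Int.isCoprime_iff_nat_coprime, Int.natAbs_natCast]
      refine Nat.coprime_of_dvd fun p hp hpv hpn => ?_
      rw [show n j = nz ⟨j, hj'⟩ from hn ⟨j, hj'⟩] at hpn
      have hBp := hbig _ p hp hpn
      have h1 : (p : ℤ) ∣ dotZ m b := by
        rw [hv]
        exact (Int.natCast_dvd.2 hpv).mul_left _
      have h2 : (p : ℤ) ∣ dotZ m (a ⟨j, hj'⟩) := by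
        have h := Int.modEq_iff_dvd.1 ((hb ⟨j, hj'⟩ m).of_dvd (Int.natCast_dvd_natCast.2 hpn))
        simpa using dvd_add h h1
      have h3 : (dotZ m (a ⟨j, hj'⟩)).natAbs ≤ B := hDB ⟨j, hj'⟩ ⟨m, hm⟩
      have h4 : dotZ m (a ⟨j, hj'⟩) ≠ 0 := ha ⟨j, hj'⟩ m hm (Ne.symm hne)
      have h5 : p ≤ (dotZ m (a ⟨j, hj'⟩)).natAbs :=
        Nat.le_of_dvd (Int.natAbs_pos.2 h4) (Int.natCast_dvd.1 h2)
      omega
    obtain ⟨γ, hγ, hsum⟩ := Core.gauss_expansion _ hKodd v hvK
    refine ⟨γ, hγ, fun k => ?_⟩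
    rw [← hsum k]
    have hvR : (dotZ m b : ℝ) = (n m : ℝ) * v := by exact_mod_cast hv
    have hqR : (qOf P n : ℝ) = (n m : ℝ) * ((qOf P n / n m : ℕ) : ℝ) := by
      exact_mod_cast (Nat.mul_div_cancel' hnm).symm
    have hn0 : (n m : ℝ) ≠ 0 := Nat.cast_ne_zero.2 hnpos.ne'
    rw [hvR, hqR, mul_assoc (n m : ℝ), mul_div_mul_left _ _ hn0]

/-- M2 holds. -/
theorem coreStmt : CoreStmt := fun d P _ hind r hr ε hε Q L1 =>
  coreStmt_indep d P hind r hr ε hε Q L1

end

end Vale.Agent.P110.Ultra
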