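import Vale.Agent.P110.Defs

/-!
P110, construction of ultraflat Littlewood polynomials: the common objects.
-/

namespace Vale.Agent.P110.Ultra

open Complex Finset

noncomputable section

/-- Ultraflat real Littlewood polynomials exist at every large length. -/
def UltraflatExists : Prop :=
  ∀ c : ℝ, 0 < c → ∃ N0 : ℕ, ∀ N : ℕ, N0 ≤ N → ∃ ε : ℕ → ℝ, (∀ k < N, ε k = 1 ∨ ε k = -1) ∧
    ∀ θ : ℝ, (1 - c) * Real.sqrt N ≤ ‖lit N ε θ‖ ∧ ‖lit N ε θ‖ ≤ (1 + c) * Real.sqrt N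

/-- Integer frequency vectors; the coordinate `0` carries the chirp. -/
abbrev Vec (d : ℕ) : Type := Fin (d + 1) → ℤ

/-- The integer pairing. -/
def dotZ {d : ℕ} (m b : Vec d) : ℤ := ∑ i, m i * b i

/-- The pairing with a point of the torus. -/
def dotR {d : ℕ} (m : Vec d) (φ : Fin (d + 1) → ℝ) : ℝ := ∑ i, (m i : ℝ) * φ i

/-- A set of frequencies with positive first and odd coordinates. -/
def Admissible {d : ℕ} (P : Finset (Vec d)) : Prop := ∀ m ∈ P, 0 < m 0 ∧ ∀ i, Odd (m i)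

/-- No two frequencies are proportional. -/
def Indep {d : ℕ} (P : Finset (Vec d)) : Prop :=
  ∀ i ∈ P, ∀ j ∈ P, i ≠ j → ∃ k, i 0 * j k ≠ i k * j 0

/-- The waveform with the given coefficients on the frequencies and their opposites. -/
def wave {d : ℕ} (P : Finset (Vec d)) (c : Vec d → ℝ) (φ : Fin (d + 1) → ℝ) : ℝ :=
  2 * ∑ m ∈ P, c m * Real.cos (2 * Real.pi * dotR m φ)

/-- The modulus of the core. -/
def qOf {d : ℕ} (P : Finset (Vec d)) (n : Vec d → ℕ) : ℕ := ∏ m ∈ P, n m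

/-- The cells `i n Q + m.g + s` of the epochs are distinct modulo `Q q`, and none is the mirror image of one. -/
def CellsDisjoint {d : ℕ} (P : Finset (Vec d)) (n : Vec d → ℕ) (Q R : ℕ) (g : ℕ → Vec d) : Prop :=
  ∀ r < R, ∀ r' < R, ∀ m ∈ P, ∀ m' ∈ P, ∀ i < qOf P n / n m, ∀ i' < qOf P n / n m',
    ∀ s < (m 0).toNat, ∀ s' < (m' 0).toNat,
      let x : ℤ := (i : ℤ) * n m * Q + dotZ m (g r) + s
      let x' : ℤ := (i' : ℤ) * n m' * Q + dotZ m' (g r') + s'
      (x ≡ x' [ZMOD ((Q * qOf P n : ℕ) : ℤ)] → r = r' ∧ m = m' ∧ i = i' ∧ s = s') ∧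
        ¬ x ≡ -1 - x' [ZMOD ((Q * qOf P n : ℕ) : ℤ)]

/-- The odd bounded tail of the Fresnel integral, with the quadratic phase removed. -/
def fresW (z : ℝ) : ℂ :=
  exp (-((z ^ 2 : ℝ) : ℂ) * I) *
    ((Real.sqrt Real.pi : ℂ)⁻¹ * (∫ y in (0 : ℝ)..z, exp (((y ^ 2 : ℝ) : ℂ) * I)) -
      (Real.sign z / 2 : ℝ) * exp (((Real.pi / 4 : ℝ) : ℂ) * I))

/-- The amplitude of a crossing with slope `σ`. -/
def ampl (σ : ℝ) : ℝ := (Real.sqrt (2 * Real.pi * |σ|))⁻¹

/-- The term of an end of a linear piece: `φ` is the phase there and `u` the speed. -/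
def endTerm (N : ℕ) (σ u φ k : ℝ) : ℂ :=
  (ampl σ : ℂ) * exp ((φ : ℂ) * I) *
    (if 0 < σ then fresW ((N * u - k) / Real.sqrt (2 * N * |σ|))
      else -(starRingEnd ℂ) (fresW ((N * u - k) / Real.sqrt (2 * N * |σ|))))

/-- The weight of `y` in the interval between `a` and `b`: `1`, `1/2` or `0`. -/
def inWeight (a b y : ℝ) : ℝ := |Real.sign (b - y) - Real.sign (a - y)| / 2

/-- The stationary value of a linear piece starting at speed `u` and phase `φ`. -/
def statTerm (N : ℕ) (σ u φ k : ℝ) : ℂ :=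
  (ampl σ : ℂ) *
    exp (((φ - (N * u - k) ^ 2 / (2 * N * σ) + Real.sign σ * (Real.pi / 4) : ℝ) : ℂ) * I)

/-- A segment of the speed: linear between consecutive knots. -/
structure Seg where
  /-- number of linear pieces -/
  n : ℕ
  /-- knots -/
  t : ℕ → ℝ
  /-- speeds at the knots -/
  u : ℕ → ℝ

namespace Seg

/-- The slope of a piece. -/
def slope (S : Seg) (j : ℕ) : ℝ := (S.u (j + 1) - S.u j) / (S.t (j + 1) - S.t j)

/-- The phase at a knot. -/
def psi (S : Seg) (θ : ℝ) (N j : ℕ) : ℝ :=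
  θ + N * ∑ i ∈ range j, (S.t (i + 1) - S.t i) * (S.u i + S.u (i + 1)) / 2

/-- The contribution of a segment to the coefficient `k`. -/
def val (S : Seg) (θ : ℝ) (N : ℕ) (k : ℝ) : ℂ :=
  ((Real.sqrt N / (2 * Real.pi) : ℝ) : ℂ) * ∑ j ∈ range S.n,
    ∫ x in S.t j..S.t (j + 1),
      exp (((S.psi θ N j + N * (S.u j * (x - S.t j) + S.slope j * (x - S.t j) ^ 2 / 2) - k * x : ℝ) : ℂ) * I)

/-- A segment with increasing knots and non-constant speeds in `[τ, 1-τ]`. -/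
structure Valid (S : Seg) (τ : ℝ) : Prop where
  pos : 0 < S.n
  mono : ∀ j < S.n, S.t j < S.t (j + 1)
  mem : ∀ j ≤ S.n, S.u j ∈ Set.Icc τ (1 - τ)
  ne : ∀ j < S.n, S.u j ≠ S.u (j + 1)

end Seg

end

end Vale.Agent.P110.Ultra
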