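import Vale.Agent.P110.Ultraflat.Interfaces
import Vale.Agent.P110.Trig

/-!
P110, construction of ultraflat Littlewood polynomials: the relaxed problem and rounding give the answer.
-/

namespace Vale.Agent.P110.Ultra

open Complex Finset

noncomputable section

theorem lit_mul_left (N : ℕ) (a : ℝ) (x : ℕ → ℝ) (t : ℝ) :
    lit N (fun k => a * x k) t = (a : ℂ) * lit N x t := by
  simp only [lit, mul_sum, ofReal_mul, mul_assoc]

theorem energy_ge {N : ℕ} (hN : 0 < N) (x : ℕ → ℝ) (η : ℝ) (hη : η ≤ 1)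
    (hflat : ∀ t : ℝ, |‖lit N x t‖ - Real.sqrt N| ≤ η * Real.sqrt N) :
    (1 - η) ^ 2 * N ≤ ∑ k ∈ range N, x k ^ 2 := by
  have hN' : (0 : ℝ) < N := Nat.cast_pos.2 hN
  have h : (N : ℝ) * ((1 - η) ^ 2 * N) ≤ (N : ℝ) * ∑ k ∈ range N, x k ^ 2 := by
    rw [← parseval_norm (le_refl N) x]
    refine le_trans (le_of_eq ?_) (sum_le_sum fun j _ => show (1 - η) ^ 2 * N ≤ _ from ?_)
    · rw [sum_const, card_range, nsmul_eq_mul]
    · have h1 := (abs_le.1 (hflat (node N j))).1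
      rw [← Real.sq_sqrt hN'.le, ← mul_pow]
      exact pow_le_pow_left₀ (mul_nonneg (by linarith) (Real.sqrt_nonneg _)) (by linarith) 2
  exact le_of_mul_le_mul_left h hN'

/-- The relaxed problem and rounding give ultraflat Littlewood polynomials. -/
theorem exists_of (hR : RelaxedStmt) (hB : RoundingStmt) : UltraflatExists := by
  intro c hc
  obtain ⟨δ, hδ, N1, hround⟩ := hB (c / 3) (by positivity)
  set η : ℝ := min (1 / 4) (min (δ / 4) (c / 6)) with hη_def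
  have hη : 0 < η := by rw [hη_def]; positivity
  have h1 : η ≤ 1 / 4 := min_le_left _ _
  have h2 : η ≤ δ / 4 := (min_le_right _ _).trans (min_le_left _ _)
  have h3 : η ≤ c / 6 := (min_le_right _ _).trans (min_le_right _ _)
  obtain ⟨N0, hrel⟩ := hR η hη
  refine ⟨max (max N0 N1) 1, fun N hN => ?_⟩
  have hN0 : N0 ≤ N := le_of_max_le_left (le_of_max_le_left hN)
  have hN1 : N1 ≤ N := le_of_max_le_right (le_of_max_le_left hN)
  have hNpos : 0 < N := le_of_max_le_right hN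
  obtain ⟨x, hx, hflat⟩ := hrel N hN0
  have hx2 := energy_ge hNpos x η (by linarith) hflat
  have hη1 : (0 : ℝ) < 1 + η := by linarith
  set a : ℝ := (1 + η)⁻¹ with ha_def
  set y : ℕ → ℝ := fun k => a * x k with hy_def
  have ha : 0 < a := inv_pos.2 hη1
  have hy : ∀ k < N, |y k| ≤ 1 := fun k hk => by
    rw [hy_def, abs_mul, abs_of_pos ha, ha_def, inv_mul_le_iff₀ hη1, mul_one]
    exact hx k hk
  have hsum : ∑ k ∈ range N, (1 - |y k|) ≤ δ * N := by
    have hterm : ∀ k ∈ range N, 1 - |y k| ≤ 1 - a ^ 2 * x k ^ 2 := fun k hk => by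
      rw [← mul_pow, ← sq_abs (a * x k)]
      have := hy k (mem_range.1 hk)
      nlinarith [abs_nonneg (y k)]
    refine (sum_le_sum hterm).trans ?_
    rw [sum_sub_distrib, sum_const, card_range, nsmul_eq_mul, mul_one, ← mul_sum]
    have h4 : a * (1 + η) = 1 := inv_mul_cancel₀ hη1.ne'
    have h5 : 1 - 4 * η ≤ a ^ 2 * (1 - η) ^ 2 := by
      have h6 : (1 - 4 * η) * (1 + η) ^ 2 ≤ (1 - η) ^ 2 := by
        nlinarith [pow_pos hη 3, pow_pos hη 2]
      calc 1 - 4 * η = (a * (1 + η)) ^ 2 * (1 - 4 * η) := by rw [h4]; ring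
        _ = a ^ 2 * ((1 - 4 * η) * (1 + η) ^ 2) := by ring
        _ ≤ _ := by gcongr
    nlinarith [mul_le_mul_of_nonneg_left hx2 (sq_nonneg a),
      mul_le_mul_of_nonneg_right h5 (Nat.cast_nonneg (α := ℝ) N),
      mul_le_mul_of_nonneg_right h2 (Nat.cast_nonneg (α := ℝ) N)]
  obtain ⟨s, hs, hclose⟩ := hround N hN1 y hy hsum
  refine ⟨s, hs, fun t => ?_⟩
  have hyx : ‖lit N y t - lit N x t‖ ≤ η * Real.sqrt N := by
    rw [hy_def, lit_mul_left, show (a : ℂ) * lit N x t - lit N x t = ((a - 1 : ℝ) : ℂ) * lit N x t by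
      push_cast; ring, norm_mul, norm_real, Real.norm_eq_abs]
    have hxt : ‖lit N x t‖ ≤ (1 + η) * Real.sqrt N := by linarith [(abs_le.1 (hflat t)).2]
    have hab : |a - 1| = η * a := by
      have h4 : a * (1 + η) = 1 := inv_mul_cancel₀ hη1.ne'
      rw [abs_of_nonpos (by nlinarith)]; linarith
    rw [hab]
    calc η * a * ‖lit N x t‖ ≤ η * a * ((1 + η) * Real.sqrt N) := by gcongr
      _ = η * Real.sqrt N := by rw [ha_def]; field_simp
  have hst := hclose t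
  have hsq := Real.sqrt_nonneg (N : ℝ)
  have hd : |‖lit N s t‖ - ‖lit N x t‖| ≤ c / 3 * Real.sqrt N + η * Real.sqrt N :=
    (abs_norm_sub_norm_le _ _).trans ((norm_sub_le_norm_sub_add_norm_sub _ (lit N y t) _).trans
      (add_le_add hst hyx))
  have hf := hflat t
  rw [abs_le] at hd hf
  have hcη := mul_le_mul_of_nonneg_right h3 hsq
  have hc' := mul_nonneg hc.le hsq
  constructor <;> linarith

/-- On the circle the polynomial is `lit`. -/
theorem norm_poly_eq (N : ℕ) (ε : ℕ → ℝ) (z : ℂ) (hz : ‖z‖ = 1) :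
    ∃ t : ℝ, ∑ k ∈ range N, (ε k : ℂ) * z ^ k = lit N ε t := by
  refine ⟨z.arg, ?_⟩
  rw [lit_eq_pw]
  congr 1
  funext k
  have h := norm_mul_exp_arg_mul_I z
  rw [hz, ofReal_one, one_mul] at h
  rw [h]

/-- The answer in the words of the problem: all large lengths, and one sequence. -/
theorem answer_of (h : UltraflatExists) :
    (∀ c : ℝ, 0 < c → ∃ N0 : ℕ, ∀ N : ℕ, N0 ≤ N → ∃ ε : ℕ → ℝ, (∀ k < N, ε k = 1 ∨ ε k = -1) ∧
      ∀ z : ℂ, ‖z‖ = 1 → (1 - c) * Real.sqrt N ≤ ‖∑ k ∈ range N, (ε k : ℂ) * z ^ k‖ ∧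
        ‖∑ k ∈ range N, (ε k : ℂ) * z ^ k‖ ≤ (1 + c) * Real.sqrt N) ∧
    ∃ ε : ℕ → ℕ → ℝ, (∀ n k, ε n k = 1 ∨ ε n k = -1) ∧ ∀ c : ℝ, 0 < c → ∃ n0 : ℕ, ∀ n : ℕ, n0 ≤ n →
      ∀ z : ℂ, ‖z‖ = 1 → |‖∑ k ∈ range n, (ε n k : ℂ) * z ^ k‖ / Real.sqrt n - 1| ≤ c := by
  classical
  refine ⟨fun c hc => ?_, ?_⟩
  · obtain ⟨N0, hN0⟩ := h c hc
    refine ⟨N0, fun N hN => ?_⟩
    obtain ⟨ε, hε, hb⟩ := hN0 N hN
    refine ⟨ε, hε, fun z hz => ?_⟩
    obtain ⟨t, ht⟩ := norm_poly_eq N ε z hz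
    rw [ht]
    exact hb t
  · choose! f g hg hb using fun m : ℕ => h (1 / (m + 1)) (by positivity)
    set best : ℕ → ℕ := fun n => Nat.findGreatest (fun m => f m ≤ n) n with hbest
    set ε : ℕ → ℕ → ℝ := fun n k =>
      if f (best n) ≤ n ∧ k < n then g (best n) n k else 1 with hε
    refine ⟨ε, fun n k => ?_, fun c hc => ?_⟩
    · simp only [hε]
      split_ifs with hk
      · exact hg _ n hk.1 k hk.2
      · exact Or.inl rfl
    · obtain ⟨m, hm⟩ := exists_nat_one_div_lt hc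
      refine ⟨max (max (f m) m) 1, fun n hn z hz => ?_⟩
      have hfm : f m ≤ n := le_of_max_le_left (le_of_max_le_left hn)
      have hmn : m ≤ n := le_of_max_le_right (le_of_max_le_left hn)
      have hspec : f (best n) ≤ n := Nat.findGreatest_spec (P := fun m => f m ≤ n) hmn hfm
      have hle : m ≤ best n := Nat.le_findGreatest hmn hfm
      have hsum : ∑ k ∈ range n, (ε n k : ℂ) * z ^ k = ∑ k ∈ range n, (g (best n) n k : ℂ) * z ^ k :=
        sum_congr rfl fun k hk => by simp only [hε]; rw [if_pos ⟨hspec, mem_range.1 hk⟩]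
      obtain ⟨t, ht⟩ := norm_poly_eq n (g (best n) n) z hz
      obtain ⟨hlo, hhi⟩ := hb (best n) n hspec t
      have hsn : 0 < Real.sqrt n := Real.sqrt_pos.2 (Nat.cast_pos.2 (le_of_max_le_right hn))
      have hcm : (1 : ℝ) / (best n + 1) ≤ c :=
        le_trans (by gcongr) hm.le
      rw [hsum, ht, abs_le, le_sub_iff_add_le, sub_le_iff_le_add, le_div_iff₀ hsn, div_le_iff₀ hsn]
      constructor <;> nlinarith

end

end Vale.Agent.P110.Ultra
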