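import Vale.Agent.P110.Ultraflat.Interfaces

/-!
P110, module M4: the Fresnel edge function and the exact linear piece.

W z is the remainder of the Fresnel integral after removing its step; a piece on
which the speed is linear contributes one main term and two edge terms.
-/

open Real Complex MeasureTheory Set Filter Topology
open scoped ComplexConjugate Interval

noncomputable section

namespace Vale.Agent.P110.Ultraflat.Fresnel

/-- Complex Gaussian on the real line. -/
def gauss (b : ℂ) (y : ℝ) : ℂ := Complex.exp (-b * (y : ℂ) ^ 2)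

/-- The oscillation e^{i y^2}. -/
def osc (y : ℝ) : ℂ := gauss (-I) y

/-- The eighth root of unity e^{i pi / 4}. -/
def e4 : ℂ := Complex.exp ((π / 4 : ℝ) * I)

/-- The normalising constant e^{-i pi/4} / sqrt pi. -/
def cF : ℂ := conj e4 / (√π : ℝ)

/-- The value of the improper Fresnel integral over the positive axis. -/
def fullInt : ℂ := (√π : ℝ) * e4 / 2

/-- Normalised Fresnel integral; it tends to 1/2 at plus infinity. -/
def F (z : ℝ) : ℂ := cF * ∫ y in (0:ℝ)..z, osc y

/-- The smooth branch of the edge function. -/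
def G (z : ℝ) : ℂ := gauss I z * (F z - 1 / 2)

/-- The edge function. -/
def W (z : ℝ) : ℂ := gauss I z * (F z - (Real.sign z : ℂ) / 2)

/-- The leading coefficient of W at infinity. -/
def w1 : ℂ := -I * cF / 2

/-- The leading coefficient of the edge terms, the same for both signs of the slope. -/
def w0 : ℂ := -I / (2 * (√π : ℝ))

/-- Amplitude of a piece of slope s. -/
def amp (s : ℝ) : ℝ := 1 / √(2 * π * |s|)

/-- Phase factor of a piece of slope s. -/
def ph (s : ℝ) : ℂ := if 0 < s then e4 else conj e4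

/-- Edge term of a piece of slope s at an endpoint with scaled detuning D. -/
def edge (s D : ℝ) : ℂ :=
  if 0 < s then e4 * ((amp s : ℂ) * W (amp s * D))
  else -conj (e4 * ((amp s : ℂ) * W (amp s * D)))

lemma norm_gauss (b : ℂ) (y : ℝ) : ‖gauss b y‖ = Real.exp (-b.re * y ^ 2) := by
  simp [gauss, Complex.norm_exp, pow_two]

lemma norm_gauss_le {b : ℂ} (hb : 0 ≤ b.re) (y : ℝ) : ‖gauss b y‖ ≤ 1 := by
  rw [norm_gauss]
  exact Real.exp_le_one_iff.2 (by nlinarith [sq_nonneg y])

lemma norm_osc (y : ℝ) : ‖osc y‖ = 1 := by simp [osc, norm_gauss]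

lemma norm_gauss_I (y : ℝ) : ‖gauss I y‖ = 1 := by simp [norm_gauss]

lemma gauss_I_mul_osc (y : ℝ) : gauss I y * osc y = 1 := by
  simp [osc, gauss, ← Complex.exp_add]

@[fun_prop]
lemma continuous_osc : Continuous osc := by unfold osc gauss; fun_prop

lemma continuous_gauss (b : ℂ) : Continuous (gauss b) := by unfold gauss; fun_prop

lemma osc_neg (y : ℝ) : osc (-y) = osc y := by simp [osc, gauss]

lemma norm_e4 : ‖e4‖ = 1 := by simp [e4, Complex.norm_exp]

lemma e4_mul_conj : e4 * conj e4 = 1 := by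
  rw [Complex.mul_conj', norm_e4]; simp

lemma norm_cF : ‖cF‖ = 1 / √π := by
  simp [cF, norm_e4, abs_of_nonneg (Real.sqrt_nonneg π)]

lemma norm_cF_le_one : ‖cF‖ ≤ 1 := by
  rw [norm_cF, div_le_one (by positivity)]
  exact Real.one_le_sqrt.2 (by linarith [Real.two_le_pi])

lemma cF_mul_fullInt : cF * fullInt = 1 / 2 := by
  have h : ((√π : ℝ) : ℂ) ≠ 0 := by exact_mod_cast (by positivity : (√π : ℝ) ≠ 0)
  rw [cF, fullInt]
  field_simp
  linear_combination e4_mul_conj

lemma norm_fullInt : ‖fullInt‖ = √π / 2 := by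
  simp [fullInt, norm_e4, abs_of_nonneg (Real.sqrt_nonneg π)]

lemma cpow_pi_I : ((π : ℂ) / -I) ^ (1 / 2 : ℂ) = (√π : ℝ) * e4 := by
  have h1 : (π : ℂ) / -I = π * I := by
    field_simp
    simp
  have h2 : Complex.log ((π : ℂ) * I) = (Real.log π : ℂ) + (π / 2 : ℝ) * I := by
    rw [Complex.log_ofReal_mul Real.pi_pos I_ne_zero, Complex.log_I]
    push_cast; ring
  rw [h1, Complex.cpow_def_of_ne_zero (by simp [Real.pi_ne_zero]), h2, e4,
    Real.sqrt_eq_rpow, Real.rpow_def_of_pos Real.pi_pos, Complex.ofReal_exp,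
    ← Complex.exp_add]
  congr 1
  push_cast; ring

lemma tail_le {b : ℂ} (hb : 0 ≤ b.re) (hb1 : 1 ≤ ‖b‖) {z T : ℝ} (hz : 0 < z) (hzT : z ≤ T) :
    ‖∫ y in z..T, gauss b y‖ ≤ 1 / z := by
  have hb0 : b ≠ 0 := by rintro rfl; norm_num at hb1
  have hsub : ∀ y ∈ uIcc z T, 0 < y := fun y hy => by
    rw [uIcc_of_le hzT] at hy; linarith [hy.1]
  set u : ℝ → ℂ := fun y => -gauss b y / (2 * b * y) with hu
  set r : ℝ → ℂ := fun y => gauss b y / (2 * b * (y : ℂ) ^ 2) with hr
  have hder : ∀ y ∈ uIcc z T, HasDerivAt u (gauss b y + r y) y := by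
    intro y hy
    have hy0 : (y : ℂ) ≠ 0 := by exact_mod_cast (hsub y hy).ne'
    have hid : HasDerivAt (fun y : ℝ => (y : ℂ)) 1 y :=
      (hasDerivAt_id (y : ℂ)).comp_ofReal
    have hv : HasDerivAt (gauss b) (gauss b y * (-b * (2 * (y : ℂ)))) y :=
      (((hid.pow 2).const_mul (-b)).cexp).congr_deriv (by simp [gauss])
    refine (hv.neg.div (hid.const_mul (2 * b)) (by simp [hb0, hy0])).congr_deriv ?_
    simp only [hr]
    field_simp
    simp only [Pi.neg_apply]
    ring
  have hci : IntervalIntegrable (gauss b) volume z T :=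
    (continuous_gauss b).intervalIntegrable _ _
  have hcr : IntervalIntegrable r volume z T := by
    refine ContinuousOn.intervalIntegrable ?_
    intro y hy
    refine ((continuous_gauss b).continuousAt.div (by fun_prop) ?_).continuousWithinAt
    have : (y : ℂ) ≠ 0 := by exact_mod_cast (hsub y hy).ne'
    simp [hb0, this]
  have h := intervalIntegral.integral_eq_sub_of_hasDerivAt hder (hci.add hcr)
  rw [intervalIntegral.integral_add hci hcr] at h
  have hrb : ‖∫ y in z..T, r y‖ ≤ ∫ y in z..T, 1 / (2 * y ^ 2) := by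
    refine intervalIntegral.norm_integral_le_of_norm_le hzT (ae_of_all _ fun y hy => ?_) ?_
    · have hy0 : 0 < y := hz.trans hy.1
      simp only [hr, norm_div, norm_mul, norm_pow, RCLike.norm_ofNat, Complex.norm_real,
        Real.norm_eq_abs, sq_abs]
      gcongr
      · exact norm_gauss_le hb y
      · nlinarith [sq_nonneg y]
    · refine ContinuousOn.intervalIntegrable fun y hy => ?_
      have := (hsub y hy).ne'
      exact (ContinuousAt.div (by fun_prop) (by fun_prop) (by positivity)).continuousWithinAt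
  have hrint : (∫ y in z..T, 1 / (2 * y ^ 2)) = 1 / (2 * z) - 1 / (2 * T) := by
    have hd : ∀ y ∈ uIcc z T, HasDerivAt (fun y : ℝ => -(1 / (2 * y))) (1 / (2 * y ^ 2)) y := by
      intro y hy
      have hy0 := (hsub y hy).ne'
      refine ((((hasDerivAt_id y).const_mul 2).inv (by simpa using hy0)).neg.congr_deriv ?_
        ).congr_of_eventuallyEq ?_
      · simp only [id_eq]; field_simp
      · filter_upwards with x; simp [one_div]
    rw [intervalIntegral.integral_eq_sub_of_hasDerivAt hd]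
    · ring
    · refine ContinuousOn.intervalIntegrable fun y hy => ?_
      have := (hsub y hy).ne'
      exact (ContinuousAt.div (by fun_prop) (by fun_prop) (by positivity)).continuousWithinAt
  have hun : ∀ y, 0 < y → ‖u y‖ ≤ 1 / (2 * y) := by
    intro y hy
    simp only [hu, norm_div, norm_neg, norm_mul, RCLike.norm_ofNat, Complex.norm_real,
      Real.norm_eq_abs, abs_of_pos hy]
    gcongr
    · exact norm_gauss_le hb y
    · linarith
  have heq : (∫ y in z..T, gauss b y) = u T - u z - ∫ y in z..T, r y := by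
    linear_combination h
  rw [heq]
  calc _ ≤ ‖u T - u z‖ + ‖∫ y in z..T, r y‖ := norm_sub_le _ _
    _ ≤ (1 / (2 * T) + 1 / (2 * z)) + (1 / (2 * z) - 1 / (2 * T)) := by
      gcongr
      · exact (norm_sub_le _ _).trans (add_le_add (hun T (hz.trans_le hzT)) (hun z hz))
      · exact hrb.trans_eq hrint
    _ = 1 / z := by ring

lemma partial_int_le {R : ℝ} (hR : 0 < R) :
    ‖(∫ y in (0:ℝ)..R, osc y) - fullInt‖ ≤ 1 / R := by
  set b : ℝ → ℂ := fun e => (e : ℂ) - I with hb
  have hbd : ∀ e > (0:ℝ),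
      ‖((π : ℂ) / b e) ^ (1 / 2 : ℂ) / 2 - ∫ y in (0:ℝ)..R, gauss (b e) y‖ ≤ 1 / R := by
    intro e he
    have hre : 0 < (b e).re := by simp [hb, he]
    have hn : 1 ≤ ‖b e‖ := le_trans (by simp [hb]) (Complex.abs_im_le_norm (b e))
    have hlim : Tendsto (fun T : ℝ => ∫ y in (0:ℝ)..T, gauss (b e) y) atTop
        (𝓝 (((π : ℂ) / b e) ^ (1 / 2 : ℂ) / 2)) := by
      have := intervalIntegral_tendsto_integral_Ioi (μ := volume) (f := gauss (b e)) 0
        (integrable_cexp_neg_mul_sq hre).integrableOn tendsto_id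
      have hI := integral_gaussian_complex_Ioi hre
      unfold gauss at this ⊢
      rwa [hI] at this
    refine le_of_tendsto (hlim.sub_const _).norm ?_
    filter_upwards [eventually_ge_atTop R] with T hT
    rw [intervalIntegral.integral_interval_sub_left ((continuous_gauss _).intervalIntegrable _ _)
      ((continuous_gauss _).intervalIntegrable _ _)]
    exact tail_le hre.le hn hR hT
  have hc1 : Continuous fun e : ℝ => ∫ y in (0:ℝ)..R, gauss (b e) y := by
    refine intervalIntegral.continuous_parametric_intervalIntegral_of_continuous' ?_ 0 R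
    show Continuous fun q : ℝ × ℝ => Complex.exp (-((q.1 : ℂ) - I) * (q.2 : ℂ) ^ 2)
    fun_prop
  have hc2 : ContinuousAt (fun e : ℝ => ((π : ℂ) / b e) ^ (1 / 2 : ℂ) / 2) 0 := by
    refine (ContinuousAt.cpow ?_ continuousAt_const ?_).div_const 2
    · exact continuousAt_const.div (by fun_prop) (by simp [hb])
    · refine Complex.mem_slitPlane_iff.2 (Or.inr ?_)
      simp [hb, Complex.div_im, Real.pi_ne_zero]
  have hle := le_of_tendsto ((hc2.sub hc1.continuousAt).norm.tendsto.mono_left
    (nhdsWithin_le_nhds (s := Ioi (0:ℝ)))) (eventually_nhdsWithin_of_forall fun e he => hbd e he)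
  rw [norm_sub_rev]
  simp only [Pi.sub_apply, hb, Complex.ofReal_zero, zero_sub, cpow_pi_I] at hle
  exact hle

lemma G_eq (z : ℝ) : G z = cF * gauss I z * ((∫ y in (0:ℝ)..z, osc y) - fullInt) := by
  rw [G, F]
  linear_combination gauss I z * cF_mul_fullInt

lemma norm_G_le_inv {z : ℝ} (hz : 0 < z) : ‖G z‖ ≤ 1 / z := by
  rw [G_eq, norm_mul, norm_mul, norm_gauss_I, mul_one]
  calc _ ≤ 1 * (1 / z) := mul_le_mul norm_cF_le_one (partial_int_le hz) (norm_nonneg _) zero_le_one
    _ = _ := one_mul _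

lemma norm_G_le {z : ℝ} (hz : 0 ≤ z) : ‖G z‖ ≤ 2 := by
  rcases le_or_gt z 1 with h1 | h1
  · have hi : ‖∫ y in (0:ℝ)..z, osc y‖ ≤ z := by
      have h := intervalIntegral.norm_integral_le_of_norm_le_const (C := 1)
        (f := osc) (a := 0) (b := z) fun y _ => (norm_osc y).le
      simpa [abs_of_nonneg hz] using h
    have hF : ‖F z‖ ≤ 1 := by
      rw [F, norm_mul]
      calc _ ≤ 1 * z := mul_le_mul norm_cF_le_one hi (norm_nonneg _) zero_le_one
        _ ≤ 1 := by linarith
    rw [G, norm_mul, norm_gauss_I, one_mul]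
    refine (norm_sub_le _ _).trans ?_
    norm_num; linarith
  · exact (norm_G_le_inv (by linarith)).trans (by rw [div_le_iff₀ (by linarith)]; linarith)

lemma hasDerivAt_G (z : ℝ) : HasDerivAt G (-2 * I * z * G z + cF) z := by
  have hid : HasDerivAt (fun y : ℝ => (y : ℂ)) 1 z := (hasDerivAt_id (z : ℂ)).comp_ofReal
  have hg : HasDerivAt (gauss I) (gauss I z * (-I * (2 * (z : ℂ)))) z :=
    (((hid.pow 2).const_mul (-I)).cexp).congr_deriv (by simp [gauss])
  have hF : HasDerivAt F (cF * osc z) z :=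
    (intervalIntegral.integral_hasDerivAt_right (continuous_osc.intervalIntegrable _ _)
      (continuous_osc.stronglyMeasurableAtFilter _ _) continuous_osc.continuousAt).const_mul cF
  refine (hg.mul (hF.sub_const (1 / 2))).congr_deriv ?_
  rw [G]
  linear_combination cF * gauss_I_mul_osc z

lemma norm_deriv_G_le {z : ℝ} (hz : 0 ≤ z) : ‖-2 * I * z * G z + cF‖ ≤ 3 := by
  have hzG : z * ‖G z‖ ≤ 1 := by
    rcases hz.eq_or_lt with h | h
    · simp [← h]
    · have := norm_G_le_inv h
      rwa [le_div_iff₀' h] at this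
  refine (norm_add_le _ _).trans ?_
  have : ‖-2 * I * (z : ℂ) * G z‖ = 2 * (z * ‖G z‖) := by
    simp [abs_of_nonneg hz, mul_assoc]
  linarith [norm_cF_le_one]

lemma G_lipschitz {x y : ℝ} (hx : 0 ≤ x) (hy : 0 ≤ y) : ‖G y - G x‖ ≤ 3 * |y - x| := by
  simpa [Real.norm_eq_abs] using
    (convex_Ici (0:ℝ)).norm_image_sub_le_of_norm_hasDerivWithin_le
      (f := G) (f' := fun z => -2 * I * z * G z + cF)
      (fun z _ => (hasDerivAt_G z).hasDerivWithinAt) (fun z hz => norm_deriv_G_le hz) hx hy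

lemma F_neg (z : ℝ) : F (-z) = -F z := by
  have h : (∫ y in (0:ℝ)..-z, osc y) = -∫ y in (0:ℝ)..z, osc y := by
    have h1 := intervalIntegral.integral_comp_neg (f := osc) (a := 0) (b := z)
    simp only [osc_neg, neg_zero] at h1
    rw [h1, ← intervalIntegral.integral_symm]
  rw [F, F, h]; ring

lemma W_neg (z : ℝ) : W (-z) = -W z := by
  have hg : gauss I (-z) = gauss I z := by simp [gauss]
  rw [W, W, F_neg, Real.sign_neg, hg]; push_cast; ring

lemma W_zero : W 0 = 0 := by simp [W, F]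

lemma W_eq_G {z : ℝ} (hz : 0 < z) : W z = G z := by simp [W, G, Real.sign_of_pos hz]

lemma norm_W_abs (z : ℝ) : ‖W z‖ = ‖W |z|‖ := by
  rcases le_total 0 z with h | h
  · rw [abs_of_nonneg h]
  · rw [abs_of_nonpos h, W_neg, norm_neg]

lemma norm_W_le (z : ℝ) : ‖W z‖ ≤ 2 := by
  rw [norm_W_abs]
  rcases (abs_nonneg z).eq_or_lt with h | h
  · simp [← h, W_zero]
  · rw [W_eq_G h]; exact norm_G_le h.le

lemma norm_W_le_inv {z : ℝ} (hz : z ≠ 0) : ‖W z‖ ≤ 1 / |z| := by
  rw [norm_W_abs, W_eq_G (abs_pos.2 hz)]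
  exact norm_G_le_inv (abs_pos.2 hz)

lemma osc_tail_asymp {z : ℝ} (hz : 0 < z) :
    ‖(∫ y in (0:ℝ)..z, osc y) - fullInt - -I * osc z / (2 * z)‖ ≤ 1 / (2 * z ^ 3) := by
  set u : ℝ → ℂ := fun y => -I * osc y / (2 * y) - osc y / (4 * (y : ℂ) ^ 3) with hu
  set r : ℝ → ℂ := fun y => 3 * osc y / (4 * (y : ℂ) ^ 4) with hr
  have key : ∀ T, z ≤ T →
      ‖(∫ y in (0:ℝ)..z, osc y) - fullInt - -I * osc z / (2 * z)‖
        ≤ 1 / (2 * z ^ 3) + (2 / T + 1 / (4 * T ^ 3)) := by
    intro T hzT
    have hT : 0 < T := hz.trans_le hzT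
    have hsub : ∀ y ∈ uIcc z T, 0 < y := fun y hy => by
      rw [uIcc_of_le hzT] at hy; linarith [hy.1]
    have hder : ∀ y ∈ uIcc z T, HasDerivAt u (osc y + r y) y := by
      intro y hy
      have hy0 : (y : ℂ) ≠ 0 := by exact_mod_cast (hsub y hy).ne'
      have hid : HasDerivAt (fun y : ℝ => (y : ℂ)) 1 y :=
        (hasDerivAt_id (y : ℂ)).comp_ofReal
      have hv : HasDerivAt osc (osc y * (I * (2 * (y : ℂ)))) y :=
        (((hid.pow 2).const_mul (- -I)).cexp).congr_deriv (by simp [osc, gauss])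
      refine (((hv.const_mul (-I)).div (hid.const_mul 2) (by simp [hy0])).sub
        (hv.div ((hid.pow 3).const_mul 4) (by simp [hy0]))).congr_deriv ?_
      simp only [hr, Pi.pow_apply, Nat.cast_ofNat, Nat.add_one_sub_one]
      field_simp
      ring_nf
      rw [I_sq]
      ring
    have hci : IntervalIntegrable osc volume z T := continuous_osc.intervalIntegrable _ _
    have hcr : IntervalIntegrable r volume z T := by
      refine ContinuousOn.intervalIntegrable fun y hy => ?_
      refine (ContinuousAt.div (by fun_prop) (by fun_prop) ?_).continuousWithinAt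
      have : (y : ℂ) ≠ 0 := by exact_mod_cast (hsub y hy).ne'
      simp [this]
    have h := intervalIntegral.integral_eq_sub_of_hasDerivAt hder (hci.add hcr)
    rw [intervalIntegral.integral_add hci hcr] at h
    have hrb : ‖∫ y in z..T, r y‖ ≤ 1 / (4 * z ^ 3) - 1 / (4 * T ^ 3) := by
      have hd : ∀ y ∈ uIcc z T,
          HasDerivAt (fun y : ℝ => -(1 / (4 * y ^ 3))) (3 / (4 * y ^ 4)) y := by
        intro y hy
        have hy0 := (hsub y hy).ne'
        refine ((((hasDerivAt_id y).pow 3).const_mul 4).inv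
          (by simp [hy0])).neg.congr_deriv ?_ |>.congr_of_eventuallyEq ?_
        · simp only [id_eq, Pi.pow_apply, Nat.cast_ofNat, Nat.add_one_sub_one]
          field_simp
        · filter_upwards with x; simp [one_div]
      have hgi : IntervalIntegrable (fun y : ℝ => 3 / (4 * y ^ 4)) volume z T := by
        refine ContinuousOn.intervalIntegrable fun y hy => ?_
        have := (hsub y hy).ne'
        exact (ContinuousAt.div (by fun_prop) (by fun_prop) (by positivity)).continuousWithinAt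
      refine (intervalIntegral.norm_integral_le_of_norm_le hzT
        (ae_of_all _ fun y hy => ?_) hgi).trans_eq ?_
      · simp [hr, norm_osc, abs_of_pos (hz.trans hy.1)]
      · rw [intervalIntegral.integral_eq_sub_of_hasDerivAt hd hgi]; ring
    have hsum : (∫ y in (0:ℝ)..z, osc y) - fullInt - -I * osc z / (2 * z)
        = ((∫ y in (0:ℝ)..T, osc y) - fullInt) - u T + (∫ y in z..T, r y)
          - osc z / (4 * (z : ℂ) ^ 3) := by
      have hadd : (∫ y in (0:ℝ)..z, osc y) + ∫ y in z..T, osc y = ∫ y in (0:ℝ)..T, osc y :=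
        intervalIntegral.integral_add_adjacent_intervals
          (continuous_osc.intervalIntegrable _ _) (continuous_osc.intervalIntegrable _ _)
      simp only [hu] at h ⊢
      linear_combination hadd - h
    have huT : ‖u T‖ ≤ 1 / (2 * T) + 1 / (4 * T ^ 3) := by
      refine (norm_sub_le _ _).trans_eq ?_
      simp [norm_osc, abs_of_pos hT]
    have hlast : ‖osc z / (4 * (z : ℂ) ^ 3)‖ = 1 / (4 * z ^ 3) := by
      simp [norm_osc, abs_of_pos hz]
    rw [hsum]
    refine ((norm_sub_le _ _).trans (add_le_add ((norm_add_le _ _).trans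
      (add_le_add ((norm_sub_le _ _).trans (add_le_add (partial_int_le hT) huT)) hrb))
        hlast.le)).trans ?_
    have h5 : 1 / T + 1 / (2 * T) ≤ 2 / T := by
      field_simp; norm_num
    have h6 : 1 / (4 * z ^ 3) + 1 / (4 * z ^ 3) = 1 / (2 * z ^ 3) := by ring
    have h7 : 0 ≤ 1 / (4 * T ^ 3) := by positivity
    linarith
  refine ge_of_tendsto (x := atTop) (f := fun T : ℝ => 1 / (2 * z ^ 3) + (2 / T + 1 / (4 * T ^ 3)))
    ?_ ((eventually_ge_atTop z).mono key)
  have h1 : Tendsto (fun T : ℝ => 2 / T + 1 / (4 * T ^ 3)) atTop (𝓝 (0 + 0)) := by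
    refine Tendsto.add (tendsto_const_nhds.div_atTop tendsto_id) ?_
    exact tendsto_const_nhds.div_atTop
      ((tendsto_pow_atTop (by norm_num)).const_mul_atTop (by norm_num))
  simpa only [add_zero] using h1.const_add (1 / (2 * z ^ 3))

lemma G_asymp {z : ℝ} (hz : 0 < z) : ‖G z - w1 / z‖ ≤ 1 / z ^ 3 := by
  have hz0 : (z : ℂ) ≠ 0 := by exact_mod_cast hz.ne'
  have h : G z - w1 / z = cF * gauss I z *
      ((∫ y in (0:ℝ)..z, osc y) - fullInt - -I * osc z / (2 * z)) := by
    rw [G_eq, w1]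
    field_simp
    linear_combination (-(cF * I)) * gauss_I_mul_osc z
  rw [h, norm_mul, norm_mul, norm_gauss_I, mul_one]
  refine (mul_le_mul norm_cF_le_one (osc_tail_asymp hz) (norm_nonneg _) zero_le_one).trans ?_
  rw [one_mul]
  gcongr
  · linarith [pow_pos hz 3]

lemma W_asymp {z : ℝ} (hz : z ≠ 0) : ‖W z - w1 / z‖ ≤ 1 / |z| ^ 3 := by
  rcases lt_or_gt_of_ne hz with h | h
  · have hw := G_asymp (neg_pos.2 h)
    rw [← W_eq_G (neg_pos.2 h), W_neg] at hw
    have e : -W z - w1 / ((-z : ℝ) : ℂ) = -(W z - w1 / z) := by push_cast; ring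
    rw [e, norm_neg] at hw
    rwa [abs_of_neg h]
  · rw [W_eq_G h, abs_of_pos h]; exact G_asymp h

/-- Change of amplitude at a junction, uniformly in the detuning. -/
lemma W_scale_le {a b : ℝ} (ha : 0 ≤ a) (hb : 0 ≤ b) (D : ℝ) :
    ‖(a : ℂ) * W (a * D) - (b : ℂ) * W (b * D)‖ ≤ 5 * √(max a b * |a - b|) := by
  wlog hab : b ≤ a generalizing a b
  · rw [norm_sub_rev, max_comm, abs_sub_comm]
    exact this hb ha (le_of_not_ge hab)
  wlog hD : 0 ≤ D generalizing D
  · have := this (-D) (by linarith [not_le.1 hD])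
    simp only [mul_neg, W_neg] at this
    rwa [← neg_sub', norm_neg] at this
  rw [max_eq_left hab, abs_of_nonneg (sub_nonneg.2 hab)]
  have hab' : 0 ≤ a - b := sub_nonneg.2 hab
  have hR : a - b ≤ √(a * (a - b)) := Real.le_sqrt_of_sq_le (by nlinarith)
  rcases hD.eq_or_lt with hD0 | hD0
  · simp [← hD0, W_zero]
  rcases hb.eq_or_lt with hb0 | hb0
  · subst hb0
    have h2 : ‖(a : ℂ) * W (a * D)‖ ≤ a * 2 := by
      rw [norm_mul, Complex.norm_real, Real.norm_eq_abs, abs_of_nonneg ha]
      exact mul_le_mul_of_nonneg_left (norm_W_le _) ha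
    have h3 : √(a * a) = a := Real.sqrt_mul_self ha
    simp only [Complex.ofReal_zero, zero_mul, sub_zero]
    linarith
  have ha0 : 0 < a := hb0.trans_le hab
  have haD := mul_pos ha0 hD0
  have hbD := mul_pos hb0 hD0
  rw [W_eq_G haD, W_eq_G hbD]
  set X := ‖G (a * D) - G (b * D)‖ with hX
  have hX0 : 0 ≤ X := norm_nonneg _
  have hX1 : X ≤ 3 * ((a - b) * D) := by
    have := G_lipschitz hbD.le haD.le
    rwa [← sub_mul, abs_of_nonneg (by positivity)] at this
  have hX2 : X * (b * D) ≤ 2 := by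
    have h1 : X ≤ 1 / (a * D) + 1 / (b * D) :=
      (norm_sub_le _ _).trans (add_le_add (norm_G_le_inv haD) (norm_G_le_inv hbD))
    have h2 : 1 / (a * D) ≤ 1 / (b * D) := by gcongr
    have h3 : X ≤ 2 / (b * D) := by
      rw [show (2:ℝ) / (b * D) = 1 / (b * D) + 1 / (b * D) by ring]; linarith
    rwa [le_div_iff₀ hbD] at h3
  have hbX : b * X ≤ 3 * √(a * (a - b)) := by
    have hsq : (b * X) ^ 2 ≤ 9 * (a * (a - b)) := by
      have h4 : X * (X * (b * D)) ≤ 3 * ((a - b) * D) * 2 :=
        mul_le_mul hX1 hX2 (by positivity) (by positivity)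
      have h5 : X ^ 2 * b ≤ 6 * (a - b) := by nlinarith
      nlinarith [mul_le_mul_of_nonneg_left h5 hb]
    have h6 : √(9 * (a * (a - b))) = 3 * √(a * (a - b)) := by
      rw [Real.sqrt_mul (by norm_num), show (9:ℝ) = 3 ^ 2 by norm_num,
        Real.sqrt_sq (by norm_num)]
    rw [← h6]
    exact Real.le_sqrt_of_sq_le hsq
  have e : (a : ℂ) * G (a * D) - (b : ℂ) * G (b * D)
      = ((a - b : ℝ) : ℂ) * G (a * D) + (b : ℂ) * (G (a * D) - G (b * D)) := by
    push_cast; ring
  rw [e]
  refine (norm_add_le _ _).trans ?_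
  rw [norm_mul, norm_mul, Complex.norm_real, Complex.norm_real, Real.norm_eq_abs,
    Real.norm_eq_abs, abs_of_nonneg hab', abs_of_pos hb0, ← hX]
  have := mul_le_mul_of_nonneg_left (norm_G_le haD.le) hab'
  linarith

lemma amp_nonneg (s : ℝ) : 0 ≤ amp s := by unfold amp; positivity

lemma amp_pos {s : ℝ} (hs : s ≠ 0) : 0 < amp s := by
  have := abs_pos.2 hs; unfold amp; positivity

lemma amp_neg (s : ℝ) : amp (-s) = amp s := by simp [amp]

lemma amp_sq (s : ℝ) : amp s ^ 2 = 1 / (2 * π * |s|) := by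
  rw [amp, div_pow, one_pow, Real.sq_sqrt (by positivity)]

lemma norm_edge (s D : ℝ) : ‖edge s D‖ = amp s * ‖W (amp s * D)‖ := by
  unfold edge
  split_ifs <;> simp [norm_e4, abs_of_nonneg (amp_nonneg s)]

lemma norm_edge_le (s D : ℝ) : ‖edge s D‖ ≤ 2 * amp s := by
  rw [norm_edge]; nlinarith [norm_W_le (amp s * D), amp_nonneg s]

lemma norm_edge_le_inv (s : ℝ) {D : ℝ} (hD : D ≠ 0) : ‖edge s D‖ ≤ 1 / |D| := by
  rw [norm_edge]
  rcases (amp_nonneg s).eq_or_lt with h | h
  · rw [← h, zero_mul]; positivity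
  · refine (mul_le_mul_of_nonneg_left (norm_W_le_inv (mul_ne_zero h.ne' hD)) h.le).trans_eq ?_
    rw [abs_mul, abs_of_pos h]; field_simp

lemma norm_edge_sub_le {s t : ℝ} (hst : (0 < s) ↔ (0 < t)) (D : ℝ) :
    ‖edge s D - edge t D‖ ≤ 5 * √(max (amp s) (amp t) * |amp s - amp t|) := by
  have key := W_scale_le (amp_nonneg s) (amp_nonneg t) D
  by_cases h : 0 < s
  · rw [edge, edge, if_pos h, if_pos (hst.1 h), ← mul_sub, norm_mul, norm_e4, one_mul]
    exact key
  · rw [edge, edge, if_neg h, if_neg (fun h' => h (hst.2 h')), ← neg_sub', norm_neg,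
      ← map_sub, RCLike.norm_conj, ← mul_sub, norm_mul, norm_e4, one_mul]
    exact key

lemma e4_mul_w1 : e4 * w1 = w0 := by
  rw [w1, w0, cF]
  linear_combination (-I / (2 * ((√π : ℝ) : ℂ))) * e4_mul_conj

lemma edge_asymp {s : ℝ} (hs : s ≠ 0) {D : ℝ} (hD : D ≠ 0) :
    ‖edge s D - w0 / D‖ ≤ 1 / (amp s ^ 2 * |D| ^ 3) := by
  have ha := amp_pos hs
  have hD' : (D : ℂ) ≠ 0 := by exact_mod_cast hD
  have ha' : (amp s : ℂ) ≠ 0 := by exact_mod_cast ha.ne'
  set U : ℂ := e4 * ((amp s : ℂ) * W (amp s * D)) with hU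
  have hk : ‖U - w0 / D‖ ≤ 1 / (amp s ^ 2 * |D| ^ 3) := by
    have e : U - w0 / D = e4 * ((amp s : ℂ) * (W (amp s * D) - w1 / ((amp s * D : ℝ) : ℂ))) := by
      rw [hU, ← e4_mul_w1]; push_cast; field_simp
    rw [e, norm_mul, norm_mul, norm_e4, one_mul, Complex.norm_real, Real.norm_eq_abs,
      abs_of_pos ha]
    refine (mul_le_mul_of_nonneg_left (W_asymp (mul_ne_zero ha.ne' hD)) ha.le).trans_eq ?_
    rw [abs_mul, abs_of_pos ha]; field_simp
  unfold edge
  split_ifs with h
  · exact hk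
  · have e : -conj U - w0 / D = -conj (U - w0 / D) := by
      simp only [map_sub, map_div₀, map_neg, w0, Complex.conj_I, map_mul, Complex.conj_ofReal,
        map_ofNat]
      ring
    rw [e, norm_neg, RCLike.norm_conj]; exact hk

lemma sign_pos_mul {c : ℝ} (hc : 0 < c) (x : ℝ) : Real.sign (c * x) = Real.sign x := by
  rcases lt_trichotomy x 0 with h | h | h
  · rw [Real.sign_of_neg h, Real.sign_of_neg (mul_neg_of_pos_of_neg hc h)]
  · simp [h]
  · rw [Real.sign_of_pos h, Real.sign_of_pos (mul_pos hc h)]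

lemma sign_mono {x y : ℝ} (h : x ≤ y) : Real.sign x ≤ Real.sign y := by
  rcases lt_trichotomy x 0 with hx | hx | hx <;> rcases lt_trichotomy y 0 with hy | hy | hy <;>
    simp [Real.sign_of_neg, Real.sign_of_pos, hx, hy] <;> linarith

lemma F_split (z : ℝ) : F z = (Real.sign z : ℂ) / 2 + osc z * W z := by
  rw [W]
  linear_combination (-(F z - (Real.sign z : ℂ) / 2)) * gauss_I_mul_osc z

/-- The phase of a piece. -/
def quad (N s a A B t : ℝ) : ℝ := A + B * (t - a) + N * s / 2 * (t - a) ^ 2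

/-- The stationary value of the phase of a piece. -/
def crit (N s A B : ℝ) : ℝ := A - B ^ 2 / (2 * N * s)

/-- The main term of a piece with endpoint detunings Da and Db. -/
def mainTerm (s Da Db C : ℝ) : ℂ :=
  ph s * (amp s : ℂ) * ((|Real.sign Db - Real.sign Da| / 2 : ℝ) : ℂ) *
    Complex.exp ((C : ℂ) * I)

lemma piece_pos {N s : ℝ} (hN : 0 < N) (hs : 0 < s) {a b : ℝ} (hab : a ≤ b) (A B : ℝ) :
    ((√N / (2 * π) : ℝ) : ℂ) * ∫ t in a..b, Complex.exp ((quad N s a A B t : ℂ) * I)
      = mainTerm s (√(π / N) * B) (√(π / N) * (B + N * s * (b - a))) (crit N s A B)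
        + Complex.exp ((quad N s a A B b : ℂ) * I) * edge s (√(π / N) * (B + N * s * (b - a)))
        - Complex.exp ((A : ℂ) * I) * edge s (√(π / N) * B) := by
  have hπ := Real.pi_pos
  set k : ℝ := √(N * s / 2) with hk
  have hk0 : 0 < k := by positivity
  have hk2 : k ^ 2 = N * s / 2 := Real.sq_sqrt (by positivity)
  set v : ℝ := a - B / (N * s) with hv
  set C : ℝ := crit N s A B with hC
  have hquad : ∀ t, quad N s a A B t = C + (k * (t - v)) ^ 2 := by
    intro t
    rw [mul_pow, hk2, hC, hv, quad, crit]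
    field_simp
    ring
  have hexp : ∀ t, Complex.exp ((quad N s a A B t : ℂ) * I)
      = Complex.exp ((C : ℂ) * I) * osc (k * t - k * v) := by
    intro t
    rw [osc, gauss, ← Complex.exp_add, hquad]
    congr 1
    push_cast; ring
  have hsc1 : amp s * √(π / N) * (N * s) = k := by
    refine (sq_eq_sq₀ (mul_nonneg (mul_nonneg (amp_nonneg s) (by positivity)) (by positivity))
      hk0.le).1 ?_
    rw [mul_pow, mul_pow, amp_sq, Real.sq_sqrt (by positivity), hk2, abs_of_pos hs]
    field_simp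
  have hsc2 : √N / (2 * π) * √π / k = amp s := by
    refine (sq_eq_sq₀ (by positivity) (amp_nonneg s)).1 ?_
    rw [div_pow, mul_pow, div_pow, amp_sq, Real.sq_sqrt hN.le, Real.sq_sqrt hπ.le, hk2,
      abs_of_pos hs]
    field_simp
  have hcF : cF ≠ 0 := by
    intro h; have := cF_mul_fullInt; rw [h, zero_mul] at this; norm_num at this
  have hint : (∫ t in a..b, Complex.exp ((quad N s a A B t : ℂ) * I))
      = Complex.exp ((C : ℂ) * I) * ((k : ℂ)⁻¹ *
          ((F (k * b - k * v) - F (k * a - k * v)) / cF)) := by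
    simp_rw [hexp]
    rw [intervalIntegral.integral_const_mul, intervalIntegral.integral_comp_mul_sub _ hk0.ne',
      ← intervalIntegral.integral_interval_sub_left (continuous_osc.intervalIntegrable 0 _)
        (continuous_osc.intervalIntegrable 0 _), Complex.real_smul, F, F, ← mul_sub cF,
      mul_div_cancel_left₀ _ hcF, Complex.ofReal_inv]
  have hza : k * a - k * v = amp s * (√(π / N) * B) := by
    rw [hv, ← hsc1]; field_simp; ring
  have hzb : k * b - k * v = amp s * (√(π / N) * (B + N * s * (b - a))) := by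
    rw [hv, ← hsc1]; field_simp; ring
  set Da := √(π / N) * B with hDa
  set Db := √(π / N) * (B + N * s * (b - a)) with hDb
  have hmono : Real.sign Da ≤ Real.sign Db := by
    refine sign_mono (mul_le_mul_of_nonneg_left ?_ (Real.sqrt_nonneg _))
    nlinarith [mul_nonneg (mul_pos hN hs).le (sub_nonneg.2 hab)]
  have hosc : ∀ t, Complex.exp ((C : ℂ) * I) * osc (k * t - k * v)
      = Complex.exp ((quad N s a A B t : ℂ) * I) := fun t => (hexp t).symm
  have hqa : quad N s a A B a = A := by simp [quad]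
  have hcoef : ((√N / (2 * π) : ℝ) : ℂ) * (k : ℂ)⁻¹ / cF = e4 * (amp s : ℂ) := by
    have he : cF * e4 * ((√π : ℝ) : ℂ) = 1 := by
      have hne : ((√π : ℝ) : ℂ) ≠ 0 := by exact_mod_cast (by positivity : (√π : ℝ) ≠ 0)
      rw [cF]; field_simp; linear_combination e4_mul_conj
    rw [div_eq_iff hcF, ← hsc2]
    push_cast
    linear_combination (-((√N : ℝ) : ℂ) / (2 * (π : ℂ)) * (k : ℂ)⁻¹) * he
  rw [hint, F_split, F_split]
  have hpb := hosc b
  have hpa := hosc a
  rw [hqa] at hpa
  rw [hzb] at hpb ⊢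
  rw [hza] at hpa ⊢
  rw [sign_pos_mul (amp_pos hs.ne'), sign_pos_mul (amp_pos hs.ne')]
  simp only [mainTerm, edge, ph, if_pos hs, abs_of_nonneg (sub_nonneg.2 hmono)]
  rw [← hpb, ← hpa]
  push_cast at hcoef ⊢
  linear_combination (Complex.exp ((C : ℂ) * I) *
    (((Real.sign Db : ℂ) / 2 + osc (amp s * Db) * W (amp s * Db))
      - ((Real.sign Da : ℂ) / 2 + osc (amp s * Da) * W (amp s * Da)))) * hcoef

/-- A piece with linear speed: one main term and two edge terms, exactly. -/
theorem piece {N s : ℝ} (hN : 0 < N) (hs : s ≠ 0) {a b : ℝ} (hab : a ≤ b) (A B : ℝ) :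
    ((√N / (2 * π) : ℝ) : ℂ) * ∫ t in a..b, Complex.exp ((quad N s a A B t : ℂ) * I)
      = mainTerm s (√(π / N) * B) (√(π / N) * (B + N * s * (b - a))) (crit N s A B)
        + Complex.exp ((quad N s a A B b : ℂ) * I) * edge s (√(π / N) * (B + N * s * (b - a)))
        - Complex.exp ((A : ℂ) * I) * edge s (√(π / N) * B) := by
  rcases lt_or_gt_of_ne hs with hneg | hpos
  · have h := congrArg conj (piece_pos hN (neg_pos.2 hneg) hab (-A) (-B))
    have hq : ∀ t, quad N (-s) a (-A) (-B) t = -quad N s a A B t := fun t => by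
      simp only [quad]; ring
    have hc : crit N (-s) (-A) (-B) = -crit N s A B := by
      simp only [crit]; field_simp; ring
    have hD : √(π / N) * (-B + N * -s * (b - a)) = -(√(π / N) * (B + N * s * (b - a))) := by ring
    have hs' : ¬ 0 < s := hneg.le.not_gt
    rw [hD] at h
    simp only [map_mul, map_add, map_sub, Complex.conj_ofReal,
      ← intervalIntegral.intervalIntegral_conj, ← Complex.exp_conj, hq, hc, mul_neg, neg_mul, neg_neg, Complex.conj_I,
      Complex.ofReal_neg, mainTerm, edge, ph, amp_neg, W_neg, Real.sign_neg,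
      if_pos (neg_pos.2 hneg), map_neg] at h
    simp only [mainTerm, edge, ph, if_neg hs', map_mul, Complex.conj_ofReal]
    rw [show |Real.sign (√(π / N) * (B + N * s * (b - a))) - Real.sign (√(π / N) * B)|
      = |-Real.sign (√(π / N) * (B + N * s * (b - a))) - -Real.sign (√(π / N) * B)| by
        rw [← abs_neg]; congr 1; ring]
    linear_combination h
  · exact piece_pos hN hpos hab A B

end Vale.Agent.P110.Ultraflat.Fresnel

namespace Vale.Agent.P110.Ultra

open Vale.Agent.P110.Ultraflat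

lemma fresW_eq (z : ℝ) : fresW z = Fresnel.e4 * Fresnel.W z := by
  have hg : Complex.exp (-((z ^ 2 : ℝ) : ℂ) * I) = Fresnel.gauss I z := by
    rw [Fresnel.gauss]; congr 1; push_cast; ring
  have ho : (fun y : ℝ => Complex.exp (((y ^ 2 : ℝ) : ℂ) * I)) = Fresnel.osc := by
    funext y; rw [Fresnel.osc, Fresnel.gauss]; congr 1; push_cast; ring
  rw [fresW, hg, ho, Fresnel.W, Fresnel.F, Fresnel.cF, ← Fresnel.e4]
  push_cast
  linear_combination (-(Fresnel.gauss I z * ((Real.sqrt Real.pi : ℂ))⁻¹ *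
    ∫ y in (0:ℝ)..z, Fresnel.osc y)) * Fresnel.e4_mul_conj

lemma ampl_eq (s : ℝ) : ampl s = Fresnel.amp s := by simp [ampl, Fresnel.amp]

lemma detuning_eq {N : ℝ} (hN : 0 < N) (s D : ℝ) :
    D / Real.sqrt (2 * N * |s|) = Fresnel.amp s * (Real.sqrt (π / N) * D) := by
  have h : Real.sqrt (π / N) / Real.sqrt (2 * π * |s|) = 1 / Real.sqrt (2 * N * |s|) := by
    rcases eq_or_ne s 0 with rfl | hs
    · simp
    have := abs_pos.2 hs
    have := Real.pi_pos
    rw [← Real.sqrt_div (by positivity), ← Real.sqrt_one, ← Real.sqrt_div zero_le_one]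
    congr 1
    field_simp
  rw [Fresnel.amp]
  linear_combination (-D) * h

lemma endTerm_eq {N : ℕ} (hN : 0 < N) (s u φ k : ℝ) :
    endTerm N s u φ k =
      Complex.exp ((φ : ℂ) * I) * Fresnel.edge s (Real.sqrt (π / N) * (N * u - k)) := by
  rw [endTerm, ampl_eq, detuning_eq (by exact_mod_cast hN), Fresnel.edge, fresW_eq]
  · split_ifs
    · ring
    · simp only [map_mul, Complex.conj_ofReal]; ring

/-- M4. -/
theorem fresnelStmt : FresnelStmt := by
  refine ⟨⟨5, by norm_num, fun z => ⟨?_, ?_⟩, fun r z hr hr1 => ?_⟩, ?_⟩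
  · rw [fresW_eq, norm_mul, Fresnel.norm_e4, one_mul]
    linarith [Fresnel.norm_W_le z]
  · rw [fresW_eq, norm_mul, Fresnel.norm_e4, one_mul]
    rcases eq_or_ne z 0 with rfl | hz
    · simp
    · have := Fresnel.norm_W_le_inv hz
      rw [le_div_iff₀' (abs_pos.2 hz)] at this
      linarith
  · have h := Fresnel.W_scale_le (a := r) (b := 1) (by linarith) zero_le_one z
    rw [max_eq_right hr1, one_mul, one_mul, Complex.ofReal_one, one_mul,
      abs_of_nonpos (by linarith), neg_sub] at h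
    rw [fresW_eq, fresW_eq, mul_left_comm, ← mul_sub, norm_mul, Fresnel.norm_e4, one_mul]
    exact h
  intro N σ u φ t₀ t₁ k hN hσ ht
  have hN' : (0 : ℝ) < N := by exact_mod_cast hN
  set A : ℝ := φ - k * t₀ with hA
  set B : ℝ := (N : ℝ) * u - k with hB
  have hq : ∀ x : ℝ, φ + N * (u * (x - t₀) + σ * (x - t₀) ^ 2 / 2) - k * x
      = Fresnel.quad N σ t₀ A B x := fun x => by simp only [hA, hB, Fresnel.quad]; ring
  have hend : (N : ℝ) * (u + σ * (t₁ - t₀)) - k = B + N * σ * (t₁ - t₀) := by rw [hB]; ring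
  simp_rw [hq]
  rw [Fresnel.piece hN' hσ ht A B, endTerm_eq hN, endTerm_eq hN, hend, ← hB]
  congr 2
  have hc : 0 < Real.sqrt (π / N) := by positivity
  rw [Fresnel.mainTerm, Fresnel.sign_pos_mul hc, Fresnel.sign_pos_mul hc, inWeight, statTerm,
    ampl_eq, ← hB, ← hend,
    Fresnel.ph, Fresnel.crit]
  split_ifs with h
  · rw [Real.sign_of_pos h, Fresnel.e4, one_mul]
    push_cast
    rw [add_mul, Complex.exp_add]
    ring
  · rw [Real.sign_of_neg (lt_of_le_of_ne (le_of_not_gt h) hσ), Fresnel.e4, ← Complex.exp_conj]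
    push_cast
    simp only [map_mul, map_div₀, Complex.conj_ofReal, Complex.conj_I, map_ofNat]
    rw [add_mul, Complex.exp_add]
    ring_nf

end Vale.Agent.P110.Ultra
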