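import Vale.Agent.P110.Ultraflat.Glue.Series

/-!
P110, module M5: segments with prescribed phases are glued by steep bridges into a flat polynomial.

A bridge over a gap passes through a speed `v ∈ [τ/4, τ/2]` chosen to match the next phase modulo
`2π`; it costs a bounded multiple of `√(G/τ)` in every coefficient.
-/

namespace Vale.Agent.P110.Ultra.Glue

open Complex Set Filter
open scoped Real

noncomputable section

lemma cis_add_zsmul (x : ℝ) (n : ℤ) : cis (x + n • (2 * π)) = cis x := by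
  rw [cis, cis, zsmul_eq_mul]
  push_cast
  rw [add_mul, exp_add, show ((n : ℂ) * (2 * (π : ℂ))) * I = n * (2 * π * I) by ring,
    exp_int_mul_two_pi_mul_I, mul_one]

/-- Some speed in `[τ/4, τ/2]` gives every phase. -/
lemma exists_speed {τ c : ℝ} (hc : 0 < c) (h : 2 * π ≤ c * (τ / 4)) (r : ℝ) :
    ∃ v ∈ Icc (τ / 4) (τ / 2), cis (c * v) = cis r := by
  have hm := toIcoMod_mem_Ico Real.two_pi_pos (c * (τ / 4)) r
  refine ⟨toIcoMod Real.two_pi_pos (c * (τ / 4)) r / c, ⟨?_, ?_⟩, ?_⟩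
  · rw [le_div_iff₀ hc, mul_comm]; exact hm.1
  · rw [div_le_iff₀ hc]; nlinarith [hm.2]
  · rw [mul_div_cancel₀ _ hc.ne', ← cis_add_zsmul _ (toIcoDiv Real.two_pi_pos (c * (τ / 4)) r),
      toIcoMod_add_toIcoDiv_zsmul]

lemma ampl_le {τ G L d : ℝ} (hτ : 0 < τ) (hL : 0 < L) (hLG : L ≤ G) (hd : τ / 2 ≤ |d|) :
    ampl (d / L) ≤ Real.sqrt (G / τ) := by
  have hd0 : 0 < |d| := lt_of_lt_of_le (by linarith) hd
  rw [ampl, ← Real.sqrt_inv]
  refine Real.sqrt_le_sqrt ?_
  rw [abs_div, abs_of_pos hL, mul_div_assoc', inv_div, div_le_div_iff₀ (by positivity) hτ]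
  have h1 : τ ≤ 2 * π * |d| := by
    nlinarith [mul_le_mul_of_nonneg_right Real.two_le_pi hd0.le]
  calc L * τ ≤ G * τ := mul_le_mul_of_nonneg_right hLG hτ.le
    _ ≤ G * (2 * π * |d|) := mul_le_mul_of_nonneg_left h1 (by linarith)

lemma slope_le {τ L u u' : ℝ} (hτ : 0 < τ) (hL : 0 < L) (hu : u ∈ Icc (τ / 4) (1 - τ / 4))
    (hu' : u' ∈ Icc (τ / 4) (1 - τ / 4)) : 4 * π * |(u' - u) / L| ≤ 4 * π * (1 / L) := by
  rw [abs_div, abs_of_pos hL]
  gcongr
  rw [abs_le]
  constructor <;> linarith [hu.1, hu.2, hu'.1, hu'.2]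

lemma wide {τ u : ℝ} (hτ : 0 < τ) (hu : u ∈ Icc τ (1 - τ)) : u ∈ Icc (τ / 4) (1 - τ / 4) :=
  ⟨by linarith [hu.1], by linarith [hu.2]⟩

lemma low {τ v : ℝ} (hτ : τ ≤ 1 / 4) (hv : v ∈ Icc (τ / 4) (τ / 2)) :
    v ∈ Icc (τ / 4) (1 - τ / 4) :=
  ⟨hv.1, by linarith [hv.2]⟩

/-- The first half bridge. -/
lemma half_start {N : ℕ} {τ G a u r : ℝ} (hτ : 0 < τ) (hτ4 : τ ≤ 1 / 4) (ha : 0 < a)
    (haG : a ≤ G) (hu : u ∈ Icc τ (1 - τ)) (hN : 16 * π / (a * τ) ≤ N) :
    ∃ v V, Arc N τ 0 a 1 (cis r) v u (4 * π * (1 / a)) V ∧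
      ∀ k, ‖V k‖ ≤ 5 * Real.sqrt (G / τ) := by
  rw [div_le_iff₀ (by positivity)] at hN
  have hN0 : (0 : ℝ) < N := pos_of_mul_pos_left (lt_of_lt_of_le (by positivity) hN) (by positivity)
  obtain ⟨v, hv, hcis⟩ := exists_speed (c := (N : ℝ) * a / 2) (τ := τ) (by positivity)
    (by nlinarith) (r - N * a * u / 2)
  have hne : v ≠ u := (by linarith [hv.2, hu.1] : v < u).ne
  obtain ⟨h1, h2⟩ := piece (τ := τ) (a := 0) (b := a) (Nat.cast_pos.1 hN0) ha
    (low hτ4 hv) (wide hτ hu) hne 0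
  have e : cis (0 + N * ((a - 0) * (v + u) / 2)) = cis r := by
    rw [show 0 + (N : ℝ) * ((a - 0) * (v + u) / 2) = (N : ℝ) * a / 2 * v + N * a * u / 2 by ring,
      cis_add, hcis, ← cis_add, sub_add_cancel]
  rw [cis_zero, e] at h1
  refine ⟨v, _, h1.mono ?_, fun k => (h2 k).trans ?_⟩
  · rw [sub_zero]; exact slope_le hτ ha (low hτ4 hv) (wide hτ hu)
  · rw [sub_zero]
    gcongr
    refine ampl_le hτ ha haG (le_trans ?_ (le_abs_self _))
    linarith [hv.2, hu.1]

/-- The last half bridge. -/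
lemma half_end {N : ℕ} {τ G a u φ : ℝ} (hτ : 0 < τ) (hτ4 : τ ≤ 1 / 4) (ha : a < π)
    (haG : π ≤ a + G) (hu : u ∈ Icc τ (1 - τ)) (hN : 16 * π / ((π - a) * τ) ≤ N) :
    ∃ v V, Arc N τ a π (cis φ) 1 u v (4 * π * (1 / (π - a))) V ∧
      ∀ k, ‖V k‖ ≤ 5 * Real.sqrt (G / τ) := by
  have hL : 0 < π - a := sub_pos.2 ha
  rw [div_le_iff₀ (by positivity)] at hN
  have hN0 : (0 : ℝ) < N := pos_of_mul_pos_left (lt_of_lt_of_le (by positivity) hN) (by positivity)
  obtain ⟨v, hv, hcis⟩ := exists_speed (c := (N : ℝ) * (π - a) / 2) (τ := τ) (by positivity)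
    (by nlinarith) (-φ - N * (π - a) * u / 2)
  have hne : u ≠ v := (by linarith [hv.2, hu.1] : v < u).ne'
  obtain ⟨h1, h2⟩ := piece (τ := τ) (Nat.cast_pos.1 hN0) ha (wide hτ hu) (low hτ4 hv) hne φ
  have e : cis (φ + N * ((π - a) * (u + v) / 2)) = 1 := by
    rw [show φ + (N : ℝ) * ((π - a) * (u + v) / 2) =
      (N : ℝ) * (π - a) / 2 * v + (φ + N * (π - a) * u / 2) by ring, cis_add, hcis, ← cis_add,
      ← cis_zero]
    congr 1
    ring
  rw [e] at h1
  refine ⟨v, _, h1.mono (slope_le hτ hL (wide hτ hu) (low hτ4 hv)), fun k => (h2 k).trans ?_⟩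
  gcongr
  refine ampl_le hτ hL (by linarith) (le_trans ?_ (neg_le_abs _))
  linarith [hv.2, hu.1]

/-- A bridge over a gap, with any phases at both ends. -/
lemma bridge {N : ℕ} {τ G a b u u' φ r : ℝ} (hτ : 0 < τ) (hτ4 : τ ≤ 1 / 4) (hab : a < b)
    (habG : b ≤ a + G) (hu : u ∈ Icc τ (1 - τ)) (hu' : u' ∈ Icc τ (1 - τ))
    (hN : 16 * π / ((b - a) * τ) ≤ N) :
    ∃ V, Arc N τ a b (cis φ) (cis r) u u'
        (4 * π * (1 / ((b - a) / 2)) + 4 * π * (1 / ((b - a) / 2))) V ∧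
      ∀ k, ‖V k‖ ≤ 10 * Real.sqrt (G / τ) := by
  have hL : 0 < b - a := sub_pos.2 hab
  rw [div_le_iff₀ (by positivity)] at hN
  have hN0 : (0 : ℝ) < N := pos_of_mul_pos_left (lt_of_lt_of_le (by positivity) hN) (by positivity)
  obtain ⟨v, hv, hcis⟩ := exists_speed (c := (N : ℝ) * (b - a) / 2) (τ := τ) (by positivity)
    (by nlinarith) (r - φ - N * (b - a) * (u + u') / 4)
  have hN1 : 0 < N := Nat.cast_pos.1 hN0
  have hm1 : a < (a + b) / 2 := by linarith
  have hm2 : (a + b) / 2 < b := by linarith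
  have hl1 : (a + b) / 2 - a = (b - a) / 2 := by ring
  have hl2 : b - (a + b) / 2 = (b - a) / 2 := by ring
  obtain ⟨h1, g1⟩ := piece (τ := τ) hN1 hm1 (wide hτ hu) (low hτ4 hv)
    (by linarith [hv.2, hu.1] : v < u).ne' φ
  obtain ⟨h2, g2⟩ := piece (τ := τ) hN1 hm2 (low hτ4 hv) (wide hτ hu')
    (by linarith [hv.2, hu'.1] : v < u').ne (φ + N * (((a + b) / 2 - a) * (u + v) / 2))
  have e : cis (φ + N * (((a + b) / 2 - a) * (u + v) / 2) +
      N * ((b - (a + b) / 2) * (v + u') / 2)) = cis r := by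
    rw [show φ + (N : ℝ) * (((a + b) / 2 - a) * (u + v) / 2) +
      N * ((b - (a + b) / 2) * (v + u') / 2) =
      (N : ℝ) * (b - a) / 2 * v + (φ + N * (b - a) * (u + u') / 4) by ring, cis_add, hcis,
      ← cis_add]
    congr 1
    ring
  rw [e] at h2
  refine ⟨_, (h1.join h2).mono (add_le_add ?_ ?_), fun k => ?_⟩
  · rw [hl1]; exact slope_le hτ (by linarith) (wide hτ hu) (low hτ4 hv)
  · rw [hl2]; exact slope_le hτ (by linarith) (low hτ4 hv) (wide hτ hu')
  · refine (norm_add_le _ _).trans ((add_le_add (g1 k) (g2 k)).trans ?_)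
    have b1 : ampl ((v - u) / ((a + b) / 2 - a)) ≤ Real.sqrt (G / τ) :=
      ampl_le hτ (by linarith) (by linarith)
        (le_trans (by linarith [hv.2, hu.1]) (neg_le_abs _))
    have b2 : ampl ((u' - v) / (b - (a + b) / 2)) ≤ Real.sqrt (G / τ) :=
      ampl_le hτ (by linarith) (by linarith)
        (le_trans (by linarith [hv.2, hu'.1]) (le_abs_self _))
    linarith

/-- A segment is an arc. -/
lemma segment {N : ℕ} (hN : 0 < N) {τ : ℝ} (hτ : 0 < τ) {S : Seg} (hS : S.Valid τ) (θ : ℝ) :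
    Arc N τ (S.t 0) (S.t S.n) (cis θ) (cis (S.psi θ N S.n)) (S.u 0) (S.u S.n)
      (∑ j ∈ Finset.range S.n, 4 * π * |S.slope j|) (fun k => S.val θ N k) := by
  have key : ∀ j ≤ S.n, Arc N τ (S.t 0) (S.t j) (cis θ) (cis (S.psi θ N j)) (S.u 0) (S.u j)
      (∑ i ∈ Finset.range j, 4 * π * |S.slope i|)
      (fun k => ∑ i ∈ Finset.range j,
        pieceVal N (S.t i) (S.t (i + 1)) (S.psi θ N i) (S.u i) (S.slope i) k) := by
    intro j
    induction j with
    | zero =>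
      intro _
      simpa [Seg.psi] using Arc.nil N τ (S.t 0) (S.u 0) (norm_cis θ)
    | succ j ih =>
      intro hj
      obtain ⟨h1, -⟩ := piece (τ := τ) hN (hS.mono j hj)
        (wide hτ (hS.mem j (Nat.le_of_succ_le hj))) (wide hτ (hS.mem (j + 1) hj)) (hS.ne j hj)
        (S.psi θ N j)
      have e : S.psi θ N j + N * ((S.t (j + 1) - S.t j) * (S.u j + S.u (j + 1)) / 2) =
          S.psi θ N (j + 1) := by
        rw [Seg.psi, Seg.psi, Finset.sum_range_succ]; ring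
      rw [e] at h1
      simp only [Finset.sum_range_succ]
      exact (ih (Nat.le_of_succ_le hj)).join h1
  have hv : (fun k => S.val θ N k) = fun k => ∑ i ∈ Finset.range S.n,
      pieceVal N (S.t i) (S.t (i + 1)) (S.psi θ N i) (S.u i) (S.slope i) k := by
    funext k
    simp only [Seg.val, pieceVal, cN, Finset.mul_sum]
  rw [hv]
  exact key S.n le_rfl

end

end Vale.Agent.P110.Ultra.Glue

namespace Vale.Agent.P110.Ultra

open Complex Set Filter Glue
open scoped Real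

/-- M5. -/
theorem glueStmt : GlueStmt := by
  refine ⟨20, by norm_num, fun τ G hτ hτ4 hG S seg hS hval hfirst hfirstG hgap hlast hlastG
    η hη => ?_⟩
  have hB : 0 ≤ Real.sqrt (G / τ) := Real.sqrt_nonneg _
  have big : ∀ c : ℝ, ∀ᶠ N : ℕ in atTop, c ≤ N :=
    fun c => tendsto_natCast_atTop_atTop.eventually_ge_atTop c
  -- the prefix up to the end of each segment
  have chain : ∀ i < S, ∃ M : ℝ, 0 ≤ M ∧ ∀ᶠ N : ℕ in atTop, ∀ θ : ℕ → ℝ, ∃ v V,
      Arc N τ 0 ((seg i).t (seg i).n) 1 (cis ((seg i).psi (θ i) N (seg i).n)) v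
          ((seg i).u (seg i).n) M V ∧
        ∀ k, ‖V k - ∑ l ∈ Finset.range (i + 1), (seg l).val (θ l) N k‖ ≤
          (10 * i + 5) * Real.sqrt (G / τ) := by
    intro i
    induction i with
    | zero =>
      intro h0
      refine ⟨4 * π * (1 / (seg 0).t 0) +
        ∑ j ∈ Finset.range (seg 0).n, 4 * π * |(seg 0).slope j|, by positivity, ?_⟩
      filter_upwards [big (16 * π / ((seg 0).t 0 * τ)), eventually_gt_atTop 0] with N hN hN0 θ
      obtain ⟨v, V, hV, hVb⟩ := half_start (r := θ 0) hτ hτ4 hfirst hfirstG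
        ((hval 0 h0).mem 0 (Nat.zero_le _)) hN
      refine ⟨v, _, hV.join (segment hN0 hτ (hval 0 h0) (θ 0)), fun k => ?_⟩
      rw [Finset.sum_range_one, add_sub_cancel_right]
      simpa using hVb k
    | succ i ih =>
      intro hi
      obtain ⟨M, hM, hev⟩ := ih (Nat.lt_of_succ_lt hi)
      obtain ⟨hg, hgG⟩ := hgap i hi
      set L := (seg (i + 1)).t 0 - (seg i).t (seg i).n with hL
      have hL0 : 0 < L := sub_pos.2 hg
      refine ⟨M + (4 * π * (1 / (L / 2)) + 4 * π * (1 / (L / 2))) +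
        ∑ j ∈ Finset.range (seg (i + 1)).n, 4 * π * |(seg (i + 1)).slope j|, by positivity, ?_⟩
      filter_upwards [hev, big (16 * π / (L * τ)), eventually_gt_atTop 0] with N hevN hN hN0 θ
      obtain ⟨v, V, hV, hVb⟩ := hevN θ
      obtain ⟨V', hV', hV'b⟩ := bridge (φ := (seg i).psi (θ i) N (seg i).n) (r := θ (i + 1))
        hτ hτ4 hg hgG ((hval i (Nat.lt_of_succ_lt hi)).mem _ le_rfl)
        ((hval (i + 1) hi).mem 0 (Nat.zero_le _)) hN
      refine ⟨v, _, (hV.join hV').join (segment hN0 hτ (hval (i + 1) hi) (θ (i + 1))), fun k => ?_⟩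
      rw [Finset.sum_range_succ _ (i + 1), add_sub_add_right_eq_sub]
      calc ‖V k + V' k - ∑ l ∈ Finset.range (i + 1), (seg l).val (θ l) N k‖
          = ‖(V k - ∑ l ∈ Finset.range (i + 1), (seg l).val (θ l) N k) + V' k‖ := by
            congr 1; ring
        _ ≤ (10 * i + 5) * Real.sqrt (G / τ) + 10 * Real.sqrt (G / τ) :=
            (norm_add_le _ _).trans (add_le_add (hVb k) (hV'b k))
        _ = _ := by push_cast; ring
  obtain ⟨M, hM, hev⟩ := chain (S - 1) (by omega)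
  set last := seg (S - 1) with hlastdef
  have hD : 0 < π - last.t last.n := sub_pos.2 hlast
  set M' := M + 4 * π * (1 / (π - last.t last.n)) with hM'def
  have hM' : 0 ≤ M' := by positivity
  obtain ⟨N0, hN0⟩ := eventually_atTop.1 (hev.and ((big (4 / τ)).and
    ((big (128 * M' / (η * τ ^ 2))).and (big (16 * π / ((π - last.t last.n) * τ))))))
  refine ⟨N0, fun N hN θ => ?_⟩
  obtain ⟨hevN, h4, h128, h16⟩ := hN0 N hN
  obtain ⟨v, V, hV, hVb⟩ := hevN θ
  obtain ⟨w, V', hV', hV'b⟩ := half_end (φ := last.psi (θ (S - 1)) N last.n) hτ hτ4 hlast hlastG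
    ((hval (S - 1) (by omega)).mem _ le_rfl) h16
  have hflat := hV.join hV'
  refine ⟨fun k => xv (fun k => V k + V' k) k, fun k _ => ?_,
    flat_of_arc hτ hM' ?_ ?_ hflat⟩
  · have hkey : ‖V k + V' k - ∑ l ∈ Finset.range S, (seg l).val (θ l) N k‖ ≤
        (10 * S) * Real.sqrt (G / τ) := by
      have hS1 : S - 1 + 1 = S := by omega
      have h1 := hVb k
      rw [hS1] at h1
      calc ‖V k + V' k - ∑ l ∈ Finset.range S, (seg l).val (θ l) N k‖
          = ‖(V k - ∑ l ∈ Finset.range S, (seg l).val (θ l) N k) + V' k‖ := by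
            congr 1; ring
        _ ≤ (10 * ((S - 1 : ℕ) : ℝ) + 5) * Real.sqrt (G / τ) + 5 * Real.sqrt (G / τ) :=
            (norm_add_le _ _).trans (add_le_add h1 (hV'b k))
        _ = _ := by
            rw [Nat.cast_sub (by omega : 1 ≤ S)]
            push_cast; ring
    have h2 := (Complex.abs_re_le_norm _).trans hkey
    rw [Complex.sub_re] at h2
    simp only [xv, Int.cast_natCast]
    rw [← mul_sub, abs_mul, abs_two]
    nlinarith
  · rwa [div_le_iff₀' hτ] at h4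
  · rwa [div_le_iff₀' (by positivity)] at h128

end Vale.Agent.P110.Ultra
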