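import Vale.Agent.P110.Ultraflat.Defs

/-!
P110, construction of ultraflat Littlewood polynomials: one statement per module.
-/

namespace Vale.Agent.P110.Ultra

open Complex Finset

noncomputable section

/-- M1: a near square waveform with pairwise independent frequencies. -/
def WaveStmt : Prop :=
  ∀ η : ℝ, 0 < η → ∃ (d : ℕ) (P : Finset (Vec d)) (c : Vec d → ℝ), Admissible P ∧ Indep P ∧
    (∀ m ∈ P, c m ≠ 0) ∧ (∀ φ, |wave P c φ| ≤ 1 + η) ∧ 1 - η ≤ 2 * ∑ m ∈ P, c m ^ 2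

/-- M2: pairwise coprime moduli in prescribed ratios and the Gauss sum expansion of the core. -/
def CoreStmt : Prop :=
  ∀ (d : ℕ) (P : Finset (Vec d)), Admissible P → Indep P →
  ∀ r : Vec d → ℝ, (∀ m ∈ P, 0 < r m) →
  ∀ (ε : ℝ), 0 < ε → ∀ (Q : ℕ) (L1 : ℝ),
  ∃ (n : Vec d → ℕ) (b : Vec d) (Λ : ℝ), L1 ≤ Λ ∧ 0 < Λ ∧
    (∀ m ∈ P, Odd (n m) ∧ (0 < Q → Nat.Coprime (n m) Q) ∧ |(n m : ℝ) / Λ - r m| ≤ ε) ∧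
    ((P : Set (Vec d)).Pairwise fun m m' => Nat.Coprime (n m) (n m')) ∧
    ∀ m ∈ P, ∃ γ : ℕ → ℂ, (∀ i < qOf P n / n m, ‖γ i‖ ^ 2 = ((qOf P n / n m : ℕ) : ℝ)⁻¹) ∧
      ∀ k : ℕ, exp ((-(2 * Real.pi * ((dotZ m b : ℝ) * (k : ℝ) ^ 2 / (qOf P n : ℝ))) : ℝ) * I) =
        ∑ i ∈ range (qOf P n / n m),
          γ i * exp ((-(2 * Real.pi * ((i : ℝ) * k / ((qOf P n / n m : ℕ) : ℝ))) : ℝ) * I)

/-- M3: disjoint cells covering almost the whole circle. -/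
def PackingStmt : Prop :=
  ∀ (d : ℕ) (P : Finset (Vec d)), Admissible P → Indep P → P.Nonempty →
  ∀ δ : ℝ, 0 < δ → ∀ κ : ℝ, 0 < κ →
  ∃ Q : ℕ, 0 < Q ∧ Even Q ∧ ∃ L1 : ℝ, ∀ (n : Vec d → ℕ) (Λ : ℝ), L1 ≤ Λ → 0 < Λ →
    (∀ m ∈ P, Odd (n m) ∧ Nat.Coprime (n m) Q ∧
      κ ≤ (m 0 : ℝ) * Λ / n m ∧ (m 0 : ℝ) * Λ / n m ≤ 1 / κ) →
    ((P : Set (Vec d)).Pairwise fun m m' => Nat.Coprime (n m) (n m')) →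
    ∃ (R : ℕ) (g : ℕ → Vec d), CellsDisjoint P n Q R g ∧
      (1 - δ) * Q * Λ ≤ R * (2 * ∑ m ∈ P, (m 0 : ℝ) * Λ / n m)

/-- M4: the Fresnel tail and the exact value of a linear piece. -/
def FresnelStmt : Prop :=
  (∃ C : ℝ, 0 < C ∧ (∀ z : ℝ, ‖fresW z‖ ≤ C ∧ |z| * ‖fresW z‖ ≤ C) ∧
    ∀ r z : ℝ, 1 / 2 ≤ r → r ≤ 1 → ‖(r : ℂ) * fresW (r * z) - fresW z‖ ≤ C * Real.sqrt (1 - r)) ∧
  ∀ (N : ℕ) (σ u φ t₀ t₁ k : ℝ), 0 < N → σ ≠ 0 → t₀ ≤ t₁ →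
    ((Real.sqrt N / (2 * Real.pi) : ℝ) : ℂ) * ∫ x in t₀..t₁,
        exp (((φ + N * (u * (x - t₀) + σ * (x - t₀) ^ 2 / 2) - k * x : ℝ) : ℂ) * I) =
      (inWeight ((N : ℝ) * u) (N * (u + σ * (t₁ - t₀))) k : ℂ) * statTerm N σ u (φ - k * t₀) k +
        endTerm N σ (u + σ * (t₁ - t₀))
          (φ + N * (u * (t₁ - t₀) + σ * (t₁ - t₀) ^ 2 / 2) - k * t₁) k -
        endTerm N σ u (φ - k * t₀) k

/-- M5: segments with prescribed phases are glued by steep bridges into a flat polynomial. -/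
def GlueStmt : Prop :=
  ∃ C : ℝ, 0 < C ∧ ∀ (τ G : ℝ), 0 < τ → τ ≤ 1 / 4 → 0 < G →
    ∀ (S : ℕ) (seg : ℕ → Seg), 0 < S → (∀ i < S, (seg i).Valid τ) →
    0 < (seg 0).t 0 → (seg 0).t 0 ≤ G →
    (∀ i, i + 1 < S → (seg i).t (seg i).n < (seg (i + 1)).t 0 ∧
      (seg (i + 1)).t 0 ≤ (seg i).t (seg i).n + G) →
    (seg (S - 1)).t (seg (S - 1)).n < Real.pi → Real.pi ≤ (seg (S - 1)).t (seg (S - 1)).n + G →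
    ∀ η : ℝ, 0 < η → ∃ N0 : ℕ, ∀ N : ℕ, N0 ≤ N → ∀ θ : ℕ → ℝ, ∃ x : ℕ → ℝ,
      (∀ k < N, |x k - 2 * (∑ i ∈ range S, (seg i).val (θ i) N k).re| ≤
        C * (S + 1) * Real.sqrt (G / τ)) ∧
      ∀ t : ℝ, |‖lit N x t‖ - Real.sqrt N| ≤ η * Real.sqrt N

/-- M6: a layout of ridges in disjoint cells gives a relaxed flat polynomial. -/
def LayoutStmt : Prop :=
  ∀ η : ℝ, 0 < η → ∃ δ : ℝ, 0 < δ ∧
    ∀ (p R : ℕ) (lam τ B₀ : ℝ) (ι : Type) [Fintype ι] (ep : ι → ℕ) (x₀ : ι → ℤ) (w : ι → ℕ)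
      (amp : ι → ℂ),
    Even p → 0 < p → 0 < lam → 0 < τ → τ ≤ 1 / 4 → (R : ℝ) ≤ (1 - 2 * τ) * (p * lam) →
    (∀ a, ep a < R ∧ 0 < w a ∧ ‖amp a‖ ^ 2 = w a * lam) →
    (∀ a b, ∀ s < w a, ∀ s' < w b,
      (x₀ a + s ≡ x₀ b + s' [ZMOD (p : ℤ)] → a = b ∧ s = s') ∧
        ¬ x₀ a + s ≡ -1 - (x₀ b + s') [ZMOD (p : ℤ)]) →
    (1 - δ) * p ≤ 2 * ∑ a, (w a : ℝ) →
    (∀ r < R, ∀ k : ℕ, ∀ y : ℝ, |2 * (∑ a ∈ univ.filter fun a => ep a = r,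
        amp a * exp ((-(2 * Real.pi * ((x₀ a : ℝ) * k / p + (w a : ℝ) * y)) : ℝ) * I)).re| ≤ B₀) →
    ∃ N0 : ℕ, ∀ N : ℕ, N0 ≤ N → ∃ x : ℕ → ℝ, (∀ k < N, |x k| ≤ B₀ + η) ∧
      ∀ t : ℝ, |‖lit N x t‖ - Real.sqrt N| ≤ η * Real.sqrt N

/-- The relaxed problem. -/
def RelaxedStmt : Prop :=
  ∀ η : ℝ, 0 < η → ∃ N0 : ℕ, ∀ N : ℕ, N0 ≤ N → ∃ x : ℕ → ℝ, (∀ k < N, |x k| ≤ 1 + η) ∧
    ∀ t : ℝ, |‖lit N x t‖ - Real.sqrt N| ≤ η * Real.sqrt N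

/-- M7: partial colouring iterated to a colouring of small discrepancy. -/
def SpencerStmt : Prop :=
  ∃ K : ℝ, 0 < K ∧ ∀ (n m : ℕ) (a : Fin m → Fin n → ℝ), n ≤ m → (∀ i j, |a i j| ≤ 1) →
    ∃ χ : Fin n → ℝ, (∀ j, χ j = 1 ∨ χ j = -1) ∧
      ∀ i, |∑ j, a i j * χ j| ≤ K * Real.sqrt (n * Real.log (2 * m / n))

/-- M8: rounding a polynomial whose coefficients are close to the unit interval's ends. -/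
def RoundingStmt : Prop :=
  ∀ η : ℝ, 0 < η → ∃ δ : ℝ, 0 < δ ∧ ∃ N0 : ℕ, ∀ N : ℕ, N0 ≤ N → ∀ x : ℕ → ℝ,
    (∀ k < N, |x k| ≤ 1) → ∑ k ∈ range N, (1 - |x k|) ≤ δ * N →
    ∃ s : ℕ → ℝ, (∀ k < N, s k = 1 ∨ s k = -1) ∧
      ∀ t : ℝ, ‖lit N s t - lit N x t‖ ≤ η * Real.sqrt N

end

end Vale.Agent.P110.Ultra
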