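import Vale.Agent.P110.Ultraflat.Interfaces

/-!
P110, construction of ultraflat Littlewood polynomials: tiling blocks listed from left to right.
-/

namespace Vale.Agent.P110.Ultra

open Finset

noncomputable section

/-- Blocks tiling `[0, P)` are consecutive in a suitable order. -/
theorem arrange {β : Type} [Fintype β] (P : ℕ) (hP : 0 < P) (st len : β → ℕ) (hlen : ∀ b, 0 < len b)
    (hsub : ∀ b, st b + len b ≤ P) (hcov : ∀ y < P, ∃ b, st b ≤ y ∧ y < st b + len b)
    (huniq : ∀ b b' y, st b ≤ y → y < st b + len b → st b' ≤ y → y < st b' + len b' → b = b') :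
    ∃ (S : ℕ) (e : ℕ → β), 0 < S ∧ S ≤ P ∧ st (e 0) = 0 ∧
      (∀ i, i + 1 < S → st (e (i + 1)) = st (e i) + len (e i)) ∧
      st (e (S - 1)) + len (e (S - 1)) = P ∧
      ∀ f : β → ℂ, ∑ i ∈ range S, f (e i) = ∑ b, f b := by
  classical
  have hinj : Function.Injective st := fun b b' h =>
    huniq b b' (st b) le_rfl (by linarith [hlen b]) h.ge (by linarith [hlen b'])
  set T : Finset ℕ := univ.image st with hT
  have hTP : T ⊆ range P := by
    intro y hy
    obtain ⟨b, -, rfl⟩ := mem_image.1 hy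
    exact mem_range.2 (by linarith [hsub b, hlen b])
  set o : Fin T.card ↪o ℕ := T.orderEmbOfFin rfl
  have ho : ∀ i, ∃ b, st b = o i := fun i => by
    obtain ⟨b, -, hb⟩ := mem_image.1 (T.orderEmbOfFin_mem rfl i)
    exact ⟨b, hb⟩
  choose bf hbf using ho
  have hrange : ∀ b, ∃ i, o i = st b := fun b => by
    have : st b ∈ Set.range o := by
      rw [Finset.range_orderEmbOfFin]; exact mem_image_of_mem _ (mem_univ b)
    exact this
  obtain ⟨b₀, hb₀, hb₀'⟩ := hcov 0 hP
  have hS : 0 < T.card := card_pos.2 ⟨st b₀, mem_image_of_mem _ (mem_univ _)⟩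
  have : Nonempty β := ⟨b₀⟩
  -- the end of a block is `P` or the next start
  have hend : ∀ i : Fin T.card, o i + len (bf i) < P →
      ∃ j : Fin T.card, i < j ∧ o j = o i + len (bf i) := by
    intro i hy
    obtain ⟨b, hb1, hb2⟩ := hcov _ hy
    have hst : st b = o i + len (bf i) := by
      by_contra hne
      have hlt : st b ≤ o i + len (bf i) - 1 := by omega
      have := huniq b (bf i) (o i + len (bf i) - 1) hlt (by omega)
        (by rw [hbf]; have := hlen (bf i); omega) (by rw [hbf]; have := hlen (bf i); omega)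
      subst this
      rw [hbf] at hb2
      omega
    obtain ⟨j, hj⟩ := hrange b
    refine ⟨j, o.lt_iff_lt.1 ?_, by omega⟩
    have := hlen (bf i)
    omega
  have hge : ∀ i j : Fin T.card, i < j → o i + len (bf i) ≤ o j := by
    intro i j hij
    by_contra hlt
    have hlt' := o.lt_iff_lt.2 hij
    have := huniq (bf i) (bf j) (o j) (by rw [hbf]; omega) (by rw [hbf]; omega)
      (by rw [hbf]) (by rw [hbf]; have := hlen (bf j); omega)
    have h2 := hbf j
    rw [← this, hbf i] at h2
    omega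
  refine ⟨T.card, fun i => if h : i < T.card then bf ⟨i, h⟩ else b₀, hS,
    (card_le_card hTP).trans_eq (card_range P), ?_, fun i hi => ?_, ?_, fun f => ?_⟩
  · simp only [hS, dite_true]
    obtain ⟨j, hj⟩ := hrange b₀
    have h : o ⟨0, hS⟩ ≤ o j := o.le_iff_le.2 (Nat.zero_le _)
    rw [hbf]
    omega
  · simp only [hi, (show i < T.card by omega), dite_true]
    have h1 := hge ⟨i, by omega⟩ ⟨i + 1, hi⟩ (Nat.lt_succ_self i)
    have h2 := hsub (bf ⟨i + 1, hi⟩)
    have h3 := hlen (bf ⟨i + 1, hi⟩)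
    rw [hbf] at h2 ⊢
    obtain ⟨j, hij, hj⟩ := hend ⟨i, by omega⟩ (by omega)
    have h4 : o ⟨i + 1, hi⟩ ≤ o j := o.le_iff_le.2 (Nat.succ_le_of_lt hij)
    rw [hbf]
    omega
  · simp only [(show T.card - 1 < T.card by omega), dite_true]
    have h2 := hsub (bf ⟨T.card - 1, by omega⟩)
    rw [hbf] at h2 ⊢
    by_contra hne
    obtain ⟨j, hij, -⟩ := hend ⟨T.card - 1, by omega⟩ (by omega)
    have := j.2
    simp only [Fin.lt_def] at hij
    omega
  · rw [← Fin.sum_univ_eq_sum_range]
    refine Fintype.sum_bijective (fun i : Fin T.card => bf i) ⟨fun i j h => ?_, fun b => ?_⟩ _ _ fun i => ?_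
    · exact o.injective (by rw [← hbf, ← hbf, show bf i = bf j from h])
    · obtain ⟨j, hj⟩ := hrange b
      exact ⟨j, hinj (by rw [hbf, hj])⟩
    · simp

end

end Vale.Agent.P110.Ultra
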