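import Vale.Agent.P110.Ultraflat.Interfaces

/-!
P110, construction of ultraflat Littlewood polynomials: the staircase of an atom and the segment of a fill cell.
-/

namespace Vale.Agent.P110.Ultra

open Complex Finset

noncomputable section

/-- Relative lengths of the steps of the staircase. -/
def stairD (κ : ℝ) (J j : ℕ) : ℝ := if j = J then 1 - 2 * κ else κ / (2 * J)

/-- Relative heights of the steps. -/
def stairR (q : ℝ) (J j : ℕ) : ℝ := q ^ Nat.dist j J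

/-- Relative position of a knot in the speed. -/
def stairX (κ : ℝ) (J j : ℕ) : ℝ := ∑ i ∈ range j, stairD κ J i

/-- Relative position of a knot in time. -/
def stairT (κ q : ℝ) (J j : ℕ) : ℝ := ∑ i ∈ range j, stairD κ J i * stairR q J i

/-- The segment of an atom of the epoch `r` at the cells `x, …, x + w - 1`. -/
def atomSeg (p : ℕ) (lam τ κ q : ℝ) (J r : ℕ) (x : ℤ) (w : ℕ) : Seg :=
  ⟨2 * J + 1, fun j => 2 * Real.pi * ((x + w * κ / 2 + w * stairT κ q J j) / p),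
    fun j => τ + (r + stairX κ J j) / (p * lam)⟩

/-- The segment of the `j`-th fill cell `y`. -/
def fillSeg (p : ℕ) (τ κ : ℝ) (F j y : ℕ) : Seg :=
  ⟨1, fun i => 2 * Real.pi * ((y + κ / 2 + i * (1 - κ)) / p),
    fun i => τ + (1 - 2 * τ) * ((j + i : ℕ) : ℝ) / F⟩

/-- The common height of the stationary phases of an epoch. -/
def ridgeY (p : ℕ) (lam τ κ q : ℝ) (J r j N : ℕ) (k : ℝ) : ℝ :=
  k * (κ / 2 + stairT κ q J j) / p +
    lam * stairR q J j * (N * (τ + (r + stairX κ J j) / (p * lam)) - k) ^ 2 / (2 * N) -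
    N / p * ∑ i ∈ range j, stairD κ J i * stairR q J i *
      ((τ + (r + stairX κ J i) / (p * lam) + (τ + (r + stairX κ J (i + 1)) / (p * lam))) / 2)

variable {κ q : ℝ} {J : ℕ}

theorem stairD_pos (hκ : 0 < κ) (hκ' : κ ≤ 1 / 4) (hJ : 0 < J) (j : ℕ) : 0 < stairD κ J j := by
  unfold stairD; split_ifs
  · linarith
  · positivity

theorem stairD_ge (hκ : 0 < κ) (hκ' : κ ≤ 1 / 4) (hJ : 0 < J) (j : ℕ) : κ / (2 * J) ≤ stairD κ J j := by
  unfold stairD; split_ifs
  · have : (1 : ℝ) ≤ J := by exact_mod_cast hJ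
    rw [div_le_iff₀ (by positivity)]; nlinarith
  · exact le_rfl

theorem stairX_succ (κ : ℝ) (J j : ℕ) : stairX κ J (j + 1) = stairX κ J j + stairD κ J j :=
  sum_range_succ _ _

theorem stairT_succ (κ q : ℝ) (J j : ℕ) :
    stairT κ q J (j + 1) = stairT κ q J j + stairD κ J j * stairR q J j := sum_range_succ _ _

theorem stairX_total (hJ : 0 < J) : stairX κ J (2 * J + 1) = 1 - κ := by
  have hs : stairX κ J (2 * J + 1) = ∑ i ∈ range (2 * J + 1), (κ / (2 * J) +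
      if i = J then 1 - 2 * κ - κ / (2 * J) else 0) := by
    refine sum_congr rfl fun i _ => ?_
    unfold stairD; split_ifs <;> ring
  have hJ' : (J : ℝ) ≠ 0 := Nat.cast_ne_zero.2 hJ.ne'
  rw [hs, sum_add_distrib, sum_const, card_range, sum_ite_eq', if_pos (by simp; omega),
    nsmul_eq_mul]
  push_cast
  field_simp
  ring

theorem stairX_mem (hκ : 0 < κ) (hκ' : κ ≤ 1 / 4) (hJ : 0 < J) {j : ℕ} (hj : j ≤ 2 * J + 1) :
    0 ≤ stairX κ J j ∧ stairX κ J j ≤ 1 - κ :=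
  ⟨sum_nonneg fun i _ => (stairD_pos hκ hκ' hJ i).le, (stairX_total (κ := κ) hJ) ▸
    sum_le_sum_of_subset_of_nonneg (range_subset_range.2 hj) fun i _ _ => (stairD_pos hκ hκ' hJ i).le⟩

theorem stairR_mem (hq : 0 < q) (hq' : q ≤ 1) (j : ℕ) : 0 < stairR q J j ∧ stairR q J j ≤ 1 :=
  ⟨pow_pos hq _, pow_le_one₀ hq.le hq'⟩

theorem stairR_step (hq : 0 < q) (hq' : q ≤ 1) (j : ℕ) :
    q ^ 2 * stairR q J j ≤ stairR q J (j + 1) ∧ q ^ 2 * stairR q J (j + 1) ≤ stairR q J j := by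
  have h1 := pow_le_pow_of_le_one hq.le hq' (show Nat.dist (j + 1) J ≤ 2 + Nat.dist j J by
    simp only [Nat.dist]; omega)
  have h2 := pow_le_pow_of_le_one hq.le hq' (show Nat.dist j J ≤ 2 + Nat.dist (j + 1) J by
    simp only [Nat.dist]; omega)
  rw [pow_add] at h1 h2
  exact ⟨h1, h2⟩

theorem stairR_end (q : ℝ) (J : ℕ) : stairR q J 0 = q ^ J ∧ stairR q J (2 * J) = q ^ J := by
  constructor <;> (unfold stairR; congr 1; simp only [Nat.dist]; omega)

theorem stairT_mono (hκ : 0 < κ) (hκ' : κ ≤ 1 / 4) (hJ : 0 < J) (hq : 0 < q) (j : ℕ) :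
    stairT κ q J j < stairT κ q J (j + 1) := by
  rw [stairT_succ]
  have h := mul_pos (stairD_pos hκ hκ' hJ j) (pow_pos hq (Nat.dist j J))
  simp only [stairR]
  linarith

theorem stairT_total (hκ : 0 < κ) (hκ' : κ ≤ 1 / 4) (hJ : 0 < J) (hq : 0 < q) (hq' : q ≤ 1) :
    1 - 2 * κ ≤ stairT κ q J (2 * J + 1) ∧ stairT κ q J (2 * J + 1) ≤ 1 - κ := by
  refine ⟨?_, ?_⟩
  · have h := single_le_sum (f := fun i => stairD κ J i * stairR q J i)
      (fun i _ => mul_nonneg (stairD_pos hκ hκ' hJ i).le (stairR_mem hq hq' i).1.le)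
      (mem_range.2 (show J < 2 * J + 1 by omega))
    simpa [stairD, stairR, stairT] using h
  · rw [← stairX_total (κ := κ) hJ]
    exact sum_le_sum fun i _ =>
      mul_le_of_le_one_right (stairD_pos hκ hκ' hJ i).le (stairR_mem hq hq' i).2

section

variable {p : ℕ} {lam τ : ℝ} {r w : ℕ} {x : ℤ}

theorem atomSeg_slope (hp : 0 < p) (hlam : 0 < lam) (hκ : 0 < κ) (hκ' : κ ≤ 1 / 4) (hJ : 0 < J)
    (hq : 0 < q) (hw : 0 < w) (j : ℕ) :
    (atomSeg p lam τ κ q J r x w).slope j = (2 * Real.pi * (w * lam * stairR q J j))⁻¹ := by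
  have h1 := stairD_pos hκ hκ' hJ j
  have h2 : 0 < stairR q J j := pow_pos hq _
  have hw' : (0 : ℝ) < w := Nat.cast_pos.2 hw
  have hp' : (0 : ℝ) < p := Nat.cast_pos.2 hp
  have ht : 2 * Real.pi * ((x + w * κ / 2 + w * stairT κ q J (j + 1)) / p) -
      2 * Real.pi * ((x + w * κ / 2 + w * stairT κ q J j) / p) =
      2 * Real.pi * (w * (stairD κ J j * stairR q J j)) / p := by
    rw [stairT_succ]; ring
  have hu : τ + ((r : ℝ) + stairX κ J (j + 1)) / (p * lam) - (τ + (r + stairX κ J j) / (p * lam)) =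
      stairD κ J j / (p * lam) := by
    rw [stairX_succ]; ring
  unfold Seg.slope atomSeg
  rw [ht, hu]
  field_simp

theorem atomSeg_ampl (hp : 0 < p) (hlam : 0 < lam) (hκ : 0 < κ) (hκ' : κ ≤ 1 / 4) (hJ : 0 < J)
    (hq : 0 < q) (hw : 0 < w) (j : ℕ) :
    ampl ((atomSeg p lam τ κ q J r x w).slope j) = Real.sqrt (w * lam) * Real.sqrt (stairR q J j) := by
  have h2 : 0 < stairR q J j := pow_pos hq _
  rw [atomSeg_slope hp hlam hκ hκ' hJ hq hw, ampl, abs_of_pos (by positivity),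
    ← Real.sqrt_mul (by positivity), ← Real.sqrt_inv]
  congr 1
  field_simp

theorem atomSeg_valid (hp : 0 < p) (hlam : 0 < lam) (hκ : 0 < κ) (hκ' : κ ≤ 1 / 4) (hJ : 0 < J)
    (hq : 0 < q) (hw : 0 < w) {R : ℕ} (hr : r < R) (hR : (R : ℝ) ≤ (1 - 2 * τ) * (p * lam)) :
    (atomSeg p lam τ κ q J r x w).Valid τ := by
  have hp' : (0 : ℝ) < p := Nat.cast_pos.2 hp
  have hw' : (0 : ℝ) < w := Nat.cast_pos.2 hw
  refine ⟨Nat.succ_pos _, fun j _ => ?_, fun j hj => ?_, fun j _ => ?_⟩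
  · simp only [atomSeg]
    gcongr 2 * Real.pi * ((x + w * κ / 2 + w * ?_) / p)
    exact stairT_mono hκ hκ' hJ hq j
  · obtain ⟨h0, h1⟩ := stairX_mem hκ hκ' hJ (show j ≤ 2 * J + 1 from hj)
    have hrR : (r : ℝ) + 1 ≤ R := by exact_mod_cast hr
    simp only [atomSeg]
    refine ⟨le_add_of_nonneg_right (by positivity), ?_⟩
    rw [← le_sub_iff_add_le', div_le_iff₀ (by positivity)]
    nlinarith
  · simp only [atomSeg, stairX_succ]
    intro h
    have := stairD_pos hκ hκ' hJ j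
    field_simp at h
    linarith

theorem atomSeg_gap (hp : 0 < p) (hlam : 0 < lam) (hκ : 0 < κ) (hκ' : κ ≤ 1 / 4) (hJ : 0 < J) (j : ℕ) :
    (atomSeg p lam τ κ q J r x w).u j + κ / (2 * J) / (p * lam) ≤
      (atomSeg p lam τ κ q J r x w).u (j + 1) := by
  simp only [atomSeg, stairX_succ]
  rw [add_assoc, ← add_div, add_assoc]
  gcongr
  exact stairD_ge hκ hκ' hJ j

theorem atomSeg_shift (m : ℤ) (hp : 0 < p) (j : ℕ) :
    (atomSeg p lam τ κ q J r (x + p * m) w).t j =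
      (atomSeg p lam τ κ q J r x w).t j + 2 * Real.pi * m := by
  have hp' : (p : ℝ) ≠ 0 := Nat.cast_ne_zero.2 hp.ne'
  simp only [atomSeg]
  push_cast
  field_simp
  ring

/-- The stationary term of a step is the amplitude times the common phase of the epoch. -/
theorem atomSeg_stat (hp : 0 < p) (hlam : 0 < lam) (hκ : 0 < κ) (hκ' : κ ≤ 1 / 4) (hJ : 0 < J)
    (hq : 0 < q) (hw : 0 < w) {N : ℕ} (hN : 0 < N) (k : ℝ) (A : ℂ) (hA : ‖A‖ = Real.sqrt (w * lam))
    (j : ℕ) :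
    statTerm N ((atomSeg p lam τ κ q J r x w).slope j) ((atomSeg p lam τ κ q J r x w).u j)
        ((atomSeg p lam τ κ q J r x w).psi (A.arg - Real.pi / 4) N j -
          k * (atomSeg p lam τ κ q J r x w).t j) k =
      (Real.sqrt (stairR q J j) : ℂ) * (A * exp ((-(2 * Real.pi *
        ((x : ℝ) * k / p + (w : ℝ) * ridgeY p lam τ κ q J r j N k)) : ℝ) * I)) := by
  have h2 : 0 < stairR q J j := pow_pos hq _
  have hp' : (p : ℝ) ≠ 0 := Nat.cast_ne_zero.2 hp.ne'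
  have hN' : (N : ℝ) ≠ 0 := Nat.cast_ne_zero.2 hN.ne'
  have hw' : (0 : ℝ) < w := Nat.cast_pos.2 hw
  have hslope := atomSeg_slope (τ := τ) (r := r) (x := x) hp hlam hκ hκ' hJ hq hw j
  have hpsi : (atomSeg p lam τ κ q J r x w).psi (A.arg - Real.pi / 4) N j =
      (A.arg - Real.pi / 4) + 2 * Real.pi * w * (N / p * ∑ i ∈ range j, stairD κ J i * stairR q J i *
        ((τ + (r + stairX κ J i) / (p * lam) + (τ + (r + stairX κ J (i + 1)) / (p * lam))) / 2)) := by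
    simp only [Seg.psi, atomSeg, mul_sum]
    congr 1
    refine sum_congr rfl fun i _ => ?_
    rw [stairT_succ]
    field_simp
    ring
  rw [statTerm, atomSeg_ampl hp hlam hκ hκ' hJ hq hw, hpsi, hslope, Real.sign_of_pos (by positivity),
    ofReal_mul, ← hA]
  conv_rhs => rw [← norm_mul_exp_arg_mul_I A, mul_assoc, ← exp_add, ← add_mul, ← ofReal_add]
  rw [mul_comm (‖A‖ : ℂ), mul_assoc]
  congr 4
  rw [ofReal_inj]
  simp only [ridgeY, atomSeg]
  field_simp
  ring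

end

section

variable {p : ℕ} {τ : ℝ} {F : ℕ}

theorem fillSeg_slope (hp : 0 < p) (hκ' : κ ≤ 1 / 4) (hF : 0 < F) (j y : ℕ) :
    (fillSeg p τ κ F j y).slope 0 = (1 - 2 * τ) * p / (2 * Real.pi * (1 - κ) * F) := by
  have hp' : (p : ℝ) ≠ 0 := Nat.cast_ne_zero.2 hp.ne'
  have hF' : (F : ℝ) ≠ 0 := Nat.cast_ne_zero.2 hF.ne'
  have hk : (1 - κ) ≠ 0 := by linarith
  simp only [Seg.slope, fillSeg]
  push_cast
  field_simp
  ring

theorem fillSeg_ampl_le (hp : 0 < p) (hκ : 0 < κ) (hκ' : κ ≤ 1 / 4) (hF : 0 < F) (hτ : τ ≤ 1 / 4)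
    (j y : ℕ) : ampl ((fillSeg p τ κ F j y).slope 0) ≤ Real.sqrt (2 * F / p) := by
  have hp' : (0 : ℝ) < p := Nat.cast_pos.2 hp
  have hF' : (0 : ℝ) < F := Nat.cast_pos.2 hF
  have hk : 0 < 1 - κ := by linarith
  have ht : 0 < 1 - 2 * τ := by linarith
  rw [fillSeg_slope hp hκ' hF, ampl, abs_of_pos (by positivity), ← Real.sqrt_inv]
  refine Real.sqrt_le_sqrt ?_
  rw [show 2 * Real.pi * ((1 - 2 * τ) * p / (2 * Real.pi * (1 - κ) * F)) =
    (1 - 2 * τ) * p / ((1 - κ) * F) by field_simp, inv_div, div_le_div_iff₀ (by positivity) hp']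
  nlinarith [mul_pos hF' hp']

theorem fillSeg_valid (hp : 0 < p) (hκ : 0 < κ) (hκ' : κ ≤ 1 / 4) (hτ : τ ≤ 1 / 4) {j : ℕ} (hj : j < F)
    (y : ℕ) : (fillSeg p τ κ F j y).Valid τ := by
  have hp' : (0 : ℝ) < p := Nat.cast_pos.2 hp
  have hF' : (0 : ℝ) < F := Nat.cast_pos.2 (by omega)
  have ht : 0 < 1 - 2 * τ := by linarith
  refine ⟨Nat.one_pos, fun i hi => ?_, fun i hi => ?_, fun i hi => ?_⟩
  · simp only [fillSeg]
    gcongr
    · linarith
    · omega
  · simp only [fillSeg]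
    have : ((j + i : ℕ) : ℝ) ≤ F := by exact_mod_cast (show j + i ≤ F by simp only [fillSeg] at hi; omega)
    refine ⟨le_add_of_nonneg_right (by positivity), ?_⟩
    rw [← le_sub_iff_add_le', div_le_iff₀ hF']
    nlinarith
  · simp only [fillSeg]
    intro h
    push_cast at h
    field_simp at h
    nlinarith

end

end

end Vale.Agent.P110.Ultra
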