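import Vale.Agent.P110.Ultraflat.LayoutSeg
import Vale.Agent.P110.Ultraflat.LayoutStair
import Vale.Agent.P110.Ultraflat.LayoutArrange

/-!
P110, construction of ultraflat Littlewood polynomials: cells of the lower half circle and the segments placed there.
-/

namespace Vale.Agent.P110.Ultra

open Complex Finset

noncomputable section

variable {ι : Type}

/-- The first cell in the lower half of an atom or of its mirror image. -/
def lowStart (p : ℕ) (x₀ : ι → ℤ) (w : ι → ℕ) (a : ι) : ℕ :=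
  if 2 * (x₀ a % p) < p then (x₀ a % p).toNat else ((p : ℤ) - x₀ a % p - w a).toNat

/-- An atom lies within a half circle. -/
theorem atom_half (p : ℕ) (hpe : Even p) (hp : 0 < p) (x₀ : ι → ℤ) (w : ι → ℕ)
    (hdis : ∀ a b, ∀ s < w a, ∀ s' < w b,
      ¬ x₀ a + s ≡ -1 - (x₀ b + s') [ZMOD (p : ℤ)]) (a : ι) :
    (2 * (x₀ a % p) < p → 2 * (x₀ a % p + w a) ≤ p) ∧ x₀ a % p + w a ≤ p := by
  have h0 := Int.emod_nonneg (x₀ a) (show (p : ℤ) ≠ 0 by omega)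
  have h1 := Int.emod_lt_of_pos (x₀ a) (show (0 : ℤ) < p by omega)
  have h2 : x₀ a = x₀ a % p + p * (x₀ a / p) := (Int.emod_add_mul_ediv _ _).symm
  obtain ⟨h, rfl⟩ := hpe
  constructor
  · intro hlow
    by_contra hc
    set s : ℕ := h - 1 - (x₀ a % ((h + h : ℕ) : ℤ)).toNat with hs
    refine hdis a a s (by omega) (s + 1) (by omega) (Int.modEq_iff_dvd.2 ⟨-1 - 2 * (x₀ a / ((h + h : ℕ) : ℤ)), ?_⟩)
    push_cast at *
    have : ((s : ℕ) : ℤ) = h - 1 - x₀ a % (h + h) := by omega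
    rw [this]
    nlinarith [h2]
  · by_contra hc
    set s : ℕ := (h + h - 1 - (x₀ a % ((h + h : ℕ) : ℤ)).toNat) with hs
    refine hdis a a s (by omega) (s + 1) (by omega) (Int.modEq_iff_dvd.2 ⟨-2 - 2 * (x₀ a / ((h + h : ℕ) : ℤ)), ?_⟩)
    push_cast at *
    have : ((s : ℕ) : ℤ) = h + h - 1 - x₀ a % (h + h) := by omega
    rw [this]
    nlinarith [h2]

/-- A cell of a lower block comes from the atom or from its mirror image. -/
theorem low_cell (p : ℕ) (hpe : Even p) (hp : 0 < p) (x₀ : ι → ℤ) (w : ι → ℕ) (hw : ∀ a, 0 < w a)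
    (hdis : ∀ a b, ∀ s < w a, ∀ s' < w b,
      ¬ x₀ a + s ≡ -1 - (x₀ b + s') [ZMOD (p : ℤ)]) (a : ι) :
    2 * (lowStart p x₀ w a + w a) ≤ p ∧ ∀ y, lowStart p x₀ w a ≤ y → y < lowStart p x₀ w a + w a →
      ∃ s < w a, (y : ℤ) ≡ x₀ a + s [ZMOD (p : ℤ)] ∨ (y : ℤ) ≡ -1 - (x₀ a + s) [ZMOD (p : ℤ)] := by
  have h0 := Int.emod_nonneg (x₀ a) (show (p : ℤ) ≠ 0 by omega)
  have h1 := Int.emod_lt_of_pos (x₀ a) (show (0 : ℤ) < p by omega)
  obtain ⟨hl, hu⟩ := atom_half p hpe hp x₀ w hdis a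
  have hmod : x₀ a % p ≡ x₀ a [ZMOD (p : ℤ)] := Int.mod_modEq _ _
  have hwa := hw a
  unfold lowStart
  split_ifs with hlow
  · refine ⟨by have := hl hlow; omega, fun y hy1 hy2 => ⟨y - (x₀ a % p).toNat, by omega, Or.inl ?_⟩⟩
    have : (y : ℤ) = x₀ a % p + ((y - (x₀ a % p).toNat : ℕ) : ℤ) := by omega
    exact (this ▸ hmod.add_right ((y - (x₀ a % p).toNat : ℕ) : ℤ) :)
  · obtain ⟨h, rfl⟩ := hpe
    refine ⟨by omega, fun y hy1 hy2 => ⟨((h + h : ℕ) : ℤ).toNat - (x₀ a % ((h + h : ℕ) : ℤ)).toNat - 1 - y,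
      by omega, Or.inr ?_⟩⟩
    have e : (y : ℤ) = -1 - (x₀ a % ((h + h : ℕ) : ℤ) +
        ((((h + h : ℕ) : ℤ).toNat - (x₀ a % ((h + h : ℕ) : ℤ)).toNat - 1 - y : ℕ) : ℤ)) +
        ((h + h : ℕ) : ℤ) := by omega
    rw [e]
    exact (Int.modEq_add_modulus_iff.2 ((hmod.add_right _).sub_left _).symm).symm

/-- Different atoms have disjoint lower blocks. -/
theorem low_disjoint (p : ℕ) (hpe : Even p) (hp : 0 < p) (x₀ : ι → ℤ) (w : ι → ℕ) (hw : ∀ a, 0 < w a)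
    (hdis : ∀ a b, ∀ s < w a, ∀ s' < w b,
      (x₀ a + s ≡ x₀ b + s' [ZMOD (p : ℤ)] → a = b ∧ s = s') ∧
        ¬ x₀ a + s ≡ -1 - (x₀ b + s') [ZMOD (p : ℤ)]) (a b : ι) (y : ℕ)
    (ha : lowStart p x₀ w a ≤ y) (ha' : y < lowStart p x₀ w a + w a)
    (hb : lowStart p x₀ w b ≤ y) (hb' : y < lowStart p x₀ w b + w b) : a = b := by
  have hd : ∀ a b, ∀ s < w a, ∀ s' < w b, ¬ x₀ a + s ≡ -1 - (x₀ b + s') [ZMOD (p : ℤ)] :=
    fun a b s hs s' hs' => (hdis a b s hs s' hs').2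
  obtain ⟨s, hs, h1⟩ := (low_cell p hpe hp x₀ w hw hd a).2 y ha ha'
  obtain ⟨s', hs', h2⟩ := (low_cell p hpe hp x₀ w hw hd b).2 y hb hb'
  rcases h1 with h1 | h1 <;> rcases h2 with h2 | h2
  · exact ((hdis a b s hs s' hs').1 (h1.symm.trans h2)).1
  · exact absurd (h1.symm.trans h2) (hd a b s hs s' hs')
  · exact absurd (h2.symm.trans h1) (hd b a s' hs' s hs)
  · refine ((hdis a b s hs s' hs').1 ?_).1
    have := (h1.symm.trans h2).sub_left (-1)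
    simpa using this

/-- The segment placed on the lower block of an atom. -/
def placeAtom (p : ℕ) (lam τ κ q : ℝ) (J : ℕ) (ep : ι → ℕ) (x₀ : ι → ℤ) (w : ι → ℕ) (a : ι) : Seg :=
  if 2 * (x₀ a % p) < p then atomSeg p lam τ κ q J (ep a) (x₀ a % p) (w a)
  else (atomSeg p lam τ κ q J (ep a) (x₀ a % p) (w a)).rev 1

/-- Its initial phase. -/
def placePhase (p : ℕ) (lam τ κ q : ℝ) (J N : ℕ) (ep : ι → ℕ) (x₀ : ι → ℤ) (w : ι → ℕ) (amp : ι → ℂ)
    (a : ι) : ℝ :=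
  if 2 * (x₀ a % p) < p then (amp a).arg - Real.pi / 4
  else -(atomSeg p lam τ κ q J (ep a) (x₀ a % p) (w a)).psi ((amp a).arg - Real.pi / 4) N (2 * J + 1)

theorem place_re (p : ℕ) (hp : 0 < p) (lam τ κ q : ℝ) (J N k : ℕ) (ep : ι → ℕ) (x₀ : ι → ℤ) (w : ι → ℕ)
    (amp : ι → ℂ) (a : ι) :
    ((placeAtom p lam τ κ q J ep x₀ w a).val (placePhase p lam τ κ q J N ep x₀ w amp a) N k).re =
      ((atomSeg p lam τ κ q J (ep a) (x₀ a) (w a)).val ((amp a).arg - Real.pi / 4) N k).re := by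
  set θ := (amp a).arg - Real.pi / 4
  set S' := atomSeg p lam τ κ q J (ep a) (x₀ a % p) (w a) with hS'
  have hshift : atomSeg p lam τ κ q J (ep a) (x₀ a) (w a) = S'.shift (x₀ a / p) := by
    have h2 : x₀ a = x₀ a % p + p * (x₀ a / p) := (Int.emod_add_mul_ediv _ _).symm
    show (⟨_, (atomSeg p lam τ κ q J (ep a) (x₀ a) (w a)).t, _⟩ : Seg) = _
    rw [show (atomSeg p lam τ κ q J (ep a) (x₀ a) (w a)).t =
      fun j => S'.t j + 2 * Real.pi * ((x₀ a / p : ℤ) : ℝ) from funext fun j => by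
        conv_lhs => rw [h2]
        exact atomSeg_shift _ hp j]
    rfl
  rw [hshift, Seg.val_shift]
  unfold placeAtom placePhase
  split_ifs
  · rfl
  · exact (congrArg Complex.re (Seg.val_rev S' 1 θ N k)).trans (conj_re _)

/-- The placed segment fills its block up to margins. -/
theorem place_span (p : ℕ) (hpe : Even p) (hp : 0 < p) (lam τ κ q : ℝ) (J : ℕ) (hκ : 0 < κ)
    (hκ' : κ ≤ 1 / 4) (hJ : 0 < J) (hq : 0 < q) (hq' : q ≤ 1) (ep : ι → ℕ) (x₀ : ι → ℤ) (w : ι → ℕ)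
    (hw : ∀ a, 0 < w a)
    (hdis : ∀ a b, ∀ s < w a, ∀ s' < w b,
      ¬ x₀ a + s ≡ -1 - (x₀ b + s') [ZMOD (p : ℤ)]) (a : ι) :
    let S := placeAtom p lam τ κ q J ep x₀ w a
    let l : ℝ := 2 * Real.pi * (lowStart p x₀ w a : ℝ) / p
    let u : ℝ := 2 * Real.pi * ((lowStart p x₀ w a + w a : ℕ) : ℝ) / p
    l < S.t 0 ∧ S.t 0 ≤ l + 4 * Real.pi * κ ∧ S.t S.n < u ∧ u ≤ S.t S.n + 4 * Real.pi * κ := by
  intro S l u
  have h0 := Int.emod_nonneg (x₀ a) (show (p : ℤ) ≠ 0 by omega)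
  obtain ⟨hl, hu⟩ := atom_half p hpe hp x₀ w hdis a
  obtain ⟨hT1, hT2⟩ := stairT_total hκ hκ' hJ hq hq'
  have hp' : (0 : ℝ) < p := Nat.cast_pos.2 hp
  have hwr : (0 : ℝ) < w a := Nat.cast_pos.2 (hw a)
  have hwp : (w a : ℝ) ≤ p := by exact_mod_cast (show (w a : ℤ) ≤ p by omega)
  have hT0 : stairT κ q J 0 = 0 := sum_range_zero _
  set X : ℝ := ((x₀ a % p : ℤ) : ℝ) with hX
  set T : ℝ := stairT κ q J (2 * J + 1) with hT
  have hπ := Real.pi_pos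
  have key : ∀ A B : ℝ, A - B ≤ 2 * κ * p → 2 * Real.pi * A / p ≤ 2 * Real.pi * B / p + 4 * Real.pi * κ := by
    intro A B h
    rw [div_add' _ _ _ hp'.ne', div_le_div_iff_of_pos_right hp']
    nlinarith
  have key' : ∀ A B : ℝ, A < B → 2 * Real.pi * A / p < 2 * Real.pi * B / p := fun A B h => by gcongr
  have hm1 : (w a : ℝ) * κ / 2 ≤ 2 * κ * p := by nlinarith
  have hm2 : (w a : ℝ) * (1 - κ / 2 - T) ≤ 2 * κ * p := by nlinarith
  have hm3 : (0 : ℝ) < w a * (1 - κ / 2 - T) := by nlinarith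
  simp only [S, l, u, placeAtom, lowStart]
  split_ifs with hlow
  · have hc : ((x₀ a % p).toNat : ℝ) = X := by
      rw [hX]; exact_mod_cast Int.toNat_of_nonneg h0
    simp only [atomSeg, hT0, ← hT, Nat.cast_add, hc, ← hX, mul_zero, add_zero, ← mul_div_assoc]
    exact ⟨key' _ _ (by nlinarith), key _ _ (by linarith), key' _ _ (by linarith), key _ _ (by linarith)⟩
  · have hc : (((p : ℤ) - x₀ a % p - w a).toNat : ℝ) = p - X - w a := by
      rw [hX]; exact_mod_cast Int.toNat_of_nonneg (show (0 : ℤ) ≤ (p : ℤ) - x₀ a % p - w a by omega)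
    have hrev : ∀ z : ℝ, 2 * Real.pi * ((1 : ℤ) : ℝ) - 2 * Real.pi * z / p = 2 * Real.pi * (p - z) / p := by
      intro z; field_simp; push_cast; ring
    simp only [Seg.rev, atomSeg, Nat.sub_zero, Nat.sub_self, hT0, ← hT, Nat.cast_add, hc, ← hX, mul_zero,
      add_zero, ← mul_div_assoc, hrev]
    exact ⟨key' _ _ (by linarith), key _ _ (by linarith), key' _ _ (by nlinarith), key _ _ (by linarith)⟩

theorem fill_span (p : ℕ) (hp : 0 < p) (τ κ : ℝ) (hκ : 0 < κ) (F j y : ℕ) :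
    let S := fillSeg p τ κ F j y
    let l : ℝ := 2 * Real.pi * (y : ℝ) / p
    let u : ℝ := 2 * Real.pi * ((y + 1 : ℕ) : ℝ) / p
    l < S.t 0 ∧ S.t 0 ≤ l + 4 * Real.pi * κ ∧ S.t S.n < u ∧ u ≤ S.t S.n + 4 * Real.pi * κ := by
  intro S l u
  have hp' : (0 : ℝ) < p := Nat.cast_pos.2 hp
  have hp1 : (1 : ℝ) ≤ p := by exact_mod_cast hp
  have hπ := Real.pi_pos
  have key : ∀ A B : ℝ, A - B ≤ 2 * κ * p → 2 * Real.pi * A / p ≤ 2 * Real.pi * B / p + 4 * Real.pi * κ := by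
    intro A B h
    rw [div_add' _ _ _ hp'.ne', div_le_div_iff_of_pos_right hp']
    nlinarith
  have key' : ∀ A B : ℝ, A < B → 2 * Real.pi * A / p < 2 * Real.pi * B / p := fun A B h => by gcongr
  simp only [S, l, u, fillSeg, Nat.cast_zero, zero_mul, add_zero, Nat.cast_one, one_mul, Nat.cast_add,
    ← mul_div_assoc]
  exact ⟨key' _ _ (by linarith), key _ _ (by nlinarith), key' _ _ (by linarith), key _ _ (by nlinarith)⟩

end

end Vale.Agent.P110.Ultra
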