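import Vale.Agent.P110.Ultraflat.LayoutBounds
import Vale.Agent.P110.Ultraflat.LayoutCells

/-!
P110, construction of ultraflat Littlewood polynomials: a layout of ridges gives a relaxed flat polynomial.
-/

namespace Vale.Agent.P110.Ultra

open Complex Finset

noncomputable section

theorem exists_div_sqrt_le (K ε : ℝ) (hε : 0 < ε) : ∃ N1 : ℕ, ∀ N : ℕ, N1 ≤ N → 0 < N ∧ K / Real.sqrt N ≤ ε := by
  obtain ⟨M, hM⟩ := exists_nat_ge ((K / ε) ^ 2 + 1)
  refine ⟨M, fun N hN => ?_⟩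
  have h : (K / ε) ^ 2 + 1 ≤ N := hM.trans (Nat.cast_le.2 hN)
  have hN0 : (0 : ℝ) < N := lt_of_lt_of_le (by positivity) h
  refine ⟨Nat.cast_pos.1 hN0, ?_⟩
  rw [div_le_iff₀ (Real.sqrt_pos.2 hN0), ← div_le_iff₀' hε]
  exact (le_abs_self _).trans (by rw [← Real.sqrt_sq_eq_abs]; exact Real.sqrt_le_sqrt (by linarith))

/-- The free cells of the lower half circle, and the tiling by blocks. -/
theorem free_cells {ι : Type} [Fintype ι] (P2 : ℕ) (hP2 : 0 < P2) (st w : ι → ℕ) (hw : ∀ a, 0 < w a)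
    (hsub : ∀ a, st a + w a ≤ P2)
    (hu : ∀ a b y, st a ≤ y → y < st a + w a → st b ≤ y → y < st b + w b → a = b) :
    ∃ (F : ℕ) (fr : ℕ → ℕ) (S : ℕ) (e : ℕ → ι ⊕ Fin F),
      F + ∑ a, w a = P2 ∧ 0 < S ∧ S ≤ P2 ∧
      let bs : ι ⊕ Fin F → ℕ := Sum.elim st (fun j => fr j)
      let bl : ι ⊕ Fin F → ℕ := Sum.elim w (fun _ => 1)
      bs (e 0) = 0 ∧ (∀ i, i + 1 < S → bs (e (i + 1)) = bs (e i) + bl (e i)) ∧
      bs (e (S - 1)) + bl (e (S - 1)) = P2 ∧ ∀ f : ι ⊕ Fin F → ℂ, ∑ i ∈ range S, f (e i) = ∑ b, f b := by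
  classical
  set U : Finset ℕ := univ.biUnion fun a => Ico (st a) (st a + w a) with hU
  have hUsub : U ⊆ range P2 := by
    intro y hy
    simp only [hU, mem_biUnion, mem_univ, true_and, mem_Ico] at hy
    obtain ⟨a, -, hy2⟩ := hy
    exact mem_range.2 (hy2.trans_le (hsub a))
  have hUcard : U.card = ∑ a, w a := by
    rw [hU, card_biUnion fun a _ b _ hab => disjoint_left.2 fun y hya hyb => hab ?_]
    · simp
    · rw [mem_Ico] at hya hyb; exact hu a b y hya.1 hya.2 hyb.1 hyb.2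
  set Z := range P2 \ U with hZ
  have hF : Z.card + ∑ a, w a = P2 := by
    rw [hZ, card_sdiff_of_subset hUsub, hUcard, card_range, Nat.sub_add_cancel]
    rw [← hUcard]; exact (card_le_card hUsub).trans_eq (card_range _)
  set o : Fin Z.card ↪o ℕ := Z.orderEmbOfFin rfl
  set fr : ℕ → ℕ := fun j => if h : j < Z.card then o ⟨j, h⟩ else 0 with hfr
  have hfr' : ∀ j : Fin Z.card, fr j = o j := fun j => by simp [hfr]
  have hZy : ∀ j : Fin Z.card, fr j < P2 ∧ ∀ a, ¬(st a ≤ fr j ∧ fr j < st a + w a) := fun j => by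
    have h := Z.orderEmbOfFin_mem rfl j
    simp only [hZ, mem_sdiff, mem_range, hU, mem_biUnion, mem_univ, true_and, mem_Ico, not_exists] at h
    rw [hfr']
    exact h
  obtain ⟨S, e, hS, hSP, he0, hstep, hlast, hsum⟩ := arrange P2 hP2
    (Sum.elim st (fun j : Fin Z.card => fr j)) (Sum.elim w (fun _ => 1))
    (by rintro (a | j) <;> simp [hw])
    (by
      rintro (a | j)
      · simpa using hsub a
      · simpa using (hZy j).1)
    (by
      intro y hy
      by_cases hyU : ∃ a, st a ≤ y ∧ y < st a + w a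
      · obtain ⟨a, ha⟩ := hyU
        exact ⟨Sum.inl a, by simpa using ha⟩
      · have : y ∈ Set.range o := by
          rw [Finset.range_orderEmbOfFin]
          simp only [hZ, mem_coe, mem_sdiff, mem_range, hU, mem_biUnion, mem_univ, true_and, mem_Ico]
          exact ⟨hy, hyU⟩
        obtain ⟨j, hj⟩ := this
        exact ⟨Sum.inr j, by simp [hfr', hj]⟩)
    (by
      rintro (a | j) (b | j') y h1 h2 h3 h4 <;> simp only [Sum.elim_inl, Sum.elim_inr] at h1 h2 h3 h4
      · rw [hu a b y h1 h2 h3 h4]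
      · exact absurd (show fr j' = y by omega) fun h => (hZy j').2 a (h ▸ ⟨h1, h2⟩)
      · exact absurd (show fr j = y by omega) fun h => (hZy j).2 b (h ▸ ⟨h3, h4⟩)
      · have : o j = o j' := by rw [← hfr', ← hfr']; omega
        rw [o.injective this])
  exact ⟨Z.card, fr, S, e, hF, hS, hSP, he0, hstep, hlast, hsum⟩

/-- **M6.** The layout theorem. -/
theorem layoutStmt (hF : FresnelStmt) (hG : GlueStmt) : LayoutStmt := by
  classical
  obtain ⟨Cg, hCg, hglue⟩ := hG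
  obtain ⟨Ca, hCa, hatom⟩ := atom_val_le hF
  obtain ⟨Cf, hCf, hfill⟩ := fill_val_le hF
  intro η hη
  refine ⟨min (1 / 2) ((η / (8 * (Cf + 1))) ^ 2), by positivity, ?_⟩
  set δ := min (1 / 2 : ℝ) ((η / (8 * (Cf + 1))) ^ 2) with hδ
  intro p R lam τ B₀ ι _ ep x₀ w amp hpe hp hlam hτ hτ' hR hamp hdis hcov hB
  have hδh : δ ≤ 1 / 2 := min_le_left _ _
  have hpr : (0 : ℝ) < p := Nat.cast_pos.2 hp
  obtain ⟨P2, hP2⟩ := hpe
  have hpe : Even p := ⟨P2, hP2⟩
  have hP2pos : 0 < P2 := by omega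
  have hw : ∀ a, 0 < w a := fun a => (hamp a).2.1
  have hd : ∀ a b, ∀ s < w a, ∀ s' < w b, ¬ x₀ a + s ≡ -1 - (x₀ b + s') [ZMOD (p : ℤ)] :=
    fun a b s hs s' hs' => (hdis a b s hs s' hs').2
  have hRpos : 0 < R := by
    rcases isEmpty_or_nonempty ι with h | h
    · exfalso
      rw [sum_of_isEmpty] at hcov
      nlinarith
    · exact lt_of_le_of_lt (Nat.zero_le _) (hamp (Classical.arbitrary ι)).1
  have ha : ∀ a, ep a < R ∧ 0 < w a ∧ ‖amp a‖ = Real.sqrt (w a * lam) := fun a =>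
    ⟨(hamp a).1, hw a, by rw [← (hamp a).2.2, Real.sqrt_sq (norm_nonneg _)]⟩
  obtain ⟨F, fr, S, e, hFp, hS, hSP, he0, hstep, hlast, hsum⟩ :=
    free_cells P2 hP2pos (lowStart p x₀ w) w hw
      (fun a => by have := (low_cell p hpe hp x₀ w hw hd a).1; omega)
      (low_disjoint p hpe hp x₀ w hw hdis)
  have hFδ : 2 * (F : ℝ) / p ≤ δ := by
    have : (F : ℝ) + ∑ a, (w a : ℝ) = P2 := by exact_mod_cast hFp
    have hp2 : (p : ℝ) = P2 + P2 := by exact_mod_cast hP2
    rw [div_le_iff₀ hpr]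
    linarith
  -- the parameters of the staircase
  set M : ℝ := ∑ a, Real.sqrt (w a * lam) with hM
  have hM0 : 0 ≤ M := sum_nonneg fun a _ => Real.sqrt_nonneg _
  set κ : ℝ := min (1 / 4) (τ / (8 * Real.pi) * (η / (4 * Cg * (p + 1))) ^ 2) with hκ_def
  have hκ : 0 < κ := by rw [hκ_def]; positivity
  have hκ' : κ ≤ 1 / 4 := min_le_left _ _
  set G : ℝ := 8 * Real.pi * κ with hG_def
  have hG : 0 < G := by rw [hG_def]; positivity
  have hGb : Cg * (p + 1) * Real.sqrt (G / τ) ≤ η / 4 := by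
    have h1 : G / τ ≤ (η / (4 * Cg * (p + 1))) ^ 2 := by
      rw [div_le_iff₀ hτ, hG_def]
      calc 8 * Real.pi * κ ≤ 8 * Real.pi * (τ / (8 * Real.pi) * (η / (4 * Cg * (p + 1))) ^ 2) := by
            gcongr; exact min_le_right _ _
        _ = _ := by field_simp
    calc Cg * (p + 1) * Real.sqrt (G / τ) ≤ Cg * (p + 1) * (η / (4 * Cg * (p + 1))) := by
          gcongr
          exact (Real.sqrt_le_sqrt h1).trans_eq (Real.sqrt_sq (by positivity))
      _ = η / 4 := by field_simp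
  set z : ℝ := η / (16 * (Ca * M + 1)) with hz_def
  have hz : 0 < z := by rw [hz_def]; positivity
  have hz2 : Ca * M * z ≤ η / 16 := by
    rw [hz_def, mul_div_assoc', div_le_div_iff₀ (by positivity) (by positivity)]; nlinarith
  set q : ℝ := 1 - min (1 / 2) (z ^ 2) with hq_def
  have hq : 1 / 2 ≤ q := by rw [hq_def]; linarith [min_le_left (1 / 2 : ℝ) (z ^ 2)]
  have hq1 : q < 1 := by rw [hq_def]; linarith [show (0 : ℝ) < min (1 / 2) (z ^ 2) by positivity]
  have hsq : Real.sqrt (1 - q) ≤ z := by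
    rw [hq_def, sub_sub_cancel]
    exact (Real.sqrt_le_sqrt (min_le_right _ _)).trans_eq (Real.sqrt_sq hz.le)
  obtain ⟨J₀, hJ₀⟩ := exists_pow_lt_of_lt_one (show (0 : ℝ) < z ^ 2 by positivity) hq1
  set J := J₀ + 1 with hJ_def
  have hJ : 0 < J := Nat.succ_pos _
  have hqJ : Real.sqrt (q ^ J) ≤ z := by
    refine (Real.sqrt_le_sqrt ?_).trans_eq (Real.sqrt_sq hz.le)
    exact (pow_le_pow_of_le_one (by linarith) hq1.le (Nat.le_succ J₀)).trans hJ₀.le
  set K : ℝ := 2 * (Fintype.card ι * (Ca * (2 * J + 1 : ℕ) / (κ / (2 * J) / (p * lam))) + Cf * F * F)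
    with hK
  -- the placed segments
  set sg : ι ⊕ Fin F → Seg := Sum.elim (placeAtom p lam τ κ q J ep x₀ w)
    (fun j => fillSeg p τ κ F j (fr j)) with hsg
  set bs : ι ⊕ Fin F → ℕ := Sum.elim (lowStart p x₀ w) (fun j => fr j) with hbs
  set bl : ι ⊕ Fin F → ℕ := Sum.elim w (fun _ => 1) with hbl
  have hq0 : 0 < q := by linarith
  have hvalid : ∀ b, (sg b).Valid τ := by
    rintro (a | j)
    · simp only [hsg, Sum.elim_inl, placeAtom]
      have := atomSeg_valid (τ := τ) (x := x₀ a % p) hp hlam hκ hκ' hJ hq0 (hw a) (ha a).1 hR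
      split_ifs
      · exact this
      · exact this.rev 1
    · exact fillSeg_valid hp hκ hκ' hτ' j.2 _
  have hspan : ∀ b, 2 * Real.pi * (bs b : ℝ) / p < (sg b).t 0 ∧
      (sg b).t 0 ≤ 2 * Real.pi * (bs b : ℝ) / p + 4 * Real.pi * κ ∧
      (sg b).t (sg b).n < 2 * Real.pi * ((bs b + bl b : ℕ) : ℝ) / p ∧
      2 * Real.pi * ((bs b + bl b : ℕ) : ℝ) / p ≤ (sg b).t (sg b).n + 4 * Real.pi * κ := by
    rintro (a | j)
    · exact place_span p hpe hp lam τ κ q J hκ hκ' hJ hq0 hq1.le ep x₀ w hw hd a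
    · exact fill_span p hp τ κ hκ F j (fr j)
  have hπP : 2 * Real.pi * (P2 : ℝ) / p = Real.pi := by
    have : (p : ℝ) = P2 + P2 := by exact_mod_cast hP2
    rw [this]; field_simp; ring
  have hπκ : 0 < 4 * Real.pi * κ := by positivity
  obtain ⟨N0, hN0⟩ := hglue τ G hτ hτ' hG S (fun i => sg (e i)) hS (fun i _ => hvalid _)
    (by
      have := (hspan (e 0)).1
      rwa [he0, Nat.cast_zero, mul_zero, zero_div] at this)
    (by
      have := (hspan (e 0)).2.1
      rw [he0, Nat.cast_zero, mul_zero, zero_div] at this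
      linarith)
    (fun i hi => by
      have h1 := hspan (e i)
      have h2 := hspan (e (i + 1))
      rw [hstep i hi] at h2
      exact ⟨h1.2.2.1.trans h2.1, by linarith [h1.2.2.2, h2.2.1]⟩)
    (by
      have := (hspan (e (S - 1))).2.2.1
      rwa [hlast, hπP] at this)
    (by
      have := (hspan (e (S - 1))).2.2.2
      rw [hlast, hπP] at this
      linarith)
    η hη
  obtain ⟨N1, hN1⟩ := exists_div_sqrt_le K (η / 4) (by positivity)
  refine ⟨max N0 N1, fun N hN => ?_⟩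
  obtain ⟨hNpos, hKN⟩ := hN1 N (le_of_max_le_right hN)
  set θ : ι ⊕ Fin F → ℝ := Sum.elim (placePhase p lam τ κ q J N ep x₀ w amp) (fun _ => 0) with hθ
  obtain ⟨x, hx, hflat⟩ := hN0 N (le_of_max_le_left hN) (fun i => θ (e i))
  refine ⟨x, fun k hk => ?_, hflat⟩
  have hxk := hx k hk
  rw [hsum (fun b => (sg b).val (θ b) N k), Fintype.sum_sum_type, add_re] at hxk
  simp only [hsg, hθ, Sum.elim_inl, Sum.elim_inr] at hxk
  set Vf : ℂ := ∑ j : Fin F, (fillSeg p τ κ F j (fr j)).val 0 N k with hVf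
  have hfillb : 2 * |Vf.re| ≤ η / 4 + 2 * (Cf * F * F) / Real.sqrt N := by
    have h := hfill p F τ κ fr N k hp hκ hκ' hτ' hNpos
    rw [← Fin.sum_univ_eq_sum_range, ← hVf] at h
    have h2 : Cf * Real.sqrt (2 * F / p) ≤ η / 8 :=
      calc Cf * Real.sqrt (2 * F / p) ≤ (Cf + 1) * (η / (8 * (Cf + 1))) := by
            refine mul_le_mul (by linarith) ?_ (Real.sqrt_nonneg _) (by linarith)
            exact (Real.sqrt_le_sqrt (hFδ.trans (min_le_right _ _))).trans_eq (Real.sqrt_sq (by positivity))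
        _ = η / 8 := by field_simp
    have := (Complex.abs_re_le_norm Vf).trans h
    rw [mul_div_assoc]
    linarith
  set Va : ℂ := ∑ a, (atomSeg p lam τ κ q J (ep a) (x₀ a) (w a)).val ((amp a).arg - Real.pi / 4) N k with hVa
  have hre : (∑ a, (placeAtom p lam τ κ q J ep x₀ w a).val (placePhase p lam τ κ q J N ep x₀ w amp a) N k).re =
      Va.re := by
    rw [hVa, re_sum, re_sum]
    exact sum_congr rfl fun a _ => place_re p hp lam τ κ q J N k ep x₀ w amp a
  rw [hre] at hxk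
  set Vm : ℂ := ∑ a, (atomSeg p lam τ κ q J (ep a) (x₀ a) (w a)).main ((amp a).arg - Real.pi / 4) N k with hVm
  have hmain : |2 * Vm.re| ≤ B₀ :=
    atoms_main_le p R lam τ B₀ κ q J hp hlam hκ hκ' hJ hq0 hq1.le hRpos ep x₀ w amp ha hB N k hNpos
  have herr : 2 * ‖Va - Vm‖ ≤ η / 4 +
      2 * (Fintype.card ι * (Ca * (2 * J + 1 : ℕ) / (κ / (2 * J) / (p * lam)))) / Real.sqrt N := by
    rw [hVa, hVm, ← sum_sub_distrib]
    have hle : ∀ a ∈ (univ : Finset ι),
        ‖(atomSeg p lam τ κ q J (ep a) (x₀ a) (w a)).val ((amp a).arg - Real.pi / 4) N k -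
          (atomSeg p lam τ κ q J (ep a) (x₀ a) (w a)).main ((amp a).arg - Real.pi / 4) N k‖ ≤
        Ca * Real.sqrt (w a * lam) * (2 * z) +
          Ca * (2 * J + 1 : ℕ) / (κ / (2 * J) / (p * lam)) / Real.sqrt N := fun a _ =>
      (hatom p lam τ κ q J (ep a) (x₀ a) (w a) _ N k hp hlam hκ hκ' hJ hq hq1.le (hw a) hNpos).trans
        (by gcongr; linarith)
    have h := (norm_sum_le _ _).trans (sum_le_sum hle)
    rw [sum_add_distrib, ← sum_mul, ← mul_sum, sum_const, card_univ, nsmul_eq_mul, ← hM] at h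
    rw [mul_div_assoc, mul_div_assoc (Fintype.card ι : ℝ)]
    linarith
  have hS1 : Cg * (S + 1) * Real.sqrt (G / τ) ≤ η / 4 := by
    refine le_trans ?_ hGb
    have : (S : ℝ) ≤ p := by exact_mod_cast (show S ≤ p by omega)
    gcongr
  have hK' : 2 * (Fintype.card ι * (Ca * (2 * J + 1 : ℕ) / (κ / (2 * J) / (p * lam)))) / Real.sqrt N +
      2 * (Cf * F * F) / Real.sqrt N ≤ η / 4 := by
    rw [← add_div, ← mul_add, ← hK]; exact hKN
  have hdiff := Complex.abs_re_le_norm (Va - Vm)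
  rw [sub_re] at hdiff
  rw [abs_le] at hxk hmain hdiff
  have hVf := abs_le.1 (le_refl |Vf.re|)
  rw [abs_le]
  constructor <;> linarith

end

end Vale.Agent.P110.Ultra
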