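import Vale.Agent.P110.Ultraflat.LayoutSeg
import Vale.Agent.P110.Ultraflat.LayoutStair

/-!
P110, construction of ultraflat Littlewood polynomials: the coefficients given by the atoms and by the fill cells.
-/

namespace Vale.Agent.P110.Ultra

open Complex Finset

noncomputable section

/-- A decaying term at separated points: only one point can be near. -/
theorem near_sum (n : ℕ) (f v : ℕ → ℝ) (y A C s g : ℝ) (hg : 0 < g) (hs : 0 < s) (hA : 0 ≤ A) (hC : 0 ≤ C)
    (hf : ∀ j < n, 0 ≤ f j ∧ f j ≤ A ∧ s * |v j - y| * f j ≤ C) (hsep : ∀ i j, i < j → j < n → v i + g ≤ v j) :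
    ∑ j ∈ range n, f j ≤ A + n * (2 * C / (s * g)) := by
  classical
  have hb : ∀ j ∈ range n, f j ≤ (if |v j - y| < g / 2 then A else 0) + 2 * C / (s * g) := by
    intro j hj
    obtain ⟨h0, h1, h2⟩ := hf j (mem_range.1 hj)
    split_ifs with h
    · linarith [show 0 ≤ 2 * C / (s * g) by positivity]
    · rw [zero_add, le_div_iff₀ (by positivity)]
      have := mul_le_mul_of_nonneg_right (not_lt.1 h) (mul_nonneg h0 hs.le)
      nlinarith
  have hcard : (((range n).filter fun j => |v j - y| < g / 2).card : ℝ) ≤ 1 := by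
    rw [Nat.cast_le_one, card_le_one]
    intro i hi j hj
    simp only [mem_filter, mem_range, abs_lt] at hi hj
    rcases lt_trichotomy i j with h | h | h
    · exact absurd (hsep i j h hj.1) (by linarith [hi.2.1, hi.2.2, hj.2.1, hj.2.2])
    · exact h
    · exact absurd (hsep j i h hi.1) (by linarith [hi.2.1, hi.2.2, hj.2.1, hj.2.2])
  refine (sum_le_sum hb).trans ?_
  rw [sum_add_distrib, ← sum_filter, sum_const, sum_const, nsmul_eq_mul, nsmul_eq_mul, card_range]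
  linarith [mul_le_mul_of_nonneg_right hcard hA]

/-- A sum of weights over intervals following each other is at most one. -/
theorem weight_sum_le_one (R : ℕ) (a b : ℕ → ℝ) (y : ℝ) (hab : ∀ r < R, a r ≤ b r)
    (hsep : ∀ r r', r < r' → r' < R → b r < a r') : ∑ r ∈ range R, inWeight (a r) (b r) y ≤ 1 := by
  classical
  by_cases h : ∃ r ∈ range R, inWeight (a r) (b r) y ≠ 0
  · obtain ⟨r, hr, hne⟩ := h
    rw [mem_range] at hr
    have hin : a r ≤ y ∧ y ≤ b r := by
      constructor <;> by_contra hc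
      · exact hne (inWeight_eq_zero (hab r hr) (Or.inl (not_le.1 hc)))
      · exact hne (inWeight_eq_zero (hab r hr) (Or.inr (not_le.1 hc)))
    rw [sum_eq_single_of_mem r (mem_range.2 hr) fun s hs hsr => ?_]
    · exact inWeight_le_one _ _ _
    · rw [mem_range] at hs
      refine inWeight_eq_zero (hab s hs) ?_
      rcases lt_or_gt_of_ne hsr with h' | h'
      · exact Or.inr ((hsep s r h' hr).trans_le hin.1)
      · exact Or.inl (hin.2.trans_lt (hsep r s h' hs))
  · push Not at h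
    rw [sum_eq_zero h]; exact zero_le_one

/-- The stationary terms of the atoms: one epoch at a time, each bounded by the hypothesis. -/
theorem atoms_main_le {ι : Type} [Fintype ι] (p R : ℕ) (lam τ B₀ κ q : ℝ) (J : ℕ) (hp : 0 < p)
    (hlam : 0 < lam) (hκ : 0 < κ) (hκ' : κ ≤ 1 / 4) (hJ : 0 < J) (hq : 0 < q) (hq' : q ≤ 1) (hR : 0 < R)
    (ep : ι → ℕ) (x₀ : ι → ℤ) (w : ι → ℕ) (amp : ι → ℂ)
    (ha : ∀ a, ep a < R ∧ 0 < w a ∧ ‖amp a‖ = Real.sqrt (w a * lam))
    (hB : ∀ r < R, ∀ k : ℕ, ∀ y : ℝ, |2 * (∑ a ∈ univ.filter fun a => ep a = r,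
        amp a * exp ((-(2 * Real.pi * ((x₀ a : ℝ) * k / p + (w a : ℝ) * y)) : ℝ) * I)).re| ≤ B₀)
    (N k : ℕ) (hN : 0 < N) :
    |2 * (∑ a, (atomSeg p lam τ κ q J (ep a) (x₀ a) (w a)).main ((amp a).arg - Real.pi / 4) N k).re| ≤
      B₀ := by
  classical
  have hB0 : 0 ≤ B₀ := (abs_nonneg _).trans (hB 0 hR 0 0)
  set wt : ℕ → ℕ → ℝ := fun r j => inWeight ((N : ℝ) * (τ + (r + stairX κ J j) / (p * lam)))
    ((N : ℝ) * (τ + (r + stairX κ J (j + 1)) / (p * lam))) k with hwt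
  set E : ℕ → ℕ → ℂ := fun r j => ∑ a ∈ univ.filter fun a => ep a = r,
    amp a * exp ((-(2 * Real.pi * ((x₀ a : ℝ) * k / p + (w a : ℝ) * ridgeY p lam τ κ q J r j N k)) : ℝ) * I)
    with hE
  have hwt0 : ∀ r j, 0 ≤ wt r j := fun r j => inWeight_nonneg _ _ _
  have hmain : ∑ a, (atomSeg p lam τ κ q J (ep a) (x₀ a) (w a)).main ((amp a).arg - Real.pi / 4) N k =
      ∑ r ∈ range R, ∑ j ∈ range (2 * J + 1), (wt r j * Real.sqrt (stairR q J j) : ℂ) * E r j := by
    rw [← sum_fiberwise_of_maps_to (g := ep) (t := range R) fun a _ => mem_range.2 (ha a).1]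
    refine sum_congr rfl fun r _ => ?_
    simp only [hE, mul_sum]
    rw [sum_comm]
    refine sum_congr rfl fun a har => ?_
    obtain rfl : ep a = r := (mem_filter.1 har).2
    refine sum_congr rfl fun j _ => ?_
    rw [atomSeg_stat hp hlam hκ hκ' hJ hq (ha a).2.1 hN k (amp a) (ha a).2.2 j]
    exact (mul_assoc _ _ _).symm
  rw [hmain, re_sum, mul_sum]
  refine (abs_sum_le_sum_abs _ _).trans ?_
  have hr : ∀ r ∈ range R, |2 * (∑ j ∈ range (2 * J + 1),
      (wt r j * Real.sqrt (stairR q J j) : ℂ) * E r j).re| ≤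
      inWeight ((N : ℝ) * (τ + (r + stairX κ J 0) / (p * lam)))
        ((N : ℝ) * (τ + (r + stairX κ J (2 * J + 1)) / (p * lam))) k * B₀ := by
    intro r hr
    rw [re_sum, mul_sum]
    refine (abs_sum_le_sum_abs _ _).trans ?_
    rw [← inWeight_sum (fun j => (N : ℝ) * (τ + (r + stairX κ J j) / (p * lam))) (2 * J + 1) k
      (fun j _ => by gcongr; rw [stairX_succ]; linarith [stairD_pos hκ hκ' hJ j]), sum_mul]
    refine sum_le_sum fun j _ => ?_
    rw [← ofReal_mul, re_ofReal_mul, mul_left_comm, abs_mul,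
      abs_of_nonneg (mul_nonneg (hwt0 r j) (Real.sqrt_nonneg _))]
    refine mul_le_mul ?_ (hB r (mem_range.1 hr) k _) (abs_nonneg _) (hwt0 r j)
    exact mul_le_of_le_one_right (hwt0 r j) (Real.sqrt_le_one.2 (stairR_mem hq hq' j).2)
  refine (sum_le_sum hr).trans ?_
  rw [← sum_mul]
  refine mul_le_of_le_one_left hB0 (weight_sum_le_one _ _ _ _ (fun r _ => ?_) fun r r' hrr _ => ?_)
  · gcongr
    linarith [(stairX_mem hκ hκ' hJ (le_refl (2 * J + 1))).1, show stairX κ J 0 = 0 from sum_range_zero _]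
  · rw [show stairX κ J 0 = 0 from sum_range_zero _, stairX_total hJ, add_zero]
    have : (r : ℝ) + 1 ≤ r' := by exact_mod_cast hrr
    have hN' : (0 : ℝ) < N := Nat.cast_pos.2 hN
    gcongr
    linarith

/-- An atom is close to its stationary terms. -/
theorem atom_val_le (hF : FresnelStmt) : ∃ C : ℝ, 0 < C ∧ ∀ (p : ℕ) (lam τ κ q : ℝ) (J r : ℕ) (x : ℤ) (w : ℕ)
    (θ : ℝ) (N : ℕ) (k : ℝ), 0 < p → 0 < lam → 0 < κ → κ ≤ 1 / 4 → 0 < J → 1 / 2 ≤ q → q ≤ 1 → 0 < w →
    0 < N →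
    ‖(atomSeg p lam τ κ q J r x w).val θ N k - (atomSeg p lam τ κ q J r x w).main θ N k‖ ≤
      C * Real.sqrt (w * lam) * (Real.sqrt (q ^ J) + Real.sqrt (1 - q)) +
        C * (2 * J + 1 : ℕ) / (κ / (2 * J) / (p * lam)) / Real.sqrt N := by
  obtain ⟨C1, hC1, hv⟩ := Seg.val_bound hF
  obtain ⟨C2, hC2, he⟩ := endTerm_bound hF
  refine ⟨C1 + 2 * C2, by positivity, fun p lam τ κ q J r x w θ N k hp hlam hκ hκ' hJ hq hq' hw hN => ?_⟩
  have hq0 : 0 < q := by linarith
  set S := atomSeg p lam τ κ q J r x w with hS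
  have hslope : ∀ j, 0 < S.slope j := fun j => by
    have : 0 < stairR q J j := pow_pos hq0 _
    have : (0 : ℝ) < w := Nat.cast_pos.2 hw
    rw [hS, atomSeg_slope hp hlam hκ hκ' hJ hq0 hw]; positivity
  have hampl : ∀ j, ampl (S.slope j) = Real.sqrt (w * lam) * Real.sqrt (stairR q J j) :=
    atomSeg_ampl hp hlam hκ hκ' hJ hq0 hw
  set A := Real.sqrt (w * lam) with hA
  have hA0 : 0 ≤ A := Real.sqrt_nonneg _
  have hg : 0 < κ / (2 * J) / (p * lam) := by
    have : (0 : ℝ) < J := Nat.cast_pos.2 hJ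
    have : (0 : ℝ) < p := Nat.cast_pos.2 hp
    positivity
  have h := hv S (κ / (2 * J) / (p * lam)) q A θ N k hN (Nat.succ_pos _) hg hq hq'
    (fun j _ => ⟨?_, atomSeg_gap hp hlam hκ hκ' hJ j, ?_⟩) (fun j _ => ?_)
  rotate_left
  · simp only [hS, atomSeg]
    have : (0 : ℝ) < p := Nat.cast_pos.2 hp
    have : (0 : ℝ) < w := Nat.cast_pos.2 hw
    gcongr 2 * Real.pi * ((x + w * κ / 2 + w * ?_) / p)
    exact stairT_mono hκ hκ' hJ hq0 j
  · rw [hampl]; exact mul_le_of_le_one_right hA0 (Real.sqrt_le_one.2 (stairR_mem hq0 hq' j).2)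
  · simp only [hampl]
    obtain ⟨h1, h2⟩ := stairR_step (J := J) hq0 hq' j
    have hs : ∀ a b : ℝ, q ^ 2 * a ≤ b → q * (A * Real.sqrt a) ≤ A * Real.sqrt b := by
      intro a b hab
      rw [mul_left_comm]
      refine mul_le_mul_of_nonneg_left ?_ hA0
      rw [← Real.sqrt_sq hq0.le, ← Real.sqrt_mul (by positivity)]
      exact Real.sqrt_le_sqrt hab
    exact ⟨hs _ _ h1, hs _ _ h2⟩
  have e1 := (he N _ (S.u S.n) (S.psi θ N S.n - k * S.t S.n) k hN (hslope (S.n - 1))).1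
  have e2 := (he N _ (S.u 0) (S.psi θ N 0 - k * S.t 0) k hN (hslope 0)).1
  have hn1 : S.n - 1 = 2 * J := by simp [hS, atomSeg]
  rw [hn1] at e1 h
  rw [hampl, (stairR_end q J).2] at e1
  rw [hampl, (stairR_end q J).1] at e2
  refine h.trans ?_
  rw [show S.n = 2 * J + 1 from rfl] at *
  have hx1 : 0 ≤ A * Real.sqrt (1 - q) := by positivity
  have hx2 : 0 ≤ A * Real.sqrt (q ^ J) := by positivity
  have hx3 : 0 ≤ ((2 * J + 1 : ℕ) : ℝ) / (κ / (2 * J) / (p * lam)) / Real.sqrt N := by positivity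
  have : ((2 * J + 1 : ℕ) : ℝ) / (Real.sqrt N * (κ / (2 * J) / (p * lam))) =
      ((2 * J + 1 : ℕ) : ℝ) / (κ / (2 * J) / (p * lam)) / Real.sqrt N := by
    rw [div_div _ _ (Real.sqrt N), mul_comm (Real.sqrt N)]
  rw [this, mul_add] at *
  rw [mul_div_assoc, mul_div_assoc]
  nlinarith

/-- The fill cells contribute a small coefficient. -/
theorem fill_val_le (hF : FresnelStmt) : ∃ C : ℝ, 0 < C ∧ ∀ (p F : ℕ) (τ κ : ℝ) (y : ℕ → ℕ) (N : ℕ) (k : ℝ),
    0 < p → 0 < κ → κ ≤ 1 / 4 → τ ≤ 1 / 4 → 0 < N →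
    ‖∑ j ∈ range F, (fillSeg p τ κ F j (y j)).val 0 N k‖ ≤
      C * Real.sqrt (2 * F / p) + C * F * F / Real.sqrt N := by
  obtain ⟨C1, hC1, hv⟩ := Seg.val_bound hF
  obtain ⟨C2, hC2, he⟩ := endTerm_bound hF
  refine ⟨1 + 2 * C2 + 4 * (C1 + 4 * C2), by positivity, fun p F τ κ y N k hp hκ hκ' hτ hN => ?_⟩
  rcases F.eq_zero_or_pos with rfl | hF0
  · simp
  have hFr : (0 : ℝ) < F := Nat.cast_pos.2 hF0
  have hpr : (0 : ℝ) < p := Nat.cast_pos.2 hp
  have ht : 0 < 1 - 2 * τ := by linarith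
  set g : ℝ := (1 - 2 * τ) / F with hg_def
  have hg : 0 < g := by positivity
  set A : ℝ := Real.sqrt (2 * F / p) with hA
  set S : ℕ → Seg := fun j => fillSeg p τ κ F j (y j) with hS
  set σ : ℝ := (1 - 2 * τ) * p / (2 * Real.pi * (1 - κ) * F) with hσ_def
  have hk : 0 < 1 - κ := by linarith
  have hσ0 : 0 < σ := by positivity
  have hσ : ∀ j, (S j).slope 0 = σ := fun j => fillSeg_slope hp hκ' hF0 j (y j)
  have hσA : ampl σ ≤ A := by rw [← hσ 0]; exact fillSeg_ampl_le hp hκ hκ' hF0 hτ 0 (y 0)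
  set v : ℕ → ℝ := fun i => τ + (1 - 2 * τ) * (i : ℝ) / F with hv_def
  have hvu : ∀ j i, (S j).u i = v (j + i) := fun j i => by simp [hS, fillSeg, hv_def]
  have hsep : ∀ i j, i < j → v i + g ≤ v j := by
    intro i j hij
    have : (i : ℝ) + 1 ≤ j := by exact_mod_cast hij
    simp only [hv_def, hg_def]
    rw [add_assoc, ← add_div]
    gcongr
    nlinarith
  set e1 : ℕ → ℝ := fun j => ‖endTerm N σ (v (j + 1)) ((S j).psi 0 N 1 - k * (S j).t 1) k‖ with he1
  set e0 : ℕ → ℝ := fun j => ‖endTerm N σ (v j) ((S j).psi 0 N 0 - k * (S j).t 0) k‖ with he0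
  set wt : ℕ → ℝ := fun j => inWeight ((N : ℝ) * v j) (N * v (j + 1)) k with hwt
  have hterm : ∀ j ∈ range F, ‖(S j).val 0 N k‖ ≤ wt j * A + (e1 j + e0 j) +
      C1 * (1 / (Real.sqrt N * g)) := by
    intro j _
    have h := hv (S j) g 1 A 0 N k hN Nat.one_pos hg (by norm_num) le_rfl ?_ ?_
    rotate_left
    · intro i hi
      obtain rfl : i = 0 := by simp [hS, fillSeg] at hi; exact hi
      refine ⟨?_, ?_, by rw [hσ]; exact hσA⟩
      · simp only [hS, fillSeg]
        gcongr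
        norm_num
      · rw [hvu, hvu]; exact hsep _ _ (by omega)
    · intro i hi; simp [hS, fillSeg] at hi
    have hn : (S j).n = 1 := rfl
    rw [hn, Nat.sub_self, hσ, hvu, hvu, add_zero, sub_self, Real.sqrt_zero, mul_zero, zero_add,
      Nat.cast_one] at h
    have hmain : ‖(S j).main 0 N k‖ ≤ wt j * A := by
      rw [Seg.main, hn, sum_range_one, hσ, hvu, hvu, add_zero, norm_mul, norm_real, Real.norm_eq_abs,
        abs_of_nonneg (inWeight_nonneg _ _ _)]
      refine mul_le_mul_of_nonneg_left ?_ (inWeight_nonneg _ _ _)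
      rw [statTerm, norm_mul, norm_exp_ofReal_mul_I, mul_one, norm_real, Real.norm_eq_abs,
        abs_of_nonneg (by unfold ampl; positivity)]
      exact hσA
    have := norm_le_norm_add_norm_sub' ((S j).val 0 N k) ((S j).main 0 N k)
    simp only [he1, he0]
    linarith
  have hsq : 0 < Real.sqrt N := Real.sqrt_pos.2 (Nat.cast_pos.2 hN)
  have hA0 : 0 ≤ C2 * A := by positivity
  have hends : ∀ (u : ℕ → ℝ) (φ : ℕ → ℝ), (∀ i j, i < j → u i + g ≤ u j) →
      ∑ j ∈ range F, ‖endTerm N σ (u j) (φ j) k‖ ≤ C2 * A + F * (2 * C2 / (Real.sqrt N * g)) := by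
    intro u φ hu
    refine near_sum F _ u (k / N) _ _ _ g hg hsq hA0 hC2.le (fun j _ => ?_) fun i j hij _ => hu i j hij
    obtain ⟨b1, b2⟩ := he N σ (u j) (φ j) k hN hσ0
    exact ⟨norm_nonneg _, b1.trans (mul_le_mul_of_nonneg_left hσA hC2.le), b2⟩
  have hw : ∑ j ∈ range F, wt j ≤ 1 := by
    rw [hwt, inWeight_sum (fun i => (N : ℝ) * v i) F k fun j _ => by
      gcongr; linarith [hsep j (j + 1) (Nat.lt_succ_self j)]]
    exact inWeight_le_one _ _ _
  refine (norm_sum_le _ _).trans ((sum_le_sum hterm).trans ?_)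
  rw [sum_add_distrib, sum_add_distrib, sum_add_distrib, ← sum_mul, sum_const, card_range, nsmul_eq_mul]
  have h1 := hends (fun j => v (j + 1)) (fun j => (S j).psi 0 N 1 - k * (S j).t 1) fun i j hij =>
    hsep _ _ (by omega)
  have h0 := hends v (fun j => (S j).psi 0 N 0 - k * (S j).t 0) hsep
  have hgF : 1 / (Real.sqrt N * g) ≤ 2 * F / Real.sqrt N := by
    rw [hg_def, one_div_le (by positivity) (by positivity), one_div_div,
      div_le_iff₀ (by positivity)]
    field_simp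
    nlinarith
  have hwA := mul_le_mul_of_nonneg_right hw (Real.sqrt_nonneg (2 * F / p))
  rw [← hA] at hwA
  simp only [he1, he0] at *
  rw [div_eq_mul_one_div (2 * C2)] at h1 h0
  have hb := mul_le_mul_of_nonneg_left hgF (show (0 : ℝ) ≤ F by positivity)
  have hA' : 0 ≤ A := Real.sqrt_nonneg _
  have hZ : 0 ≤ (F : ℝ) * (2 * F / Real.sqrt N) := by positivity
  rw [show (1 + 2 * C2 + 4 * (C1 + 4 * C2)) * F * F / Real.sqrt N =
    (1 + 2 * C2 + 4 * (C1 + 4 * C2)) / 2 * ((F : ℝ) * (2 * F / Real.sqrt N)) by ring]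
  nlinarith [mul_le_mul_of_nonneg_left hb hC1.le, mul_le_mul_of_nonneg_left hb hC2.le,
    mul_nonneg hC1.le hA', mul_nonneg hC2.le hA', mul_nonneg hC1.le hZ, mul_nonneg hC2.le hZ]

end

end Vale.Agent.P110.Ultra
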