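import Vale.Agent.P110.Ultraflat.Fresnel

/-!
P110, module M6, first slice: symmetries of segments, their stationary part, weights of intervals.
-/

namespace Vale.Agent.P110.Ultra

open Complex Finset Vale.Agent.P110.Ultraflat

noncomputable section

namespace Seg

/-- A segment moved by whole turns. -/
def shift (S : Seg) (m : ℤ) : Seg := ⟨S.n, fun i => S.t i + 2 * Real.pi * m, S.u⟩

/-- A segment mirrored by `x ↦ 2 π m - x`. -/
def rev (S : Seg) (m : ℤ) : Seg :=
  ⟨S.n, fun i => 2 * Real.pi * m - S.t (S.n - i), fun i => S.u (S.n - i)⟩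

lemma psi_succ (S : Seg) (θ : ℝ) (N j : ℕ) :
    S.psi θ N (j + 1) = S.psi θ N j + N * ((S.t (j + 1) - S.t j) * (S.u j + S.u (j + 1)) / 2) := by
  simp only [psi, sum_range_succ]; ring

lemma psi_shift (S : Seg) (m : ℤ) (θ : ℝ) (N j : ℕ) : (S.shift m).psi θ N j = S.psi θ N j := by
  simp only [psi, shift]
  congr 2
  refine sum_congr rfl fun i _ => ?_
  ring

lemma slope_shift (S : Seg) (m : ℤ) (j : ℕ) : (S.shift m).slope j = S.slope j := by
  simp only [slope, shift]; congr 1; ring

lemma exp_int_turns (m : ℤ) (k : ℕ) (z : ℝ) :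
    exp (((z - k * (2 * Real.pi * m) : ℝ) : ℂ) * I) = exp ((z : ℂ) * I) := by
  rw [show (((z - k * (2 * Real.pi * m) : ℝ) : ℂ) * I)
      = (z : ℂ) * I + ((-(k * m) : ℤ) : ℂ) * (2 * Real.pi * I) by push_cast; ring,
    Complex.exp_add, Complex.exp_int_mul_two_pi_mul_I, mul_one]

theorem val_shift (S : Seg) (m : ℤ) (θ : ℝ) (N k : ℕ) :
    (S.shift m).val θ N k = S.val θ N k := by
  simp only [val]
  congr 1
  refine sum_congr rfl fun j _ => ?_
  simp only [psi_shift, slope_shift]
  simp only [shift]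
  rw [← intervalIntegral.integral_comp_add_right _ (2 * Real.pi * m)]
  refine intervalIntegral.integral_congr fun x _ => ?_
  rw [← exp_int_turns m k (S.psi θ N j +
    N * (S.u j * (x - S.t j) + S.slope j * (x - S.t j) ^ 2 / 2) - k * x)]
  congr 3
  ring

lemma psi_rev (S : Seg) (m : ℤ) (θ : ℝ) (N : ℕ) :
    ∀ j ≤ S.n, (S.rev m).psi (-S.psi θ N S.n) N j = -S.psi θ N (S.n - j) := by
  intro j
  induction j with
  | zero => intro _; simp [psi]
  | succ j ih =>
    intro hj
    have e : S.n - j = S.n - (j + 1) + 1 := by omega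
    rw [psi_succ, ih (Nat.le_of_succ_le hj)]
    have h := psi_succ S θ N (S.n - (j + 1))
    simp only [rev, ← e] at h ⊢
    linear_combination -h

theorem val_rev (S : Seg) (m : ℤ) (θ : ℝ) (N k : ℕ) :
    (S.rev m).val (-S.psi θ N S.n) N k = (starRingEnd ℂ) (S.val θ N k) := by
  simp only [val, map_mul, map_sum, Complex.conj_ofReal]
  congr 1
  rw [← sum_range_reflect (fun j => (starRingEnd ℂ) (∫ x in S.t j..S.t (j + 1),
      exp (((S.psi θ N j + N * (S.u j * (x - S.t j) + S.slope j * (x - S.t j) ^ 2 / 2) - k * x : ℝ) :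
        ℂ) * I))) S.n]
  refine sum_congr rfl fun j hj => ?_
  have hj' : j < S.n := mem_range.1 hj
  rw [psi_rev S m θ N j hj'.le, ← intervalIntegral.intervalIntegral_conj]
  have e1 : S.n - j = S.n - 1 - j + 1 := by omega
  have e2 : S.n - (j + 1) = S.n - 1 - j := by omega
  simp only [slope, rev, e1, e2]
  set i := S.n - 1 - j
  rcases eq_or_ne (S.t (i + 1)) (S.t i) with h | h
  · simp [h]
  rw [← intervalIntegral.integral_comp_sub_left (fun y => exp (((-S.psi θ N (i + 1) + N *
      (S.u (i + 1) * (y - (2 * Real.pi * m - S.t (i + 1))) + (S.u i - S.u (i + 1)) /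
        (2 * Real.pi * m - S.t i - (2 * Real.pi * m - S.t (i + 1))) *
          (y - (2 * Real.pi * m - S.t (i + 1))) ^ 2 / 2) - k * y : ℝ) : ℂ) * I))
    (2 * Real.pi * m)]
  refine intervalIntegral.integral_congr fun x _ => ?_
  rw [← exp_conj, map_mul, Complex.conj_ofReal, Complex.conj_I, mul_neg, ← neg_mul,
    ← Complex.ofReal_neg, ← exp_int_turns m k (-(S.psi θ N i + _ - _))]
  congr 3
  rw [psi_succ]
  have h' : S.t (i + 1) - S.t i ≠ 0 := sub_ne_zero.2 h
  rw [show 2 * Real.pi * m - S.t i - (2 * Real.pi * m - S.t (i + 1)) = S.t (i + 1) - S.t i by ring]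
  field_simp
  ring

theorem Valid.shift {S : Seg} {τ : ℝ} (h : S.Valid τ) (m : ℤ) : (S.shift m).Valid τ :=
  ⟨h.pos, fun j hj => by simpa [Seg.shift] using h.mono j hj, h.mem, h.ne⟩

theorem Valid.rev {S : Seg} {τ : ℝ} (h : S.Valid τ) (m : ℤ) : (S.rev m).Valid τ := by
  refine ⟨h.pos, fun j hj => ?_, fun j _ => h.mem _ (Nat.sub_le _ _), fun j hj => ?_⟩
  · simp only [Seg.rev] at hj ⊢
    have := h.mono (S.n - (j + 1)) (by omega)
    rw [show S.n - (j + 1) + 1 = S.n - j by omega] at this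
    linarith
  · simp only [Seg.rev] at hj ⊢
    have := h.ne (S.n - (j + 1)) (by omega)
    rw [show S.n - (j + 1) + 1 = S.n - j by omega] at this
    exact this.symm

/-- The stationary terms of a segment. -/
def main (S : Seg) (θ : ℝ) (N : ℕ) (k : ℝ) : ℂ :=
  ∑ j ∈ range S.n, (inWeight ((N : ℝ) * S.u j) (N * S.u (j + 1)) k : ℂ) *
    statTerm N (S.slope j) (S.u j) (S.psi θ N j - k * S.t j) k

/-- An increasing segment is its stationary part, its two ends and small junctions. -/
theorem val_bound (hF : FresnelStmt) : ∃ C : ℝ, 0 < C ∧ ∀ (S : Seg) (g q A : ℝ) (θ : ℝ) (N : ℕ)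
    (k : ℝ), 0 < N → 0 < S.n → 0 < g → 1 / 2 ≤ q → q ≤ 1 →
    (∀ j < S.n, S.t j < S.t (j + 1) ∧ S.u j + g ≤ S.u (j + 1) ∧ ampl (S.slope j) ≤ A) →
    (∀ j, j + 1 < S.n → q * ampl (S.slope j) ≤ ampl (S.slope (j + 1)) ∧
      q * ampl (S.slope (j + 1)) ≤ ampl (S.slope j)) →
    ‖S.val θ N k - S.main θ N k‖ ≤
      ‖endTerm N (S.slope (S.n - 1)) (S.u S.n) (S.psi θ N S.n - k * S.t S.n) k‖ +
      ‖endTerm N (S.slope 0) (S.u 0) (S.psi θ N 0 - k * S.t 0) k‖ +
      C * (A * Real.sqrt (1 - q) + S.n / (Real.sqrt N * g)) := by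
  refine ⟨5, by norm_num, fun S g q A θ N k hN hn hg _ hq1 hS hq => ?_⟩
  have hN' : (0 : ℝ) < N := by exact_mod_cast hN
  have hA : 0 ≤ A := (by unfold ampl; positivity : (0:ℝ) ≤ ampl (S.slope 0)).trans (hS 0 hn).2.2
  have hslope : ∀ j < S.n, 0 < S.slope j := fun j hj =>
    div_pos (by linarith [(hS j hj).2.1]) (sub_pos.2 (hS j hj).1)
  have hu : ∀ j < S.n, S.u j + S.slope j * (S.t (j + 1) - S.t j) = S.u (j + 1) := fun j hj => by
    rw [slope, div_mul_cancel₀ _ (sub_pos.2 (hS j hj).1).ne']; ring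
  set E : ℕ → ℕ → ℂ := fun i j =>
    endTerm N (S.slope i) (S.u j) (S.psi θ N j - k * S.t j) k with hE
  have hval : S.val θ N k = S.main θ N k + ∑ j ∈ range S.n, (E j (j + 1) - E j j) := by
    rw [val, main, mul_sum, ← sum_add_distrib]
    refine sum_congr rfl fun j hj => ?_
    have hj' := mem_range.1 hj
    rw [hF.2 N (S.slope j) (S.u j) (S.psi θ N j) (S.t j) (S.t (j + 1)) k hN (hslope j hj').ne'
      (hS j hj').1.le, hu j hj']
    have hp : S.psi θ N j + N * (S.u j * (S.t (j + 1) - S.t j) +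
        S.slope j * (S.t (j + 1) - S.t j) ^ 2 / 2) = S.psi θ N (j + 1) := by
      rw [psi_succ, ← hu j hj']; ring
    rw [hp]
    simp only [hE]
    ring
  obtain ⟨n, hn'⟩ : ∃ n, S.n = n + 1 := ⟨S.n - 1, by omega⟩
  set J : ℕ → ℂ := fun j => E j (j + 1) - E (j + 1) (j + 1) with hJ
  have htel : ∑ j ∈ range S.n, (E j (j + 1) - E j j) = E n (n + 1) - E 0 0 + ∑ j ∈ range n, J j := by
    simp only [hJ, sum_sub_distrib]
    rw [hn', sum_range_succ, sum_range_succ']
    ring
  set X := A * Real.sqrt (1 - q) with hX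
  set Y := 1 / (Real.sqrt N * g) with hY
  have hX0 : 0 ≤ X := by positivity
  have hY0 : 0 ≤ Y := by positivity
  set D : ℕ → ℝ := fun j => (N : ℝ) * S.u (j + 1) - k with hD
  have hterm : ∀ j ∈ range n, ‖J j‖ ≤ (if |D j| < N * g / 2 then 5 * X else 0) + 4 * Y := by
    intro j hj
    have hj2 : j + 1 < S.n := by rw [hn']; have := mem_range.1 hj; omega
    have hJ' : ‖J j‖ = ‖Fresnel.edge (S.slope j) (Real.sqrt (Real.pi / N) * D j) -
        Fresnel.edge (S.slope (j + 1)) (Real.sqrt (Real.pi / N) * D j)‖ := by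
      simp only [hJ, hE, hD]
      rw [endTerm_eq hN, endTerm_eq hN, ← mul_sub, norm_mul, Complex.norm_exp_ofReal_mul_I,
        one_mul]
    rw [hJ']
    split_ifs with h
    · have hs : (0 < S.slope j) ↔ 0 < S.slope (j + 1) :=
        iff_of_true (hslope j (by omega)) (hslope (j + 1) hj2)
      refine (Fresnel.norm_edge_sub_le hs _).trans ?_
      have h1 := (hS j (by omega)).2.2
      have h2 := (hS (j + 1) hj2).2.2
      obtain ⟨h3, h4⟩ := hq j hj2
      rw [ampl_eq] at h1 h2 h3 h4
      rw [ampl_eq] at h3 h4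
      have hm := max_le h1 h2
      have hd : |Fresnel.amp (S.slope j) - Fresnel.amp (S.slope (j + 1))| ≤ (1 - q) * A := by
        have a1 := mul_le_mul_of_nonneg_left h1 (sub_nonneg.2 hq1)
        have a2 := mul_le_mul_of_nonneg_left h2 (sub_nonneg.2 hq1)
        rw [abs_sub_le_iff]
        constructor <;> linarith
      have hs5 : Real.sqrt (max (Fresnel.amp (S.slope j)) (Fresnel.amp (S.slope (j + 1))) *
          |Fresnel.amp (S.slope j) - Fresnel.amp (S.slope (j + 1))|) ≤ X := by
        refine (Real.sqrt_le_sqrt (mul_le_mul hm hd (abs_nonneg _) hA)).trans_eq ?_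
        rw [show A * ((1 - q) * A) = A ^ 2 * (1 - q) by ring, Real.sqrt_mul (sq_nonneg A),
          Real.sqrt_sq hA]
      linarith
    · have hDlow : N * g / 2 ≤ |D j| := le_of_not_gt h
      have hD0 : 0 < |D j| := lt_of_lt_of_le (by positivity) hDlow
      have hscale : Real.sqrt N * g / 2 ≤ |Real.sqrt (Real.pi / N) * D j| := by
        have hr : 1 ≤ Real.sqrt N * Real.sqrt (Real.pi / N) := by
          rw [← Real.sqrt_mul hN'.le, mul_div_cancel₀ _ hN'.ne']
          exact Real.one_le_sqrt.2 (by linarith [Real.two_le_pi])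
        rw [abs_mul, abs_of_nonneg (Real.sqrt_nonneg _)]
        have hs := Real.mul_self_sqrt hN'.le
        have e : Real.sqrt N * Real.sqrt (Real.pi / N) * (Real.sqrt N * g) =
            Real.sqrt (Real.pi / N) * (N * g) := by
          linear_combination (Real.sqrt (Real.pi / N) * g) * hs
        linarith [mul_le_mul_of_nonneg_left hDlow (Real.sqrt_nonneg (Real.pi / N)),
          mul_le_mul_of_nonneg_right hr (by positivity : 0 ≤ Real.sqrt N * g)]
      have hne : Real.sqrt (Real.pi / N) * D j ≠ 0 :=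
        abs_pos.1 (lt_of_lt_of_le (by positivity) hscale)
      have hinv : 1 / |Real.sqrt (Real.pi / N) * D j| ≤ 2 * Y := by
        rw [hY, show 2 * (1 / (Real.sqrt N * g)) = 1 / (Real.sqrt N * g / 2) by field_simp]
        gcongr
      refine ((norm_sub_le _ _).trans (add_le_add (Fresnel.norm_edge_le_inv _ hne)
        (Fresnel.norm_edge_le_inv _ hne))).trans ?_
      linarith
  have hcard : ((range n).filter fun j => |D j| < N * g / 2).card ≤ 1 := by
    refine card_le_one.2 fun a ha b hb => ?_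
    by_contra hne
    simp only [mem_filter, mem_range] at ha hb
    wlog hab : a < b generalizing a b
    · exact this b a (Ne.symm hne) hb ha (by omega)
    have hmono : ∀ i, a + 1 ≤ i → i ≤ b → S.u (a + 1) + g ≤ S.u (i + 1) := by
      intro i hi
      induction i, hi using Nat.le_induction with
      | base => intro hb'; exact (hS (a + 1) (by omega)).2.1
      | succ i hi ih =>
        intro hb'
        linarith [ih (by omega), (hS (i + 1) (by omega)).2.1]
    have hm := mul_le_mul_of_nonneg_left (hmono b hab le_rfl) hN'.le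
    have h1 := (abs_lt.1 ha.2).1
    have h2 := (abs_lt.1 hb.2).2
    simp only [hD] at h1 h2
    linarith
  have hsum : ∑ j ∈ range n, ‖J j‖ ≤ 5 * X + n * (4 * Y) := by
    refine (sum_le_sum hterm).trans ?_
    rw [sum_add_distrib, ← sum_filter, sum_const, sum_const, card_range, nsmul_eq_mul,
      nsmul_eq_mul]
    exact add_le_add (mul_le_of_le_one_left (by positivity) (by exact_mod_cast hcard)) le_rfl
  have hnY : (n : ℝ) * (4 * Y) ≤ 5 * (S.n / (Real.sqrt N * g)) := by
    have hnn : (n : ℝ) ≤ S.n := by rw [hn']; push_cast; linarith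
    have h0 : (0:ℝ) ≤ S.n := by positivity
    rw [show (S.n : ℝ) / (Real.sqrt N * g) = S.n * Y by rw [hY]; ring]
    nlinarith [mul_le_mul_of_nonneg_right hnn hY0, mul_nonneg h0 hY0]
  rw [hval, add_sub_cancel_left, htel, hn', Nat.add_sub_cancel]
  rw [hn'] at hnY
  refine (norm_add_le _ _).trans ?_
  refine (add_le_add (norm_sub_le _ _) (norm_sum_le _ _)).trans ?_
  simp only [hE]
  linarith

end Seg

theorem endTerm_bound (_hF : FresnelStmt) : ∃ C : ℝ, 0 < C ∧ ∀ (N : ℕ) (σ u φ k : ℝ), 0 < N →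
    0 < σ → ‖endTerm N σ u φ k‖ ≤ C * ampl σ ∧
      Real.sqrt N * |u - k / N| * ‖endTerm N σ u φ k‖ ≤ C := by
  refine ⟨2, by norm_num, fun N σ u φ k hN _ => ?_⟩
  have hN' : (0 : ℝ) < N := by exact_mod_cast hN
  rw [endTerm_eq hN, norm_mul, Complex.norm_exp_ofReal_mul_I, one_mul, ampl_eq]
  refine ⟨Fresnel.norm_edge_le _ _, ?_⟩
  have hD : |Real.sqrt (Real.pi / N) * (N * u - k)| =
      Real.sqrt Real.pi * (Real.sqrt N * |u - k / N|) := by
    have e : (N : ℝ) * u - k = N * (u - k / N) := by field_simp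
    rw [e, abs_mul, abs_mul, abs_of_nonneg (Real.sqrt_nonneg _), abs_of_pos hN',
      Real.sqrt_div Real.pi_pos.le]
    field_simp
    rw [Real.sq_sqrt hN'.le]
  rcases eq_or_ne ((N : ℝ) * u - k) 0 with h | h
  · have h0 : u - k / N = 0 := by field_simp; linarith
    simp [h0]
  have hne : Real.sqrt (Real.pi / N) * (N * u - k) ≠ 0 :=
    mul_ne_zero (by positivity) h
  have hb := Fresnel.norm_edge_le_inv σ hne
  rw [le_div_iff₀' (abs_pos.2 hne), hD] at hb
  have h1 : 1 ≤ Real.sqrt Real.pi := Real.one_le_sqrt.2 (by linarith [Real.two_le_pi])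
  have h2 : 0 ≤ Real.sqrt N * |u - k / N| *
      ‖Fresnel.edge σ (Real.sqrt (Real.pi / N) * (N * u - k))‖ := by positivity
  nlinarith

lemma sign_cases (x : ℝ) : Real.sign x = -1 ∨ Real.sign x = 0 ∨ Real.sign x = 1 :=
  Real.sign_apply_eq x

theorem inWeight_nonneg (a b y : ℝ) : 0 ≤ inWeight a b y := by unfold inWeight; positivity

theorem inWeight_le_one (a b y : ℝ) : inWeight a b y ≤ 1 := by
  unfold inWeight
  rcases sign_cases (b - y) with h | h | h <;> rcases sign_cases (a - y) with h' | h' | h' <;>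
    simp [h, h'] <;> norm_num

theorem inWeight_eq_zero {a b y : ℝ} (hab : a ≤ b) (hy : y < a ∨ b < y) :
    inWeight a b y = 0 := by
  unfold inWeight
  rcases hy with h | h
  · simp [Real.sign_of_pos (show 0 < b - y by linarith),
      Real.sign_of_pos (show 0 < a - y by linarith)]
  · simp [Real.sign_of_neg (show b - y < 0 by linarith),
      Real.sign_of_neg (show a - y < 0 by linarith)]

theorem inWeight_sum (u : ℕ → ℝ) (n : ℕ) (y : ℝ) (hu : ∀ j < n, u j ≤ u (j + 1)) :
    ∑ j ∈ range n, inWeight (u j) (u (j + 1)) y = inWeight (u 0) (u n) y := by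
  have h0 : ∀ m ≤ n, u 0 ≤ u m := by
    intro m
    induction m with
    | zero => simp
    | succ m ih => intro hm; exact (ih (by omega)).trans (hu m (by omega))
  have key : ∀ a b : ℝ, a ≤ b → inWeight a b y = (Real.sign (b - y) - Real.sign (a - y)) / 2 :=
    fun a b h => by
      rw [inWeight, abs_of_nonneg (sub_nonneg.2 (Fresnel.sign_mono (by linarith)))]
  rw [key _ _ (h0 n le_rfl), sum_congr rfl fun j hj => key _ _ (hu j (mem_range.1 hj)), ← sum_div,
    sum_range_sub (fun j => Real.sign (u j - y))]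

end

end Vale.Agent.P110.Ultra
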