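import Vale.Agent.P110.Ultraflat.Interfaces
import Vale.Agent.P110.Ultraflat.Pack.Select
import Vale.Agent.P110.Ultraflat.Pack.Cells

/-!
P110, ultraflat construction, packing: disjoint cells cover almost the whole circle.
-/

namespace Vale.Agent.P110.Ultra

open Finset
open Vale.Agent.P110.Ultraflat.Pack

/-- **Packing.** -/
theorem packingStmt : PackingStmt := by
  intro d P hA hI hne δ hδ κ hκ
  classical
  set J : ℝ := (#P : ℝ) with hJ
  have hJ0 : 0 < J := Nat.cast_pos.2 hne.card_pos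
  set ε := min δ 1 / 2 with hε'
  have hε : 0 < ε := half_pos (lt_min hδ one_pos)
  have hεδ : 2 * ε ≤ δ := by rw [hε']; linarith [min_le_left δ 1]
  have hε1 : ε ≤ 1 / 2 := by rw [hε']; linarith [min_le_right δ 1]
  obtain ⟨N0, hN0⟩ := exists_colouring (v := fun m : {m // m ∈ P} => (m : Vec d)) (z := 0)
    (fun m => (hA m m.2).1.ne') (fun i j hij => by
      obtain ⟨b, hb⟩ := hI i i.2 j j.2 fun e => hij (Subtype.ext e)
      refine ⟨b, sub_ne_zero.2 ?_⟩
      rwa [mul_comm ((j : Vec d) 0)])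
    (fmin := κ ^ 2 / (2 * J)) (ε := ε) (by positivity) hε
  set L : ℕ := 2 ^ N0 with hL
  have : NeZero L := ⟨by positivity⟩
  refine ⟨2 * L * L, by positivity, ⟨L * L, by ring⟩,
    2 * (J / κ) * ((2 * L * L : ℕ) : ℝ) ^ (d + 1) / ε, fun n Λ hΛ hΛ0 hn hpw => ?_⟩
  have hn0 : ∀ m ∈ P, 0 < n m := fun m hm => (hn m hm).1.pos
  have hu : ∀ m : {m // m ∈ P}, IsUnit (((m : Vec d) 0 : ℤ) : ZMod (2 * L * L)) := by
    intro m
    rw [ZMod.coe_int_isUnit_iff_isCoprime, hL, mul_assoc, ← pow_add, ← pow_succ', Nat.cast_pow]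
    exact (Int.isCoprime_two_left.2 ((hA m m.2).2 0)).pow_left
  set w : {m // m ∈ P} → ℝ := fun m => ((m : Vec d) 0 : ℝ) * Λ / n (m : Vec d) with hw
  have hwκ : ∀ m, κ ≤ w m := fun m => (hn m m.2).2.2.1
  have hwK : ∀ m, w m ≤ 1 / κ := fun m => (hn m m.2).2.2.2
  have hsumP : ∑ m ∈ P, (m 0 : ℝ) * Λ / n m = ∑ m, w m :=
    (Finset.sum_coe_sort P fun m => (m 0 : ℝ) * Λ / n m).symm
  rw [hsumP]
  set W := ∑ m, w m with hW
  have hcard : (Fintype.card {m // m ∈ P} : ℝ) = J := by rw [Fintype.card_coe]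
  have hWle : W ≤ J / κ := by
    refine (Finset.sum_le_card_nsmul _ _ _ fun m _ => hwK m).trans ?_
    rw [Finset.card_univ, nsmul_eq_mul, hcard, mul_one_div]
  obtain ⟨m1, hm1⟩ := hne
  have hW0 : 0 < W := Finset.sum_pos (fun m _ => hκ.trans_le (hwκ m)) ⟨⟨m1, hm1⟩, Finset.mem_univ _⟩
  set f : {m // m ∈ P} → ℝ := fun m => w m / (2 * W) with hf
  have hf0 : ∀ m, 0 < f m := fun m => div_pos (hκ.trans_le (hwκ m)) (by positivity)
  obtain ⟨σ, G, hgood, hcap, hG⟩ := hN0 L L (Nat.lt_two_pow_self).le (Nat.lt_two_pow_self).le hu f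
    (fun m => by
      rw [hf, div_le_div_iff₀ (by positivity) (by positivity)]
      calc κ ^ 2 * (2 * W) ≤ κ ^ 2 * (2 * (J / κ)) := by gcongr
        _ = κ * (2 * J) := by field_simp
        _ ≤ _ := mul_le_mul_of_nonneg_right (hwκ m) (by positivity))
    (by simp only [hf, ← Finset.sum_div, ← hW]; field_simp)
  simp only [Nat.add_sub_cancel] at hcap
  set p := ∏ m, f m with hp'
  have hp : 0 < p := Finset.prod_pos fun m _ => hf0 m
  have hp1 : p ≤ 1 := Finset.prod_le_one (fun m _ => (hf0 m).le) fun m _ => by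
    rw [hf, div_le_one (by positivity)]
    linarith [Finset.single_le_sum (fun m _ => (hκ.trans_le (hwκ m)).le) (Finset.mem_univ m)]
  set Q : ℝ := ((2 * L * L : ℕ) : ℝ) with hQdef
  have hQ : (0 : ℝ) < Q := Nat.cast_pos.2 (Nat.pos_of_ne_zero (NeZero.ne _))
  set X : ℝ := Λ / (2 * W * Q ^ d * p) with hX
  have hX0 : 0 ≤ X := by positivity
  obtain ⟨g, hg⟩ := exists_cells P (fun m hm => (hA m hm).1) σ G hgood n
    (fun m hm => ⟨hn0 m hm, (hn m hm).2.1⟩) hpw ⌊X⌋₊ (fun m ρ => by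
      have h1 := hcap m ρ
      have hb0 : 0 ≤ Q ^ d * p / f m := div_nonneg (by positivity) (hf0 m).le
      have h2 := Nat.floor_le hX0
      have h0 : ((((m : Vec d) 0).toNat : ℕ) : ℝ) = ((m : Vec d) 0 : ℝ) := by
        exact_mod_cast Int.toNat_of_nonneg (hA m m.2).1.le
      rw [← Nat.cast_le (α := ℝ), Nat.cast_mul, Nat.cast_mul, h0]
      calc _ ≤ Q ^ d * p / f m * X * ((m : Vec d) 0 : ℝ) := by
            gcongr
            exact_mod_cast (hA m m.2).1.le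
        _ = _ := by
            have := hn0 m m.2
            have h3 : ((m : Vec d) 0 : ℝ) ≠ 0 := Int.cast_ne_zero.2 (hA m m.2).1.ne'
            simp only [hf, hX, hw]
            field_simp)
  refine ⟨_, g, hg, ?_⟩
  rw [Nat.cast_mul]
  have hfl : X - 1 ≤ ⌊X⌋₊ := by linarith [Nat.lt_floor_add_one X]
  have hB : 0 ≤ (1 - ε) * Q ^ (d + 1) * p := mul_nonneg (mul_nonneg (by linarith) (by positivity)) hp.le
  have h1 : (1 - ε) * Q ^ (d + 1) * p * (X - 1) ≤ (#G : ℝ) * ⌊X⌋₊ :=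
    (mul_le_mul_of_nonneg_left hfl hB).trans (mul_le_mul_of_nonneg_right hG (Nat.cast_nonneg _))
  refine le_trans ?_ (mul_le_mul_of_nonneg_right h1 (by positivity : 0 ≤ 2 * W))
  have h2 : (1 - ε) * Q ^ (d + 1) * p * (X - 1) * (2 * W) =
      (1 - ε) * (Q * Λ) - (1 - ε) * (2 * W * Q ^ (d + 1) * p) := by
    rw [hX]; field_simp; ring
  rw [h2]
  have h3 : 2 * W * Q ^ (d + 1) * p ≤ ε * Λ := by
    rw [div_le_iff₀ hε] at hΛ
    calc 2 * W * Q ^ (d + 1) * p ≤ 2 * (J / κ) * Q ^ (d + 1) * 1 := by gcongr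
      _ ≤ _ := by rw [mul_one, mul_comm ε]; exact hΛ
  have h4 : Λ ≤ Q * Λ := le_mul_of_one_le_left hΛ0.le (Nat.one_le_cast.2 (Nat.pos_of_ne_zero (NeZero.ne _)))
  have h5 : 0 ≤ 2 * W * Q ^ (d + 1) * p := by positivity
  nlinarith [mul_le_mul_of_nonneg_left h4 hε.le, mul_le_mul_of_nonneg_right hεδ (mul_nonneg hQ.le hΛ0.le),
    mul_nonneg hε.le h5]

end Vale.Agent.P110.Ultra
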