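import Vale.Agent.P110.Ultraflat.Interfaces

/-!
P110, construction of ultraflat Littlewood polynomials: the waveform, the core and the packing give a layout, hence
the relaxed problem.
-/

namespace Vale.Agent.P110.Ultra

open Complex Finset

noncomputable section

theorem dotR_core {d : ℕ} (m b g : Vec d) (a β y : ℝ) :
    dotR m (fun j => (b j : ℝ) * a + (g j : ℝ) * β + if j = 0 then y else 0) =
      (dotZ m b : ℝ) * a + (dotZ m g : ℝ) * β + (m 0 : ℝ) * y := by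
  simp only [dotR, dotZ, mul_add, sum_add_distrib, Int.cast_sum, Int.cast_mul, sum_mul]
  simp [mul_ite, mul_assoc]

/-- A ridge sum of the layout is the waveform on the core phase. -/
theorem ridge_eq_wave {d : ℕ} (P : Finset (Vec d)) (n : Vec d → ℕ) (hn : ∀ m ∈ P, 0 < n m)
    (b g : Vec d) (Q : ℕ) (hQ : 0 < Q) (c' : Vec d → ℝ) (γ : Vec d → ℕ → ℂ) (k : ℕ) (y : ℝ)
    (hγ : ∀ m ∈ P,
      exp ((-(2 * Real.pi * ((dotZ m b : ℝ) * (k : ℝ) ^ 2 / (qOf P n : ℝ))) : ℝ) * I) =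
        ∑ i ∈ range (qOf P n / n m),
          γ m i * exp ((-(2 * Real.pi * ((i : ℝ) * k / ((qOf P n / n m : ℕ) : ℝ))) : ℝ) * I)) :
    2 * (∑ m : {m // m ∈ P}, ∑ i : Fin (qOf P n / n m.1),
        ((c' m.1 : ℂ) * γ m.1 i) * exp ((-(2 * Real.pi *
          ((((i : ℕ) * n m.1 * Q + dotZ m.1 g : ℤ) : ℝ) * k / ((Q * qOf P n : ℕ) : ℝ) +
            ((m.1 0 : ℤ) : ℝ) * y)) : ℝ) * I)).re =
      wave P c' (fun j => (b j : ℝ) * ((k : ℝ) ^ 2 / qOf P n) +
        (g j : ℝ) * ((k : ℝ) / ((Q * qOf P n : ℕ) : ℝ)) + if j = 0 then y else 0) := by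
  have hq : 0 < qOf P n := Finset.prod_pos hn
  have hm : ∀ m : {m // m ∈ P}, ∑ i : Fin (qOf P n / n m.1),
      ((c' m.1 : ℂ) * γ m.1 i) * exp ((-(2 * Real.pi *
          ((((i : ℕ) * n m.1 * Q + dotZ m.1 g : ℤ) : ℝ) * k / ((Q * qOf P n : ℕ) : ℝ) +
            ((m.1 0 : ℤ) : ℝ) * y)) : ℝ) * I) =
      (c' m.1 : ℂ) * exp ((-(2 * Real.pi * dotR m.1 (fun j => (b j : ℝ) * ((k : ℝ) ^ 2 / qOf P n) +
        (g j : ℝ) * ((k : ℝ) / ((Q * qOf P n : ℕ) : ℝ)) + if j = 0 then y else 0)) : ℝ) * I) := by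
    intro m
    have hd : n m.1 ∣ qOf P n := Finset.dvd_prod_of_mem _ m.2
    have hK : 0 < qOf P n / n m.1 := Nat.div_pos (Nat.le_of_dvd hq hd) (hn _ m.2)
    have hqK : (qOf P n : ℝ) = (n m.1 : ℝ) * ((qOf P n / n m.1 : ℕ) : ℝ) := by
      exact_mod_cast (Nat.mul_div_cancel' hd).symm
    rw [dotR_core]
    have hsplit : (-(2 * Real.pi * ((dotZ m.1 b : ℝ) * ((k : ℝ) ^ 2 / qOf P n) +
          (dotZ m.1 g : ℝ) * ((k : ℝ) / ((Q * qOf P n : ℕ) : ℝ)) + (m.1 0 : ℝ) * y))) =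
        (-(2 * Real.pi * ((dotZ m.1 b : ℝ) * (k : ℝ) ^ 2 / (qOf P n : ℝ)))) +
        (-(2 * Real.pi * ((dotZ m.1 g : ℝ) * k / ((Q * qOf P n : ℕ) : ℝ) + (m.1 0 : ℝ) * y))) := by
      ring
    rw [hsplit, ofReal_add, add_mul, exp_add, hγ _ m.2, sum_mul, mul_sum,
      ← Fin.sum_univ_eq_sum_range]
    refine sum_congr rfl fun i _ => ?_
    rw [mul_assoc (γ m.1 i), ← exp_add, ← add_mul, ← ofReal_add, ← mul_assoc]
    congr 5
    have hn' : (n m.1 : ℝ) ≠ 0 := Nat.cast_ne_zero.2 (hn _ m.2).ne'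
    have hQ' : (Q : ℝ) ≠ 0 := Nat.cast_ne_zero.2 hQ.ne'
    have hK' : ((qOf P n / n m.1 : ℕ) : ℝ) ≠ 0 := Nat.cast_ne_zero.2 hK.ne'
    push_cast
    rw [hqK]
    field_simp
    ring
  simp only [hm]
  rw [wave, re_sum, ← Finset.sum_coe_sort P]
  refine congrArg _ (sum_congr rfl fun m _ => ?_)
  rw [re_ofReal_mul, exp_ofReal_mul_I_re, Real.cos_neg]

/-- Moduli near `m 0 / c m ^ 2` give weights near `c m ^ 2`. -/
theorem tolerance {d : ℕ} (P : Finset (Vec d)) (c : Vec d → ℝ) (hc0 : ∀ m ∈ P, c m ≠ 0)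
    (hm0 : ∀ m ∈ P, (0 : ℝ) < (m 0 : ℝ)) (e' : ℝ) (he' : 0 < e') :
    ∃ κ : ℝ, 0 < κ ∧ ∃ ρ : ℝ, 0 < ρ ∧ ∀ m ∈ P, ∀ x : ℝ, |x - (m 0 : ℝ) / c m ^ 2| < ρ →
      0 < x ∧ κ ≤ (m 0 : ℝ) / x ∧ (m 0 : ℝ) / x ≤ 1 / κ ∧ |(m 0 : ℝ) / x - c m ^ 2| < e' ∧
        |(Real.sqrt ((m 0 : ℝ) / x) - abs (c m))| < e' := by
  set κ : ℝ := (1 + ∑ m ∈ P, (2 * c m ^ 2 + 2 / c m ^ 2))⁻¹ with hκ_def
  have hterm : ∀ m ∈ P, 0 ≤ 2 * c m ^ 2 + 2 / c m ^ 2 := fun m _ => by positivity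
  have hκ : 0 < κ := inv_pos.2 (by linarith [sum_nonneg hterm])
  have hκm : ∀ m ∈ P, κ < c m ^ 2 ∧ c m ^ 2 < 1 / κ := by
    intro m hm
    have h1 := single_le_sum hterm hm
    have hc : 0 < c m ^ 2 := by have := hc0 m hm; positivity
    constructor
    · rw [hκ_def]
      refine inv_lt_of_inv_lt₀ hc ?_
      have h2 : 0 ≤ c m ^ 2 := hc.le
      have : (c m ^ 2)⁻¹ ≤ 2 / c m ^ 2 := by
        rw [inv_eq_one_div]; gcongr; norm_num
      linarith
    · rw [hκ_def, one_div, inv_inv]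
      have : 0 ≤ 2 / c m ^ 2 := by positivity
      linarith
  set r : Vec d → ℝ := fun m => (m 0 : ℝ) / c m ^ 2 with hr_def
  have hr : ∀ m ∈ P, 0 < r m := fun m hm => by
    have := hc0 m hm; have := hm0 m hm; rw [hr_def]; positivity
  have hev : ∀ m ∈ P, ∀ᶠ x in nhds (r m), 0 < x ∧ κ ≤ (m 0 : ℝ) / x ∧ (m 0 : ℝ) / x ≤ 1 / κ ∧
      |(m 0 : ℝ) / x - c m ^ 2| < e' ∧ |(Real.sqrt ((m 0 : ℝ) / x) - abs (c m))| < e' := by
    intro m hm
    have hx := hr m hm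
    have hval : (m 0 : ℝ) / r m = c m ^ 2 := by
      rw [hr_def]; have := hm0 m hm; have := hc0 m hm; field_simp
    have hcont : ContinuousAt (fun x : ℝ => (m 0 : ℝ) / x) (r m) :=
      continuousAt_const.div continuousAt_id hx.ne'
    have h1 : Filter.Tendsto (fun x : ℝ => (m 0 : ℝ) / x) (nhds (r m)) (nhds (c m ^ 2)) := by
      rw [← hval]; exact hcont
    have h2 : Filter.Tendsto (fun x : ℝ => Real.sqrt ((m 0 : ℝ) / x)) (nhds (r m)) (nhds (abs (c m))) := by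
      rw [← Real.sqrt_sq_eq_abs]; exact (Real.continuous_sqrt.tendsto _).comp h1
    filter_upwards [eventually_gt_nhds hx,
      h1.eventually (eventually_gt_nhds (hκm m hm).1), h1.eventually (eventually_lt_nhds (hκm m hm).2),
      (Metric.tendsto_nhds.1 h1 e' he'), (Metric.tendsto_nhds.1 h2 e' he')] with x a b b' b'' b'''
    exact ⟨a, b.le, b'.le, b'', b'''⟩
  obtain ⟨ρ, hρ, hball⟩ := Metric.eventually_nhds_iff.1
    (Filter.eventually_all.2 fun m : {m // m ∈ P} =>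
      show ∀ᶠ z : ℝ in nhds 0, 0 < r m.1 + z ∧ κ ≤ (m.1 0 : ℝ) / (r m.1 + z) ∧
          (m.1 0 : ℝ) / (r m.1 + z) ≤ 1 / κ ∧ |(m.1 0 : ℝ) / (r m.1 + z) - c m.1 ^ 2| < e' ∧
          |(Real.sqrt ((m.1 0 : ℝ) / (r m.1 + z)) - abs (c m.1))| < e' from
        (Continuous.tendsto' (by fun_prop : Continuous fun z : ℝ => r m.1 + z) 0 _ (add_zero _)).eventually
          (hev m.1 m.2))
  refine ⟨κ, hκ, ρ, hρ, fun m hm x hx => ?_⟩
  have h0 := hball (y := x - r m) (by rw [Real.dist_eq, sub_zero]; exact hx) ⟨m, hm⟩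
  rwa [add_sub_cancel] at h0

/-- Capping the number of epochs loses little. -/
theorem epochs_cover (R₀ : ℕ) (e δ E A QL : ℝ) (hδ : 0 < δ) (he : 0 ≤ e) (he2 : e ≤ δ / 16) (he3 : e ≤ 1 / 8)
    (hQL : 0 ≤ QL) (hcount : (1 - δ / 16) * QL ≤ R₀ * E) (hE : 1 - 3 * e ≤ E) (hE' : E ≤ A)
    (hA : A ≤ δ / 16 * QL) (hE0 : 0 ≤ E) :
    (1 - δ / 2) * QL ≤ (min R₀ ⌊(1 - 2 * e) * QL⌋₊ : ℕ) * E := by
  set T : ℝ := (1 - 2 * e) * QL with hT_def
  have hT : 0 ≤ T := mul_nonneg (by linarith) hQL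
  rcases le_total R₀ ⌊T⌋₊ with h | h
  · rw [min_eq_left h]
    refine le_trans ?_ hcount
    gcongr; linarith
  · rw [min_eq_right h]
    have h1 : T < (⌊T⌋₊ : ℝ) + 1 := Nat.lt_floor_add_one T
    have h3 : (T - 1) * E ≤ (⌊T⌋₊ : ℝ) * E := mul_le_mul_of_nonneg_right (by linarith) hE0
    have h4 : T * (1 - 3 * e) ≤ T * E := mul_le_mul_of_nonneg_left hE hT
    have h5 : (1 - 5 * e) * QL ≤ T * (1 - 3 * e) := by
      rw [hT_def]; nlinarith [mul_nonneg (mul_nonneg he he) hQL]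
    nlinarith [mul_le_mul_of_nonneg_right he2 hQL, mul_nonneg hδ.le hQL]

/-- **The relaxed problem from the modules.** -/
theorem relaxed_of (hW : WaveStmt) (hC : CoreStmt) (hP : PackingStmt) (hL : LayoutStmt) :
    RelaxedStmt := by
  intro η hη
  obtain ⟨δ, hδ, hlay⟩ := hL (η / 2) (by positivity)
  set e : ℝ := min (η / 8) (min (δ / 16) (1 / 8)) with he_def
  have he : 0 < e := by rw [he_def]; positivity
  have he1 : e ≤ η / 8 := min_le_left _ _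
  have he2 : e ≤ δ / 16 := (min_le_right _ _).trans (min_le_left _ _)
  have he3 : e ≤ 1 / 8 := (min_le_right _ _).trans (min_le_right _ _)
  obtain ⟨d, P, c, hadm, hind, hc0, hsup, hen⟩ := hW e he
  set e' : ℝ := e / (P.card + 1) with he'_def
  have he' : 0 < e' := by rw [he'_def]; positivity
  have hm0 : ∀ m ∈ P, (0 : ℝ) < (m 0 : ℝ) := fun m hm => by exact_mod_cast (hadm m hm).1
  obtain ⟨κ, hκ, ρ, hρ, htol⟩ := tolerance P c hc0 hm0 e' he'
  have hne : P.Nonempty := by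
    rw [Finset.nonempty_iff_ne_empty]
    rintro rfl
    rw [sum_empty] at hen
    linarith
  obtain ⟨Q, hQ, hQe, L1, hpack⟩ := hP d P hadm hind hne (δ / 16) (by positivity) κ hκ
  set r : Vec d → ℝ := fun m => (m 0 : ℝ) / c m ^ 2 with hr_def
  have hr : ∀ m ∈ P, 0 < r m := fun m hm => by
    have := hc0 m hm; have := hm0 m hm; rw [hr_def]; positivity
  obtain ⟨n, b, Λ, hΛ1, hΛ, hn, hcop, hγ⟩ :=
    hC d P hadm hind r hr (ρ / 2) (by positivity) Q (max L1 (32 * (P.card + 1) / (κ * δ)))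
  set v : Vec d → ℝ := fun m => (m 0 : ℝ) * Λ / n m with hv_def
  have hnpos : ∀ m ∈ P, 0 < n m := fun m hm => (hn m hm).1.pos
  have hgood : ∀ m ∈ P, κ ≤ v m ∧ v m ≤ 1 / κ ∧ |v m - c m ^ 2| < e' ∧
      |(Real.sqrt (v m) - abs (c m))| < e' := by
    intro m hm
    have h0 := htol m hm ((n m : ℝ) / Λ) (by linarith [(hn m hm).2.2])
    have hv : v m = (m 0 : ℝ) / ((n m : ℝ) / Λ) := by rw [hv_def]; field_simp
    rw [hv]; exact h0.2
  obtain ⟨R₀, g, hdisj, hcount⟩ := hpack n Λ (le_trans (le_max_left _ _) hΛ1) hΛ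
    (fun m hm => ⟨(hn m hm).1, (hn m hm).2.1 hQ, (hgood m hm).1, (hgood m hm).2.1⟩) hcop
  choose! γ hγn hγe using hγ
  set q := qOf P n with hq_def
  have hq : 0 < q := Finset.prod_pos hnpos
  set T : ℝ := (1 - 2 * e) * ((Q : ℝ) * Λ) with hT_def
  have hT : 0 ≤ T := mul_nonneg (by linarith) (by positivity)
  set R : ℕ := min R₀ ⌊T⌋₊ with hR_def
  set c' : Vec d → ℝ := fun m => if 0 < c m then Real.sqrt (v m) else -Real.sqrt (v m) with hc'_def
  have hv0 : ∀ m ∈ P, 0 ≤ v m := fun m hm => hκ.le.trans (hgood m hm).1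
  have hc'sq : ∀ m ∈ P, c' m ^ 2 = v m := by
    intro m hm
    simp only [hc'_def]; split_ifs <;> simp [Real.sq_sqrt (hv0 m hm)]
  have hc'c : ∀ m ∈ P, |c' m - c m| ≤ e' := by
    intro m hm
    have h := (hgood m hm).2.2.2.le
    simp only [hc'_def]
    split_ifs with hcm
    · rwa [abs_of_pos hcm] at h
    · rw [abs_of_nonpos (not_lt.1 hcm), sub_neg_eq_add] at h
      rwa [← abs_neg, show -(-Real.sqrt (v m) - c m) = Real.sqrt (v m) + c m by ring]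
  have hcard : (P.card : ℝ) * e' ≤ e := by
    rw [he'_def, mul_div_assoc', div_le_iff₀ (by positivity)]; nlinarith
  have hE : 1 - 3 * e ≤ 2 * ∑ m ∈ P, v m := by
    have : ∑ m ∈ P, (c m ^ 2 - e') ≤ ∑ m ∈ P, v m :=
      sum_le_sum fun m hm => by linarith [(abs_lt.1 (hgood m hm).2.2.1).1]
    rw [sum_sub_distrib, sum_const, nsmul_eq_mul] at this
    linarith
  have hE' : 2 * ∑ m ∈ P, v m ≤ 2 * (P.card + 1) / κ := by
    have : ∑ m ∈ P, v m ≤ ∑ _m ∈ P, 1 / κ := sum_le_sum fun m hm => (hgood m hm).2.1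
    rw [sum_const, nsmul_eq_mul] at this
    calc 2 * ∑ m ∈ P, v m ≤ 2 * ((P.card : ℝ) * (1 / κ)) := by linarith
      _ ≤ 2 * (P.card + 1) / κ := by rw [mul_one_div, mul_div_assoc']; gcongr; linarith
  have hRE : (1 - δ / 2) * ((Q : ℝ) * Λ) ≤ R * (2 * ∑ m ∈ P, v m) := by
    refine epochs_cover R₀ e δ _ _ _ hδ he.le he2 he3 (by positivity) (by linarith [hcount]) hE hE' ?_
      (by have := sum_nonneg hv0; linarith)
    have hQ1 : (1 : ℝ) ≤ Q := by exact_mod_cast hQ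
    have := le_trans (le_max_right _ _) hΛ1
    rw [div_le_iff₀ (by positivity)] at this ⊢
    nlinarith [mul_le_mul_of_nonneg_left hQ1 (show 0 ≤ δ * κ * Λ by positivity)]
  obtain ⟨N0, hN0⟩ := hlay (Q * q) R (Λ / q) e (1 + 3 * e)
    (Fin R × Σ m : {m // m ∈ P}, Fin (q / n m.1)) (fun a => (a.1 : ℕ))
    (fun a => (a.2.2 : ℕ) * n a.2.1.1 * Q + dotZ a.2.1.1 (g a.1))
    (fun a => (a.2.1.1 0).toNat) (fun a => (c' a.2.1.1 : ℂ) * γ a.2.1.1 a.2.2)
    (hQe.mul_right _) (Nat.mul_pos hQ hq) (by positivity) he (by linarith)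
    (by
      have : (R : ℝ) ≤ T := le_trans (by exact_mod_cast min_le_right _ _) (Nat.floor_le hT)
      refine this.trans_eq ?_
      rw [hT_def]; push_cast; field_simp)
    (by
      rintro ⟨r₀, ⟨m, hm⟩, i⟩
      refine ⟨r₀.2, by simpa using (hadm m hm).1, ?_⟩
      rw [norm_mul, mul_pow, hγn m hm i i.2, norm_real, Real.norm_eq_abs, sq_abs, hc'sq m hm]
      have hd : n m ∣ q := Finset.dvd_prod_of_mem _ hm
      have hn' : (n m : ℝ) ≠ 0 := Nat.cast_ne_zero.2 (hnpos m hm).ne'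
      have hz : (((m 0).toNat : ℕ) : ℝ) = (m 0 : ℝ) := by
        exact_mod_cast Int.toNat_of_nonneg (hadm m hm).1.le
      rw [Nat.cast_div hd hn', hz, hv_def]
      field_simp)
    (by
      rintro ⟨r₁, ⟨m, hm⟩, i⟩ ⟨r₂, ⟨m', hm'⟩, i'⟩ s hs s' hs'
      have hr₁ : (r₁ : ℕ) < R₀ := lt_of_lt_of_le r₁.2 (min_le_left _ _)
      have hr₂ : (r₂ : ℕ) < R₀ := lt_of_lt_of_le r₂.2 (min_le_left _ _)
      have h := hdisj r₁ hr₁ r₂ hr₂ m hm m' hm' i i.2 i' i'.2 s hs s' hs'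
      refine ⟨fun heq => ?_, h.2⟩
      obtain ⟨h1, h2, h3, h4⟩ := h.1 heq
      obtain rfl := Fin.ext h1
      subst h2
      obtain rfl := Fin.ext h3
      exact ⟨rfl, h4⟩)
    (by
      have hin : ∀ m : {m // m ∈ P}, ∑ _i : Fin (q / n m.1), (((m.1 0).toNat : ℕ) : ℝ) =
          (q : ℝ) / Λ * v m.1 := by
        intro m
        have hd : n m.1 ∣ q := Finset.dvd_prod_of_mem _ m.2
        have hn' : (n m.1 : ℝ) ≠ 0 := Nat.cast_ne_zero.2 (hnpos _ m.2).ne'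
        have hz : (((m.1 0).toNat : ℕ) : ℝ) = (m.1 0 : ℝ) := by
          exact_mod_cast Int.toNat_of_nonneg (hadm _ m.2).1.le
        rw [sum_const, card_univ, Fintype.card_fin, nsmul_eq_mul, Nat.cast_div hd hn', hz, hv_def]
        field_simp
      rw [Fintype.sum_prod_type]
      simp only [Fintype.sum_sigma, hin]
      rw [sum_const, card_univ, Fintype.card_fin, nsmul_eq_mul, ← mul_sum,
        Finset.sum_coe_sort P v]
      have hΛq : (0 : ℝ) ≤ q / Λ := by positivity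
      have h := mul_le_mul_of_nonneg_left hRE hΛq
      have h' : (q : ℝ) / Λ * ((1 - δ / 2) * ((Q : ℝ) * Λ)) = (1 - δ / 2) * ((Q * q : ℕ) : ℝ) := by
        push_cast; field_simp
      rw [h'] at h
      have hp0 : (0 : ℝ) ≤ ((Q * q : ℕ) : ℝ) := Nat.cast_nonneg _
      nlinarith [mul_nonneg hδ.le hp0])
    (by
      intro r₀ hr₀ k y
      have hset : (univ.filter fun a : Fin R × Σ m : {m // m ∈ P}, Fin (q / n m.1) => (a.1 : ℕ) = r₀) =
          {(⟨r₀, hr₀⟩ : Fin R)} ×ˢ univ := by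
        ext a
        rw [mem_filter, mem_product, mem_singleton, Fin.ext_iff]
        simp
      rw [hset, sum_product, sum_singleton, Fintype.sum_sigma]
      have hz : ∀ m : {m // m ∈ P}, (((m.1 0).toNat : ℕ) : ℝ) = ((m.1 0 : ℤ) : ℝ) := fun m => by
        exact_mod_cast Int.toNat_of_nonneg (hadm _ m.2).1.le
      simp only [hz]
      rw [ridge_eq_wave P n hnpos b (g r₀) Q hQ c' γ k y (fun m hm => hγe m hm k)]
      generalize (fun j => (b j : ℝ) * ((k : ℝ) ^ 2 / qOf P n) +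
        (g r₀ j : ℝ) * ((k : ℝ) / ((Q * qOf P n : ℕ) : ℝ)) + if j = 0 then y else 0) = φ
      have hdiff : |wave P c' φ - wave P c φ| ≤ 2 * (P.card * e') := by
        rw [wave, wave, ← mul_sub, ← sum_sub_distrib, abs_mul, abs_two]
        refine mul_le_mul_of_nonneg_left ((abs_sum_le_sum_abs _ _).trans ?_) two_pos.le
        refine (sum_le_sum fun m hm => ?_).trans_eq (by rw [sum_const, nsmul_eq_mul])
        rw [← sub_mul, abs_mul]
        exact (mul_le_mul_of_nonneg_left (Real.abs_cos_le_one _) (abs_nonneg _)).trans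
          (by rw [mul_one]; exact hc'c m hm)
      calc |wave P c' φ| ≤ |wave P c φ| + |wave P c' φ - wave P c φ| := by
            have := abs_add_le (wave P c φ) (wave P c' φ - wave P c φ); rwa [add_sub_cancel] at this
        _ ≤ _ := by linarith [hsup φ])
  refine ⟨N0, fun N hN => ?_⟩
  obtain ⟨x, hx, hflat⟩ := hN0 N hN
  exact ⟨x, fun k hk => (hx k hk).trans (by linarith), fun t => (hflat t).trans (by gcongr; linarith)⟩

end

end Vale.Agent.P110.Ultra
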