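import Vale.Agent.P110.Ultraflat.Interfaces

/-!
P110, module M8: rounding a polynomial whose coefficients are close to `±1`.

The distances `1 - |x k|` are rounded level by level of their dyadic expansion by colourings of
small discrepancy. One extra form, the sum of the distances, keeps every level sparse. The forms
at `3 N` equispaced points control the polynomial on the whole circle by an interpolation formula.
-/

namespace Vale.Agent.P110.Ultra

open Finset Real

noncomputable section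

namespace Rounding

/-- The point of the unit circle at angle `θ`. -/
def circ (θ : ℝ) : ℂ := Complex.exp ((θ : ℂ) * Complex.I)

theorem circ_add (a b : ℝ) : circ (a + b) = circ a * circ b := by
  rw [circ, circ, circ, ← Complex.exp_add]
  push_cast
  ring_nf

theorem circ_conj (a : ℝ) : (starRingEnd ℂ) (circ a) = circ (-a) := by
  rw [circ, circ, ← Complex.exp_conj]
  push_cast
  simp

theorem lit_eq (N : ℕ) (x : ℕ → ℝ) (t : ℝ) :
    lit N x t = ∑ k ∈ range N, (x k : ℂ) * circ (k * t) := rfl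

theorem sum_circ (M : ℕ) (z : ℤ) (h : |z| < (M : ℤ)) :
    ∑ p ∈ range M, circ ((z : ℝ) * (2 * π * p / M)) = if z = 0 then (M : ℂ) else 0 := by
  split_ifs with hz
  · simp [hz, circ]
  have hM : (M : ℝ) ≠ 0 := by
    have : 0 < (M : ℤ) := lt_of_le_of_lt (abs_nonneg z) h
    exact_mod_cast this.ne'
  have hpow : ∀ p : ℕ, circ ((z : ℝ) * (2 * π * p / M)) = circ ((z : ℝ) * (2 * π / M)) ^ p := by
    intro p
    rw [circ, circ, ← Complex.exp_nat_mul]
    push_cast
    ring_nf
  simp only [hpow]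
  have hne : circ ((z : ℝ) * (2 * π / M)) ≠ 1 := by
    intro h1
    obtain ⟨n, hn⟩ := Complex.exp_eq_one_iff.1 h1
    have h2 := congrArg Complex.im hn
    simp at h2
    have h3 : (z : ℝ) = (n : ℝ) * M := by
      field_simp at h2
      linarith
    have h4 : z = n * (M : ℤ) := by exact_mod_cast h3
    exact hz (Int.eq_zero_of_abs_lt_dvd ⟨n, h4.trans (mul_comm _ _)⟩ h)
  rw [geom_sum_eq hne, ← hpow, show (z : ℝ) * (2 * π * M / M) = (z : ℝ) * (2 * π) by field_simp]
  have hone : circ ((z : ℝ) * (2 * π)) = 1 := by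
    refine Complex.exp_eq_one_iff.2 ⟨z, ?_⟩
    push_cast
    ring
  rw [hone]
  simp

/-- The geometric sum of length `L`. -/
def geo (L : ℕ) (θ : ℝ) : ℂ := ∑ a ∈ range L, circ (a * θ)

theorem sum_geo_sq (M L : ℕ) (hL : L ≤ M) (t : ℝ) :
    ∑ p ∈ range M, ‖geo L (t - 2 * π * p / M)‖ ^ 2 = (M : ℝ) * L := by
  apply Complex.ofReal_injective
  push_cast
  simp only [← Complex.mul_conj', geo, map_sum, Finset.mul_sum, Finset.sum_mul, circ_conj,
    ← circ_add]
  rw [Finset.sum_comm, show (M : ℂ) * (L : ℂ) = ∑ _a ∈ range L, (M : ℂ) by simp [mul_comm]]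
  refine Finset.sum_congr rfl fun b hb => ?_
  rw [Finset.sum_comm]
  have hterm : ∀ a ∈ range L, ∑ p ∈ range M,
      circ ((a : ℝ) * (t - 2 * π * p / M) + -((b : ℝ) * (t - 2 * π * p / M))) =
      if a = b then (M : ℂ) else 0 := by
    intro a ha
    have ha' := Finset.mem_range.1 ha
    have hb' := Finset.mem_range.1 hb
    have : ∀ p : ℕ, circ ((a : ℝ) * (t - 2 * π * p / M) + -((b : ℝ) * (t - 2 * π * p / M))) =
        circ (((a : ℝ) - b) * t) * circ (((b : ℤ) - a : ℤ) * (2 * π * p / M)) := by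
      intro p
      rw [← circ_add]
      push_cast
      ring_nf
    simp only [this]
    rw [← Finset.mul_sum, sum_circ M _ (by rw [abs_lt]; omega)]
    rcases eq_or_ne a b with rfl | hne
    · simp [circ]
    · rw [if_neg (by omega), if_neg hne, mul_zero]
  rw [Finset.sum_congr rfl hterm]
  simp [hb]

/-- A polynomial is controlled by its values at `3 N` equispaced points. -/
theorem lit_le_of_samples (N : ℕ) (hN : 0 < N) (d : ℕ → ℝ) (B : ℝ)
    (hB : ∀ p < 3 * N, ‖lit N d (2 * π * p / (3 * N : ℕ))‖ ≤ B) (t : ℝ) :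
    ‖lit N d t‖ ≤ 2 * B := by
  set M := 3 * N with hM
  have hB0 : 0 ≤ B := (norm_nonneg _).trans (hB 0 (by omega))
  have hid : ∑ p ∈ range M, lit N d (2 * π * p / M) *
      (circ (-((N : ℝ) - 1) * (t - 2 * π * p / M)) * geo N (t - 2 * π * p / M) *
        geo (2 * N) (t - 2 * π * p / M)) = ((M : ℂ) * N) * lit N d t := by
    simp only [lit_eq, geo, Finset.sum_mul, Finset.mul_sum]
    rw [Finset.sum_comm, Finset.sum_congr rfl fun c _ =>
        Finset.sum_comm.trans (Finset.sum_congr rfl fun a _ => Finset.sum_comm),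
      Finset.sum_comm, Finset.sum_congr rfl fun a _ => Finset.sum_comm, Finset.sum_comm]
    refine Finset.sum_congr rfl fun b hb => ?_
    have hb' := Finset.mem_range.1 hb
    rw [show ((M : ℂ) * N) * ((d b : ℂ) * circ (b * t)) =
      ∑ _a ∈ range N, (M : ℂ) * ((d b : ℂ) * circ (b * t)) by simp; ring]
    refine Finset.sum_congr rfl fun a ha => ?_
    have ha' := Finset.mem_range.1 ha
    have hterm : ∀ c ∈ range (2 * N), ∑ p ∈ range M,
        (d b : ℂ) * circ (b * (2 * π * p / M)) *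
          (circ (-((N : ℝ) - 1) * (t - 2 * π * p / M)) * circ (a * (t - 2 * π * p / M)) *
            circ (c * (t - 2 * π * p / M))) =
        if c = b + (N - 1) - a then (M : ℂ) * ((d b : ℂ) * circ (b * t)) else 0 := by
      intro c hc
      have hc' := Finset.mem_range.1 hc
      have h1 : ∀ p : ℕ, (d b : ℂ) * circ (b * (2 * π * p / M)) *
          (circ (-((N : ℝ) - 1) * (t - 2 * π * p / M)) * circ (a * (t - 2 * π * p / M)) *
            circ (c * (t - 2 * π * p / M))) =
          (d b : ℂ) * circ (((a : ℝ) + c - ((N : ℝ) - 1)) * t) *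
            circ (((b : ℤ) + ((N : ℤ) - 1) - a - c : ℤ) * (2 * π * p / M)) := by
        intro p
        rw [mul_assoc (d b : ℂ), mul_assoc (d b : ℂ), ← circ_add, ← circ_add, ← circ_add, ← circ_add]
        push_cast
        ring_nf
      simp only [h1]
      rw [← Finset.mul_sum, sum_circ M _ (by rw [abs_lt]; omega)]
      rcases eq_or_ne c (b + (N - 1) - a) with h | h
      · rw [if_pos h, if_pos (by omega)]
        have : (a : ℝ) + c - ((N : ℝ) - 1) = b := by
          have : (a : ℤ) + c - ((N : ℤ) - 1) = b := by omega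
          exact_mod_cast this
        rw [this]
        ring
      · rw [if_neg h, if_neg (by omega), mul_zero]
    rw [Finset.sum_congr rfl hterm, Finset.sum_ite_eq', if_pos (Finset.mem_range.2 (by omega))]
  have hnorm : ((M : ℝ) * N) * ‖lit N d t‖ ≤
      B * ∑ p ∈ range M, (‖geo N (t - 2 * π * p / M)‖ ^ 2 +
        ‖geo (2 * N) (t - 2 * π * p / M)‖ ^ 2) / 2 := by
    have h := congrArg (‖·‖) hid
    simp only [norm_mul, Complex.norm_natCast] at h
    rw [← h, Finset.mul_sum]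
    refine (norm_sum_le _ _).trans (Finset.sum_le_sum fun p hp => ?_)
    rw [norm_mul, norm_mul, norm_mul, circ, Complex.norm_exp_ofReal_mul_I, one_mul]
    refine mul_le_mul (hB p (Finset.mem_range.1 hp)) ?_ (by positivity) hB0
    nlinarith [sq_nonneg (‖geo N (t - 2 * π * p / M)‖ - ‖geo (2 * N) (t - 2 * π * p / M)‖)]
  rw [← Finset.sum_div, Finset.sum_add_distrib, sum_geo_sq M N (by omega) t,
    sum_geo_sq M (2 * N) (by omega) t] at hnorm
  have hpos : (0 : ℝ) < (M : ℝ) * N := by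
    have : (0 : ℝ) < N := by exact_mod_cast hN
    rw [hM]; positivity
  push_cast at hnorm
  nlinarith

theorem mul_log_le (m n : ℕ) :
    (n : ℝ) * Real.log (2 * m / n) ≤ 2 * Real.sqrt (2 * m * n) := by
  rcases Nat.eq_zero_or_pos n with rfl | hn
  · simp
  rcases Nat.eq_zero_or_pos m with rfl | hm
  · simp
  have hn' : (0 : ℝ) < n := by exact_mod_cast hn
  have hu : (0 : ℝ) < 2 * m / n := by
    have : (0 : ℝ) < m := by exact_mod_cast hm
    positivity
  have hsq : Real.sqrt (2 * m * n) = n * Real.sqrt (2 * m / n) := by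
    rw [show (2 : ℝ) * m * n = (n : ℝ) ^ 2 * (2 * m / n) by field_simp,
      Real.sqrt_mul (sq_nonneg _), Real.sqrt_sq hn'.le]
  have hlog := Real.log_le_sub_one_of_pos (Real.sqrt_pos.2 hu)
  rw [Real.log_sqrt hu.le] at hlog
  rw [hsq, mul_left_comm]
  exact mul_le_mul_of_nonneg_left (by linarith) hn'.le

/-- One level: the odd entries move to a neighbour and everything is halved. -/
theorem halve {K : ℝ} (hK : 0 ≤ K)
    (hSp : ∀ (n m : ℕ) (a : Fin m → Fin n → ℝ), n ≤ m → (∀ i j, |a i j| ≤ 1) →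
      ∃ χ : Fin n → ℝ, (∀ j, χ j = 1 ∨ χ j = -1) ∧
        ∀ i, |∑ j, a i j * χ j| ≤ K * Real.sqrt (n * Real.log (2 * m / n)))
    {N m : ℕ} (hNm : N ≤ m) (W : Fin m → Fin N → ℝ) (hW : ∀ i k, |W i k| ≤ 1) (a : Fin N → ℕ) :
    ∃ a' : Fin N → ℕ, (∀ k, a' k ≤ (a k + 1) / 2) ∧
      ∀ i, |∑ k, W i k * (2 * (a' k : ℝ) - a k)| ≤
        K * Real.sqrt (2 * Real.sqrt (2 * m * ∑ k, (a k : ℝ))) := by
  classical
  set O : Finset (Fin N) := Finset.univ.filter fun k => a k % 2 = 1 with hO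
  have hcard : O.card ≤ N := (Finset.card_le_univ O).trans_eq (Fintype.card_fin N)
  obtain ⟨χ, hχ, hbound⟩ := hSp O.card m (fun i j => W i (O.equivFin.symm j).1)
    (hcard.trans hNm) (fun i j => hW i _)
  set a' : Fin N → ℕ := fun k =>
    if h : k ∈ O then (if χ (O.equivFin ⟨k, h⟩) = 1 then (a k + 1) / 2 else a k / 2) else a k / 2
    with ha'
  refine ⟨a', fun k => ?_, fun i => ?_⟩
  · simp only [ha']
    split_ifs <;> omega
  have hout : ∀ k ∉ O, 2 * (a' k : ℝ) - a k = 0 := by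
    intro k hk
    have : a k % 2 = 0 := by
      simp only [hO, Finset.mem_filter, Finset.mem_univ, true_and] at hk
      omega
    have h2 : 2 * (a k / 2) = a k := by omega
    simp only [ha', dif_neg hk]
    rw [sub_eq_zero]
    exact_mod_cast h2
  have hin : ∀ j : Fin O.card,
      2 * (a' (O.equivFin.symm j).1 : ℝ) - a (O.equivFin.symm j).1 = χ j := by
    intro j
    have hmem := (O.equivFin.symm j).2
    have hodd : a (O.equivFin.symm j).1 % 2 = 1 := (Finset.mem_filter.1 hmem).2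
    have he : O.equivFin ⟨(O.equivFin.symm j).1, hmem⟩ = j := by simp
    simp only [ha', dif_pos hmem, he]
    rcases hχ j with h | h
    · rw [if_pos h, h]
      have : 2 * ((a (O.equivFin.symm j).1 + 1) / 2) = a (O.equivFin.symm j).1 + 1 := by omega
      have : (2 : ℝ) * (((a (O.equivFin.symm j).1 + 1) / 2 : ℕ) : ℝ) =
          (a (O.equivFin.symm j).1 : ℝ) + 1 := by exact_mod_cast this
      linarith
    · rw [if_neg (by rw [h]; norm_num), h]
      have : 2 * (a (O.equivFin.symm j).1 / 2) + 1 = a (O.equivFin.symm j).1 := by omega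
      have : (2 : ℝ) * ((a (O.equivFin.symm j).1 / 2 : ℕ) : ℝ) + 1 =
          (a (O.equivFin.symm j).1 : ℝ) := by exact_mod_cast this
      linarith
  have hsum : ∑ k, W i k * (2 * (a' k : ℝ) - a k) =
      ∑ j, W i (O.equivFin.symm j).1 * χ j := by
    rw [← Finset.sum_subset (Finset.subset_univ O)
      (fun k _ hk => by rw [hout k hk, mul_zero]), ← Finset.sum_coe_sort O,
      ← O.equivFin.symm.sum_comp]
    exact Finset.sum_congr rfl fun j _ => by rw [hin j]
  rw [hsum]
  refine (hbound i).trans (mul_le_mul_of_nonneg_left (Real.sqrt_le_sqrt ?_) hK)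
  refine (mul_log_le m O.card).trans (mul_le_mul_of_nonneg_left (Real.sqrt_le_sqrt ?_) two_pos.le)
  refine mul_le_mul_of_nonneg_left ?_ (by positivity)
  calc (O.card : ℝ) = ∑ k ∈ O, (1 : ℝ) := by simp
    _ ≤ ∑ k ∈ O, (a k : ℝ) := Finset.sum_le_sum fun k hk => by
        have := (Finset.mem_filter.1 hk).2
        exact_mod_cast (by omega : 1 ≤ a k)
    _ ≤ ∑ k, (a k : ℝ) :=
        Finset.sum_le_sum_of_subset_of_nonneg (Finset.subset_univ O) fun k _ _ => by positivity

/-- All levels: the total error is a geometric series. -/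
theorem descend {K : ℝ} (hK : 0 ≤ K)
    (hSp : ∀ (n m : ℕ) (a : Fin m → Fin n → ℝ), n ≤ m → (∀ i j, |a i j| ≤ 1) →
      ∃ χ : Fin n → ℝ, (∀ j, χ j = 1 ∨ χ j = -1) ∧
        ∀ i, |∑ j, a i j * χ j| ≤ K * Real.sqrt (n * Real.log (2 * m / n)))
    {N m : ℕ} (hNm : N ≤ m) (W : Fin m → Fin N → ℝ) (hW : ∀ i k, |W i k| ≤ 1)
    (i₀ : Fin m) (h₀ : ∀ k, W i₀ k = 1) (B E : ℝ)
    (hE : E = K * Real.sqrt (2 * Real.sqrt (2 * m * B))) :
    ∀ (L : ℕ) (a : Fin N → ℕ), (∀ k, a k ≤ 2 ^ L) →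
      (∑ k, (a k : ℝ)) / 2 ^ L + 4 * E * (1 - (3 / 4 : ℝ) ^ (L + 1)) ≤ B →
      ∃ b : Fin N → ℕ, (∀ k, b k ≤ 1) ∧
        ∀ i, |∑ k, W i k * (2 * (b k : ℝ) - (a k : ℝ) / 2 ^ L)| ≤
          4 * E * (1 - (3 / 4 : ℝ) ^ (L + 1)) := by
  have hE0 : 0 ≤ E := by rw [hE]; positivity
  have step : ∀ (L : ℕ) (a : Fin N → ℕ), (∑ k, (a k : ℝ)) / 2 ^ L ≤ B →
      K * Real.sqrt (2 * Real.sqrt (2 * m * ∑ k, (a k : ℝ))) / 2 ^ L ≤ (3 / 4 : ℝ) ^ L * E := by
    intro L a ha
    have hS : ∑ k, (a k : ℝ) ≤ ((3 / 2 : ℝ) ^ L) ^ 4 * B := by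
      rw [div_le_iff₀ (by positivity)] at ha
      have hB : 0 ≤ B := nonneg_of_mul_nonneg_left
        ((Finset.sum_nonneg fun k _ => Nat.cast_nonneg (a k)).trans ha) (by positivity)
      refine ha.trans (le_of_le_of_eq (mul_le_mul_of_nonneg_left ?_ hB) (mul_comm _ _))
      rw [← pow_mul, mul_comm, pow_mul]
      exact pow_le_pow_left₀ two_pos.le (by norm_num) L
    have h1 : Real.sqrt (2 * Real.sqrt (2 * m * ∑ k, (a k : ℝ))) ≤
        (3 / 2 : ℝ) ^ L * Real.sqrt (2 * Real.sqrt (2 * m * B)) := by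
      refine le_trans (Real.sqrt_le_sqrt (mul_le_mul_of_nonneg_left
        (Real.sqrt_le_sqrt (mul_le_mul_of_nonneg_left hS (by positivity))) two_pos.le)) ?_
      rw [show (2 : ℝ) * m * (((3 / 2 : ℝ) ^ L) ^ 4 * B) =
          (((3 / 2 : ℝ) ^ L) ^ 2) ^ 2 * (2 * m * B) by ring,
        Real.sqrt_mul (sq_nonneg _), Real.sqrt_sq (by positivity), mul_left_comm,
        Real.sqrt_mul (sq_nonneg _), Real.sqrt_sq (by positivity)]
    rw [div_le_iff₀ (by positivity)]
    calc K * Real.sqrt (2 * Real.sqrt (2 * m * ∑ k, (a k : ℝ)))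
        ≤ K * ((3 / 2 : ℝ) ^ L * Real.sqrt (2 * Real.sqrt (2 * m * B))) :=
          mul_le_mul_of_nonneg_left h1 hK
      _ = (3 / 4 : ℝ) ^ L * E * 2 ^ L := by
          rw [hE, show (3 / 2 : ℝ) ^ L = (3 / 4 : ℝ) ^ L * 2 ^ L by
            rw [← mul_pow]; norm_num]
          ring
  intro L
  induction L with
  | zero =>
    intro a ha hsum
    obtain ⟨b, hb, hbd⟩ := halve hK hSp hNm W hW a
    refine ⟨b, fun k => ?_, fun i => ?_⟩
    · have := hb k; have := ha k; simp at this; omega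
    have hs := step 0 a (by simp at hsum ⊢; linarith)
    simp only [pow_zero, div_one, one_mul] at hs ⊢
    refine ((hbd i).trans hs).trans_eq ?_
    ring
  | succ L ih =>
    intro a ha hsum
    obtain ⟨a', ha', hbd⟩ := halve hK hSp hNm W hW a
    have hpow : (3 / 4 : ℝ) ^ (L + 1 + 1) = 3 / 4 * (3 / 4 : ℝ) ^ (L + 1) := pow_succ' _ _
    have hnn : 0 ≤ 4 * E * (1 - (3 / 4 : ℝ) ^ (L + 1 + 1)) := by
      have : (3 / 4 : ℝ) ^ (L + 1 + 1) ≤ 1 := pow_le_one₀ (by norm_num) (by norm_num)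
      exact mul_nonneg (by linarith) (by linarith)
    have hs := step (L + 1) a (by linarith)
    have hmove : ∀ i, |∑ k, W i k * ((a' k : ℝ) / 2 ^ L - (a k : ℝ) / 2 ^ (L + 1))| ≤
        (3 / 4 : ℝ) ^ (L + 1) * E := by
      intro i
      rw [show ∑ k, W i k * ((a' k : ℝ) / 2 ^ L - (a k : ℝ) / 2 ^ (L + 1)) =
          (∑ k, W i k * (2 * (a' k : ℝ) - a k)) / 2 ^ (L + 1) by
        rw [Finset.sum_div]; refine Finset.sum_congr rfl fun k _ => ?_; rw [pow_succ]; field_simp,
        abs_div, abs_of_pos (show (0 : ℝ) < 2 ^ (L + 1) by positivity)]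
      exact le_trans (div_le_div_of_nonneg_right (hbd i) (by positivity)) hs
    have hdrift := (abs_le.1 (hmove i₀)).2
    simp only [h₀, one_mul, Finset.sum_sub_distrib, ← Finset.sum_div] at hdrift
    obtain ⟨b, hb, hbb⟩ := ih a'
      (fun k => by
        have h1 := ha' k
        have h2 := ha k
        rw [pow_succ] at h2
        omega)
      (by rw [hpow] at hsum; linarith)
    refine ⟨b, hb, fun i => ?_⟩
    rw [show ∑ k, W i k * (2 * (b k : ℝ) - (a k : ℝ) / 2 ^ (L + 1)) =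
        ∑ k, W i k * (2 * (b k : ℝ) - (a' k : ℝ) / 2 ^ L) +
          ∑ k, W i k * ((a' k : ℝ) / 2 ^ L - (a k : ℝ) / 2 ^ (L + 1)) by
      rw [← Finset.sum_add_distrib]; exact Finset.sum_congr rfl fun k _ => by ring]
    refine (abs_add_le _ _).trans ((add_le_add (hbb i) (hmove i)).trans_eq ?_)
    rw [hpow]
    ring

end Rounding

open Rounding in
theorem roundingStmt (h : SpencerStmt) : RoundingStmt := by
  classical
  obtain ⟨K, hK, hSp⟩ := h
  intro η hη
  set c : ℝ := η / (32 * K) with hc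
  have hcpos : 0 < c := by rw [hc]; positivity
  set δ : ℝ := c ^ 4 / 112 with hδ
  have hδpos : 0 < δ := by rw [hδ]; positivity
  obtain ⟨N0, hN0⟩ := exists_nat_gt (max 1 (max ((8 / η) ^ 2) ((4 * K * c / δ) ^ 2)))
  refine ⟨δ, hδpos, N0, fun N hN x hx hxs => ?_⟩
  have hNlt : max 1 (max ((8 / η) ^ 2) ((4 * K * c / δ) ^ 2)) < (N : ℝ) :=
    hN0.trans_le (by exact_mod_cast hN)
  simp only [max_lt_iff] at hNlt
  obtain ⟨hN1, hN2, hN3⟩ := hNlt
  have hNpos : 0 < N := by exact_mod_cast one_pos.trans hN1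
  have hsN : 0 ≤ Real.sqrt N := Real.sqrt_nonneg _
  have hs2 : 8 / η ≤ Real.sqrt N := Real.le_sqrt_of_sq_le hN2.le
  have hs3 : 4 * K * c / δ ≤ Real.sqrt N := Real.le_sqrt_of_sq_le hN3.le
  set σ : ℕ → ℝ := fun k => if 0 ≤ x k then 1 else -1 with hσ
  have hσabs : ∀ k, |σ k| = 1 := fun k => by simp only [hσ]; split_ifs <;> simp
  have hσx : ∀ k, σ k * |x k| = x k := by
    intro k
    simp only [hσ]
    split_ifs with hk
    · rw [abs_of_nonneg hk, one_mul]
    · rw [abs_of_neg (not_le.1 hk)]; ring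
  set M := 3 * N with hM
  let pt : ℕ → ℝ := fun p => 2 * π * p / M
  set m := 2 * M + 1 with hm
  let W : Fin m → Fin N → ℝ := fun i k =>
    if i.1 < M then σ k * Real.cos (k * pt i.1)
    else if i.1 < 2 * M then σ k * Real.sin (k * pt (i.1 - M)) else 1
  have hW : ∀ i k, |W i k| ≤ 1 := by
    intro i k
    simp only [W]
    split_ifs
    · rw [abs_mul, hσabs, one_mul]; exact Real.abs_cos_le_one _
    · rw [abs_mul, hσabs, one_mul]; exact Real.abs_sin_le_one _
    · simp
  set B : ℝ := 2 * δ * N with hB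
  set E : ℝ := K * Real.sqrt (2 * Real.sqrt (2 * m * B)) with hE
  have hEc : E ≤ K * c * Real.sqrt N := by
    rw [hE, mul_assoc K c]
    refine mul_le_mul_of_nonneg_left (Real.sqrt_le_iff.2 ⟨by positivity, ?_⟩) hK.le
    rw [mul_pow, Real.sq_sqrt (Nat.cast_nonneg N)]
    have h2 : 2 * (m : ℝ) * B ≤ (c ^ 2 * N / 2) ^ 2 := by
      have hm' : (m : ℝ) ≤ 7 * N := by
        exact_mod_cast (by omega : m ≤ 7 * N)
      calc 2 * (m : ℝ) * B ≤ 2 * (7 * N) * B := by gcongr
        _ = (c ^ 2 * N / 2) ^ 2 := by rw [hB, hδ]; ring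
    have := Real.sqrt_le_iff.2 ⟨show 0 ≤ c ^ 2 * (N : ℝ) / 2 by positivity, h2⟩
    linarith
  have hE0 : 0 ≤ E := by rw [hE]; positivity
  obtain ⟨L, hL⟩ := pow_unbounded_of_one_lt (N : ℝ) (one_lt_two : (1 : ℝ) < 2)
  let a : Fin N → ℕ := fun k => ⌊(1 - |x k|) * 2 ^ L⌋₊
  have hy : ∀ k : Fin N, 0 ≤ 1 - |x k| := fun k => sub_nonneg.2 (hx k k.2)
  have hlo : ∀ k : Fin N, (a k : ℝ) / 2 ^ L ≤ 1 - |x k| := fun k => by
    rw [div_le_iff₀ (by positivity)]
    exact Nat.floor_le (mul_nonneg (hy k) (by positivity))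
  have hhi : ∀ k : Fin N, 1 - |x k| ≤ (a k : ℝ) / 2 ^ L + 1 / 2 ^ L := fun k => by
    rw [← add_div, le_div_iff₀ (by positivity)]
    exact (Nat.lt_floor_add_one _).le
  have ha : ∀ k, a k ≤ 2 ^ L := fun k => by
    refine Nat.floor_le_of_le ?_
    push_cast
    exact mul_le_of_le_one_left (by positivity) (by linarith [abs_nonneg (x k)])
  have hbudget : (∑ k, (a k : ℝ)) / 2 ^ L + 4 * E * (1 - (3 / 4 : ℝ) ^ (L + 1)) ≤ B := by
    have h1 : (∑ k, (a k : ℝ)) / 2 ^ L ≤ δ * N := by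
      rw [Finset.sum_div]
      refine (Finset.sum_le_sum fun k _ => hlo k).trans ?_
      rwa [Fin.sum_univ_eq_sum_range (fun k => 1 - |x k|) N]
    have h2 : 4 * E * (1 - (3 / 4 : ℝ) ^ (L + 1)) ≤ 4 * E :=
      mul_le_of_le_one_right (by positivity) (sub_le_self _ (by positivity))
    have h3 : 4 * E ≤ δ * N := by
      have h4 : 4 * K * c ≤ Real.sqrt N * δ := (div_le_iff₀ hδpos).1 hs3
      have h5 := mul_le_mul_of_nonneg_right h4 hsN
      nlinarith [Real.mul_self_sqrt (Nat.cast_nonneg (α := ℝ) N)]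
    rw [hB]
    linarith
  obtain ⟨b, hb, hbd⟩ := descend hK.le hSp (by omega) W hW ⟨2 * M, by omega⟩
    (fun k => by simp [W]; omega) B E hE L a ha hbudget
  have hrow : ∀ i, |∑ k : Fin N, W i k * (2 * (b k : ℝ) - (1 - |x k|))| ≤ 4 * E + 1 := by
    intro i
    have h1 : |∑ k : Fin N, W i k * ((a k : ℝ) / 2 ^ L - (1 - |x k|))| ≤ 1 := by
      refine (Finset.abs_sum_le_sum_abs _ _).trans
        ((Finset.sum_le_sum (g := fun _ => 1 / (2 : ℝ) ^ L) fun k _ => ?_).trans ?_)
      · rw [abs_mul]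
        refine (mul_le_of_le_one_left (abs_nonneg _) (hW i k)).trans (abs_le.2 ⟨?_, ?_⟩)
        · linarith [hhi k]
        · linarith [hlo k, show (0 : ℝ) ≤ 1 / 2 ^ L by positivity]
      · rw [Finset.sum_const, Finset.card_univ, Fintype.card_fin, nsmul_eq_mul, mul_one_div,
          div_le_one (by positivity)]
        exact hL.le
    rw [show ∑ k : Fin N, W i k * (2 * (b k : ℝ) - (1 - |x k|)) =
        ∑ k : Fin N, W i k * (2 * (b k : ℝ) - (a k : ℝ) / 2 ^ L) +
          ∑ k : Fin N, W i k * ((a k : ℝ) / 2 ^ L - (1 - |x k|)) by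
      rw [← Finset.sum_add_distrib]; exact Finset.sum_congr rfl fun k _ => by ring]
    refine (abs_add_le _ _).trans (add_le_add ((hbd i).trans ?_) h1)
    exact mul_le_of_le_one_right (by positivity) (sub_le_self _ (by positivity))
  let s : ℕ → ℝ := fun k => if hk : k < N then σ k * (1 - 2 * (b ⟨k, hk⟩ : ℝ)) else 1
  refine ⟨s, fun k hk => ?_, fun t => ?_⟩
  · simp only [s, dif_pos hk]
    rcases Nat.le_one_iff_eq_zero_or_eq_one.1 (hb ⟨k, hk⟩) with h | h <;>
      simp only [h, hσ] <;> split_ifs <;> norm_num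
  have hdiff : lit N s t - lit N x t = lit N (fun k => s k - x k) t := by
    simp only [lit, ← Finset.sum_sub_distrib]
    push_cast
    simp [sub_mul]
  have hval : ∀ k : Fin N, s k.1 - x k.1 = -σ k * (2 * (b k : ℝ) - (1 - |x k.1|)) := by
    intro k
    simp only [s, dif_pos k.2, Fin.eta]
    linear_combination hσx k
  rw [hdiff]
  refine (lit_le_of_samples N hNpos _ (2 * (4 * E + 1)) (fun p hp => ?_) t).trans ?_
  · rw [← hM]
    refine (Complex.norm_le_abs_re_add_abs_im _).trans ?_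
    rw [lit_eq, Complex.re_sum, Complex.im_sum,
      ← Fin.sum_univ_eq_sum_range, ← Fin.sum_univ_eq_sum_range]
    have hc1 := hrow ⟨p, by omega⟩
    have hc2 := hrow ⟨M + p, by omega⟩
    simp only [W, if_pos (show p < M by omega)] at hc1
    simp only [W, if_neg (show ¬ M + p < M by omega),
      if_pos (show M + p < 2 * M by omega), Nat.add_sub_cancel_left] at hc2
    rw [show ∑ k : Fin N, (((s k.1 - x k.1 : ℝ) : ℂ) * circ (k.1 * (2 * π * p / M))).re =
        -∑ k : Fin N, σ k * Real.cos (k * pt p) * (2 * (b k : ℝ) - (1 - |x k.1|)) by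
      rw [← Finset.sum_neg_distrib]
      refine Finset.sum_congr rfl fun k _ => ?_
      rw [Complex.re_ofReal_mul, circ, Complex.exp_ofReal_mul_I_re, hval]
      ring]
    rw [show ∑ k : Fin N, (((s k.1 - x k.1 : ℝ) : ℂ) * circ (k.1 * (2 * π * p / M))).im =
        -∑ k : Fin N, σ k * Real.sin (k * pt p) * (2 * (b k : ℝ) - (1 - |x k.1|)) by
      rw [← Finset.sum_neg_distrib]
      refine Finset.sum_congr rfl fun k _ => ?_
      rw [Complex.im_ofReal_mul, circ, Complex.exp_ofReal_mul_I_im, hval]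
      ring, abs_neg, abs_neg]
    linarith
  · have h1 : 16 * (K * c) = η / 2 := by rw [hc]; field_simp; ring
    have h2 : 4 ≤ η / 2 * Real.sqrt N := by
      have := (div_le_iff₀ hη).1 hs2
      linarith
    have h3 : 16 * E ≤ η / 2 * Real.sqrt N := by
      rw [← h1, mul_assoc]
      exact mul_le_mul_of_nonneg_left hEc (by norm_num)
    linarith

end

end Vale.Agent.P110.Ultra
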