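import Vale.Agent.P110.Ultraflat.Interfaces

/-!
P110, M7: Spencer's colouring theorem, by partial colourings found with the entropy counting method.
-/

namespace Vale.Agent.P110.Ultra

open Finset

noncomputable section

namespace Spencer

/-- The sign of a Boolean. -/
def sgn (b : Bool) : ℝ := bif b then 1 else -1

/-- The weights of the integers up to `N` in absolute value sum to at most `1 + 4 ε`. -/
theorem sum_pow_natAbs_le (ε : ℝ) (h0 : 0 ≤ ε) (h1 : ε ≤ 1 / 2) (N : ℕ) :
    ∑ b ∈ Icc (-(N : ℤ)) N, ε ^ b.natAbs ≤ 1 + 4 * ε := by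
  suffices h : ∑ b ∈ Icc (-(N : ℤ)) N, ε ^ b.natAbs ≤ 1 + 4 * ε - 4 * ε ^ (N + 1) by
    have := pow_nonneg h0 (N + 1)
    linarith
  induction N with
  | zero => simp
  | succ N ih =>
    have hs : Icc (-((N + 1 : ℕ) : ℤ)) ((N + 1 : ℕ) : ℤ) =
        insert (-((N + 1 : ℕ) : ℤ)) (insert ((N + 1 : ℕ) : ℤ) (Icc (-(N : ℤ)) N)) := by
      ext x
      simp only [mem_Icc, mem_insert]
      omega
    rw [hs, sum_insert (by simp only [mem_insert, mem_Icc]; omega),
      sum_insert (by simp only [mem_Icc]; omega), Int.natAbs_neg, Int.natAbs_natCast]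
    have hp : 0 ≤ ε ^ (N + 1) := pow_nonneg h0 _
    have : ε ^ (N + 1 + 1) = ε ^ (N + 1) * ε := pow_succ ε (N + 1)
    nlinarith

/-- The exponential moment of a random signed sum. -/
theorem sum_exp_le {ι : Type*} [Fintype ι] [DecidableEq ι] (x : ι → ℝ) (hx : ∀ j, |x j| ≤ 1) (t : ℝ) :
    ∑ c : ι → Bool, Real.exp (t * ∑ j, x j * sgn (c j)) ≤
      2 ^ Fintype.card ι * Real.exp ((Fintype.card ι : ℝ) * (t ^ 2 / 2)) := by
  have h : ∑ c : ι → Bool, Real.exp (t * ∑ j, x j * sgn (c j)) =
      ∏ j : ι, ∑ b : Bool, Real.exp (t * (x j * sgn b)) := by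
    rw [Fintype.prod_sum]
    refine sum_congr rfl fun c _ => ?_
    rw [mul_sum, Real.exp_sum]
  rw [h]
  calc ∏ j : ι, ∑ b : Bool, Real.exp (t * (x j * sgn b))
      ≤ ∏ _j : ι, (2 * Real.exp (t ^ 2 / 2)) := by
        refine prod_le_prod (fun j _ => sum_nonneg fun b _ => (Real.exp_pos _).le) fun j _ => ?_
        have h1 : ∑ b : Bool, Real.exp (t * (x j * sgn b)) = 2 * Real.cosh (t * x j) := by
          simp [sgn, Real.cosh_eq]
          ring
        rw [h1]
        refine mul_le_mul_of_nonneg_left ((Real.cosh_le_exp_half_sq _).trans ?_) (by norm_num)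
        refine Real.exp_le_exp.2 ?_
        have hsq : x j ^ 2 ≤ 1 := (sq_le_one_iff_abs_le_one _).2 (hx j)
        nlinarith [sq_nonneg t]
    _ = 2 ^ Fintype.card ι * Real.exp ((Fintype.card ι : ℝ) * (t ^ 2 / 2)) := by
        rw [prod_const, card_univ, mul_pow, ← Real.exp_nat_mul]

/-- Few colourings are near a given one. -/
theorem card_ball_le {ι : Type*} [Fintype ι] [DecidableEq ι] (c₀ : ι → Bool) :
    (((univ : Finset (ι → Bool)).filter fun c =>
        4 * (univ.filter fun j => c j ≠ c₀ j).card < Fintype.card ι).card : ℝ) ≤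
      Real.exp ((Fintype.card ι : ℝ) * (2 * Real.log 2 - 3 / 4 * Real.log 3)) := by
  set n := Fintype.card ι with hn
  set A := (univ : Finset (ι → Bool)).filter fun c =>
    4 * (univ.filter fun j => c j ≠ c₀ j).card < n
  have htot : ∑ c : ι → Bool, (1 / 3 : ℝ) ^ (univ.filter fun j => c j ≠ c₀ j).card = (4 / 3) ^ n := by
    have h1 : ∀ c : ι → Bool, (1 / 3 : ℝ) ^ (univ.filter fun j => c j ≠ c₀ j).card =
        ∏ j, (if c j ≠ c₀ j then (1 / 3 : ℝ) else 1) := fun c => by
      rw [← prod_filter, prod_const]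
    simp only [h1]
    rw [← Fintype.prod_sum fun j b => if b ≠ c₀ j then (1 / 3 : ℝ) else 1]
    have h2 : ∀ j, ∑ b : Bool, (if b ≠ c₀ j then (1 / 3 : ℝ) else 1) = 4 / 3 := fun j => by
      cases c₀ j <;> norm_num
    simp only [h2, prod_const, card_univ, hn]
  have hlow : ∀ c ∈ A, Real.exp (-((n : ℝ) / 4 * Real.log 3)) ≤
      (1 / 3 : ℝ) ^ (univ.filter fun j => c j ≠ c₀ j).card := by
    intro c hc
    have h4 : 4 * ((univ.filter fun j => c j ≠ c₀ j).card : ℝ) ≤ n := by
      exact_mod_cast (mem_filter.1 hc).2.le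
    have : (1 / 3 : ℝ) = Real.exp (-Real.log 3) := by
      rw [Real.exp_neg, Real.exp_log (by norm_num : (0 : ℝ) < 3), one_div]
    rw [this, ← Real.exp_nat_mul]
    refine Real.exp_le_exp.2 ?_
    have h3 : 0 ≤ Real.log 3 := Real.log_nonneg (by norm_num)
    nlinarith
  have hA : (A.card : ℝ) * Real.exp (-((n : ℝ) / 4 * Real.log 3)) ≤ (4 / 3) ^ n := by
    rw [← htot, ← nsmul_eq_mul]
    exact (card_nsmul_le_sum _ _ _ hlow).trans
      (sum_le_sum_of_subset_of_nonneg (subset_univ _) fun _ _ _ => by positivity)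
  have h43 : ((4 / 3 : ℝ)) ^ n = Real.exp ((n : ℝ) * (2 * Real.log 2 - Real.log 3)) := by
    rw [Real.exp_nat_mul, Real.exp_sub, two_mul, Real.exp_add,
      Real.exp_log (by norm_num : (0 : ℝ) < 2), Real.exp_log (by norm_num : (0 : ℝ) < 3)]
    norm_num
  rw [h43, ← le_div_iff₀ (Real.exp_pos _), ← Real.exp_sub] at hA
  refine hA.trans_eq ?_
  congr 1
  ring

/-- A partial colouring of a quarter of the variables with all forms small. -/
theorem partial_colouring {ι : Type*} [Fintype ι] (m : ℕ) (a : Fin m → ι → ℝ)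
    (hpos : 0 < Fintype.card ι) (hnm : Fintype.card ι ≤ m) (ha : ∀ i j, |a i j| ≤ 1) :
    ∃ χ : ι → ℝ, (∀ j, χ j = 1 ∨ χ j = -1 ∨ χ j = 0) ∧
      Fintype.card ι ≤ 4 * (univ.filter fun j => χ j ≠ 0).card ∧
      ∀ i, |∑ j, a i j * χ j| ≤
        6 * Real.sqrt ((Fintype.card ι : ℝ) * Real.log (2 * m / Fintype.card ι)) := by
  classical
  set n := Fintype.card ι with hn
  have hnR : (0 : ℝ) < n := by exact_mod_cast hpos
  have hmR : (n : ℝ) ≤ m := by exact_mod_cast hnm
  set R : ℝ := 400 * m / n with hR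
  have hR400 : 400 ≤ R := by rw [hR, le_div_iff₀ hnR]; linarith
  have hR0 : 0 < R := by linarith
  have hlog2 := Real.log_two_gt_d9
  set ℓ : ℝ := Real.log (2 * m / n) with hℓ
  have hℓ2 : Real.log 2 ≤ ℓ :=
    Real.log_le_log (by norm_num) (by rw [le_div_iff₀ hnR]; linarith)
  have hlR : Real.log R ≤ 9 * ℓ := by
    have h1 : Real.log R = Real.log 200 + ℓ := by
      rw [hℓ, ← Real.log_mul (by norm_num)
        (div_ne_zero (by linarith) hnR.ne'), hR]
      congr 1
      ring
    have h2 : Real.log 200 ≤ 8 * Real.log 2 := by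
      calc Real.log 200 ≤ Real.log ((2 : ℝ) ^ (8 : ℕ)) :=
            Real.log_le_log (by norm_num) (by norm_num)
        _ = 8 * Real.log 2 := by rw [Real.log_pow]; norm_num
    linarith
  have hlR2 : 2 ≤ Real.log R := by
    have h : Real.log 8 = 3 * Real.log 2 := by
      rw [show (8 : ℝ) = 2 ^ (3 : ℕ) by norm_num, Real.log_pow]; norm_num
    have : Real.log 8 ≤ Real.log R := Real.log_le_log (by norm_num) (by linarith)
    linarith
  set Δ : ℝ := Real.sqrt (4 * n * Real.log R) with hΔ
  have hΔsq : Δ ^ 2 = 4 * n * Real.log R := Real.sq_sqrt (by positivity)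
  have hΔ0 : 0 < Δ := Real.sqrt_pos.2 (mul_pos (mul_pos (by norm_num) hnR) (by linarith))
  have hΔle : Δ ≤ 6 * Real.sqrt ((n : ℝ) * ℓ) := by
    rw [show (6 : ℝ) = Real.sqrt 36 by
        rw [show (36 : ℝ) = 6 ^ 2 by norm_num, Real.sqrt_sq (by norm_num : (0 : ℝ) ≤ 6)],
      ← Real.sqrt_mul (by norm_num : (0 : ℝ) ≤ 36), hΔ]
    exact Real.sqrt_le_sqrt (by nlinarith)
  suffices h : ∃ χ : ι → ℝ, (∀ j, χ j = 1 ∨ χ j = -1 ∨ χ j = 0) ∧
      n ≤ 4 * (univ.filter fun j => χ j ≠ 0).card ∧ ∀ i, |∑ j, a i j * χ j| ≤ Δ by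
    obtain ⟨χ, h1, h2, h3⟩ := h
    exact ⟨χ, h1, h2, fun i => (h3 i).trans hΔle⟩
  rcases le_or_gt n 8 with hsmall | hbig
  · refine ⟨fun _ => 1, fun _ => Or.inl rfl, ?_, fun i => ?_⟩
    · simp [filter_true_of_mem, hn]
      omega
    · have h1 : |∑ j, a i j * 1| ≤ (n : ℝ) := by
        refine (abs_sum_le_sum_abs _ _).trans ?_
        calc ∑ j, |a i j * 1| ≤ ∑ _j : ι, (1 : ℝ) := sum_le_sum fun j _ => by simpa using ha i j
          _ = (n : ℝ) := by simp [hn]
      refine h1.trans (Real.le_sqrt_of_sq_le ?_)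
      have : (n : ℝ) ≤ 8 := by exact_mod_cast hsmall
      nlinarith
  · let S : (ι → Bool) → Fin m → ℝ := fun c i => ∑ j, a i j * sgn (c j)
    let bn : (ι → Bool) → Fin m → ℤ := fun c i => round (S c i / (2 * Δ))
    let tot : (ι → Bool) → ℕ := fun c => ∑ i, (bn c i).natAbs
    set t : ℝ := Δ / n with ht
    have htΔ : t * Δ = 4 * Real.log R := by
      rw [ht, div_mul_eq_mul_div, ← sq, hΔsq]; field_simp
    have hpt : ∀ c i, ((bn c i).natAbs : ℝ) ≤
        Real.exp (-(t * Δ)) * (Real.exp (t * S c i) + Real.exp (-(t * S c i))) := by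
      intro c i
      rw [Nat.cast_natAbs, Int.cast_abs]
      by_cases h0 : bn c i = 0
      · rw [h0, Int.cast_zero, abs_zero]
        positivity
      · have h1 := abs_sub_round (S c i / (2 * Δ))
        have h2 : (1 : ℝ) ≤ |((bn c i : ℤ) : ℝ)| := by
          have := Int.one_le_abs h0
          exact_mod_cast this
        have h3 : |((bn c i : ℤ) : ℝ)| ≤ |S c i / (2 * Δ)| + 1 / 2 := by
          have h4 := abs_sub (S c i / (2 * Δ)) (S c i / (2 * Δ) - ((bn c i : ℤ) : ℝ))
          simp only [sub_sub_cancel] at h4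
          change |S c i / (2 * Δ) - ((bn c i : ℤ) : ℝ)| ≤ 1 / 2 at h1
          linarith
        rw [abs_div, abs_of_pos (show (0 : ℝ) < 2 * Δ by positivity)] at h3
        set y := |S c i| / Δ with hy
        have hy2 : |S c i| / (2 * Δ) = y / 2 := by rw [hy]; field_simp
        rw [hy2] at h3
        have hy1 : 1 ≤ y := by linarith
        have h5 : y ≤ Real.exp (t * |S c i| - t * Δ) := by
          have h6 : y ≤ Real.exp (y - 1) := by
            have := Real.add_one_le_exp (y - 1)
            linarith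
          refine h6.trans (Real.exp_le_exp.2 ?_)
          have h7 : |S c i| = y * Δ := by rw [hy]; field_simp
          rw [h7]
          have : 1 ≤ t * Δ := by rw [htΔ]; linarith
          nlinarith
        refine (show |((bn c i : ℤ) : ℝ)| ≤ y by linarith).trans (h5.trans ?_)
        rw [sub_eq_neg_add, Real.exp_add]
        refine mul_le_mul_of_nonneg_left ?_ (Real.exp_pos _).le
        rcases abs_choice (S c i) with h | h <;> rw [h]
        · have := Real.exp_pos (-(t * S c i)); linarith
        · rw [mul_neg]; have := Real.exp_pos (t * S c i); linarith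
    set τ : ℝ := (m : ℝ) * (4 / R ^ 2) with hτ
    have hτ0 : 0 < τ := by
      have : (0 : ℝ) < m := lt_of_lt_of_le hnR hmR
      positivity
    have hsum : ∑ c : ι → Bool, (tot c : ℝ) ≤ 2 ^ n * (τ / 2) := by
      calc ∑ c : ι → Bool, (tot c : ℝ)
          = ∑ i, ∑ c : ι → Bool, ((bn c i).natAbs : ℝ) := by
            simp only [tot, Nat.cast_sum]; rw [sum_comm]
        _ ≤ ∑ _i : Fin m, 2 ^ n * (2 / R ^ 2) := by
            refine sum_le_sum fun i _ => (sum_le_sum fun c _ => hpt c i).trans ?_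
            rw [← mul_sum, sum_add_distrib]
            have h1 : ∑ c : ι → Bool, Real.exp (t * S c i) ≤ 2 ^ n * Real.exp ((n : ℝ) * (t ^ 2 / 2)) :=
              sum_exp_le (a i) (ha i) t
            have h2 : ∑ c : ι → Bool, Real.exp (-(t * S c i)) ≤
                2 ^ n * Real.exp ((n : ℝ) * (t ^ 2 / 2)) := by
              have := sum_exp_le (a i) (ha i) (-t)
              simpa [S, neg_mul] using this
            have hexp : Real.exp (-(t * Δ)) * Real.exp ((n : ℝ) * (t ^ 2 / 2)) = 1 / R ^ 2 := by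
              have hn2 : (n : ℝ) * (t ^ 2 / 2) = 2 * Real.log R := by
                rw [ht, div_pow, hΔsq]; field_simp; ring
              rw [← Real.exp_add, hn2, htΔ,
                show -(4 * Real.log R) + 2 * Real.log R = -(Real.log R + Real.log R) by ring,
                Real.exp_neg, Real.exp_add, Real.exp_log hR0, sq, one_div]
            calc Real.exp (-(t * Δ)) * (∑ c : ι → Bool, Real.exp (t * S c i) +
                  ∑ c : ι → Bool, Real.exp (-(t * S c i)))
                ≤ Real.exp (-(t * Δ)) * (2 * (2 ^ n * Real.exp ((n : ℝ) * (t ^ 2 / 2)))) :=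
                  mul_le_mul_of_nonneg_left (by linarith) (Real.exp_pos _).le
              _ = 2 * 2 ^ n * (Real.exp (-(t * Δ)) * Real.exp ((n : ℝ) * (t ^ 2 / 2))) := by ring
              _ = 2 ^ n * (2 / R ^ 2) := by rw [hexp]; ring
        _ = 2 ^ n * (τ / 2) := by
            rw [sum_const, card_univ, Fintype.card_fin, nsmul_eq_mul, hτ]; ring
    set G := (univ : Finset (ι → Bool)).filter fun c => (tot c : ℝ) ≤ τ with hG
    have hcardU : ((univ : Finset (ι → Bool)).card : ℝ) = 2 ^ n := by simp [hn]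
    have hGcard : (2 : ℝ) ^ n ≤ 2 * G.card := by
      have hbad : (((univ : Finset (ι → Bool)).filter fun c => ¬(tot c : ℝ) ≤ τ).card : ℝ) * τ ≤
          2 ^ n * (τ / 2) := by
        refine le_trans ?_ hsum
        rw [← nsmul_eq_mul]
        exact (card_nsmul_le_sum _ _ _ fun c hc => (not_le.1 (mem_filter.1 hc).2).le).trans
          (sum_le_sum_of_subset_of_nonneg (subset_univ _) fun _ _ _ => Nat.cast_nonneg _)
      have hadd : (G.card : ℝ) +
          (((univ : Finset (ι → Bool)).filter fun c => ¬(tot c : ℝ) ≤ τ).card : ℝ) = 2 ^ n := by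
        rw [← hcardU]
        exact_mod_cast card_filter_add_card_filter_not (fun c : ι → Bool => (tot c : ℝ) ≤ τ)
      nlinarith
    set ε : ℝ := 1 / R with hε
    have hε0 : 0 < ε := by positivity
    have hε1 : ε ≤ 1 / 2 := by rw [hε]; exact one_div_le_one_div_of_le (by norm_num) (by linarith)
    set T := G.image bn with hT
    have hTcard : (T.card : ℝ) ≤ Real.exp ((n : ℝ) / 50) := by
      set N : ℕ := ⌊τ⌋₊ with hN
      have hTsub : T ⊆ Fintype.piFinset fun _ : Fin m => Icc (-(N : ℤ)) N := by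
        intro B hB
        obtain ⟨c, hc, rfl⟩ := mem_image.1 hB
        refine Fintype.mem_piFinset.2 fun i => ?_
        have h1 : (bn c i).natAbs ≤ tot c :=
          single_le_sum (f := fun i => (bn c i).natAbs) (fun _ _ => Nat.zero_le _) (mem_univ i)
        have h2 : tot c ≤ N := Nat.le_floor (mem_filter.1 hc).2
        rw [mem_Icc]
        omega
      have hlow : ∀ B ∈ T, Real.exp (-(τ * Real.log R)) ≤ ∏ i, ε ^ (B i).natAbs := by
        intro B hB
        obtain ⟨c, hc, rfl⟩ := mem_image.1 hB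
        rw [prod_pow_eq_pow_sum, show ε = Real.exp (-Real.log R) by
          rw [Real.exp_neg, Real.exp_log hR0, hε, one_div], ← Real.exp_nat_mul]
        refine Real.exp_le_exp.2 ?_
        have h1 : (tot c : ℝ) ≤ τ := (mem_filter.1 hc).2
        have h2 : (∑ i, (bn c i).natAbs) = tot c := rfl
        rw [h2]
        nlinarith
      have hup : ∑ B ∈ T, ∏ i, ε ^ (B i).natAbs ≤ Real.exp ((m : ℝ) * (4 * ε)) := by
        calc ∑ B ∈ T, ∏ i, ε ^ (B i).natAbs
            ≤ ∑ B ∈ Fintype.piFinset fun _ : Fin m => Icc (-(N : ℤ)) N, ∏ i, ε ^ (B i).natAbs :=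
              sum_le_sum_of_subset_of_nonneg hTsub fun _ _ _ => by positivity
          _ = ∏ _i : Fin m, ∑ b ∈ Icc (-(N : ℤ)) N, ε ^ b.natAbs :=
              (Finset.prod_univ_sum (fun _ : Fin m => Icc (-(N : ℤ)) N)
                fun _ b => ε ^ b.natAbs).symm
          _ ≤ ∏ _i : Fin m, Real.exp (4 * ε) := by
              refine prod_le_prod (fun _ _ => sum_nonneg fun _ _ => by positivity) fun _ _ => ?_
              have := Real.add_one_le_exp (4 * ε)
              exact (sum_pow_natAbs_le ε hε0.le hε1 N).trans (by linarith)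
          _ = Real.exp ((m : ℝ) * (4 * ε)) := by
              rw [prod_const, card_univ, Fintype.card_fin, ← Real.exp_nat_mul]
      have hTT : (T.card : ℝ) * Real.exp (-(τ * Real.log R)) ≤ Real.exp ((m : ℝ) * (4 * ε)) := by
        rw [← nsmul_eq_mul]
        exact (card_nsmul_le_sum _ _ _ hlow).trans hup
      rw [← le_div_iff₀ (Real.exp_pos _), ← Real.exp_sub] at hTT
      refine hTT.trans (Real.exp_le_exp.2 ?_)
      have h1 : (m : ℝ) * (4 * ε) = (n : ℝ) / 100 := by
        have hm0 : (m : ℝ) ≠ 0 := (lt_of_lt_of_le hnR hmR).ne'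
        rw [hε, hR]; field_simp; ring
      have h2 : τ * Real.log R ≤ (n : ℝ) / 100 := by
        have h3 : Real.log R ≤ R := (Real.log_le_sub_one_of_pos hR0).trans (by linarith)
        calc τ * Real.log R ≤ τ * R := mul_le_mul_of_nonneg_left h3 hτ0.le
          _ = (n : ℝ) / 100 := by
            have hm0 : (m : ℝ) ≠ 0 := (lt_of_lt_of_le hnR hmR).ne'
            rw [hτ, hR]; field_simp; ring
      linarith
    obtain ⟨B, hBT, hBfib⟩ : ∃ B ∈ T,
        Real.exp ((n : ℝ) * (2 * Real.log 2 - 3 / 4 * Real.log 3)) <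
          ((G.filter fun c => bn c = B).card : ℝ) := by
      by_contra h
      push Not at h
      have h1 : (G.card : ℝ) ≤
          (T.card : ℝ) * Real.exp ((n : ℝ) * (2 * Real.log 2 - 3 / 4 * Real.log 3)) := by
        rw [card_eq_sum_card_image bn G, Nat.cast_sum, ← nsmul_eq_mul]
        exact sum_le_card_nsmul _ _ _ h
      have h2 : (G.card : ℝ) ≤
          Real.exp ((n : ℝ) / 50 + (n : ℝ) * (2 * Real.log 2 - 3 / 4 * Real.log 3)) := by
        refine h1.trans ?_
        rw [Real.exp_add]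
        exact mul_le_mul_of_nonneg_right hTcard (Real.exp_pos _).le
      have h3 : Real.exp ((n : ℝ) * Real.log 2) ≤ Real.exp (Real.log 2 +
          ((n : ℝ) / 50 + (n : ℝ) * (2 * Real.log 2 - 3 / 4 * Real.log 3))) := by
        rw [Real.exp_nat_mul, Real.exp_add (Real.log 2), Real.exp_log (by norm_num : (0 : ℝ) < 2)]
        linarith
      have h4 := Real.exp_le_exp.1 h3
      have h5 : (9 : ℝ) ≤ n := by exact_mod_cast hbig
      have h6 : (1.0986 : ℝ) ≤ Real.log 3 := by
        have := Real.log_three_gt_d9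
        linarith
      have h7 := Real.log_two_lt_d9
      nlinarith
    have hne : (G.filter fun c => bn c = B).Nonempty := by
      obtain ⟨c, hc, hcB⟩ := mem_image.1 hBT
      exact ⟨c, mem_filter.2 ⟨hc, hcB⟩⟩
    obtain ⟨c₀, hc₀⟩ := hne
    obtain ⟨c, hc, hfar⟩ : ∃ c ∈ G.filter (fun c => bn c = B),
        n ≤ 4 * (univ.filter fun j => c j ≠ c₀ j).card := by
      by_contra h
      push Not at h
      have h1 : G.filter (fun c => bn c = B) ⊆ (univ : Finset (ι → Bool)).filter fun c =>
          4 * (univ.filter fun j => c j ≠ c₀ j).card < n :=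
        fun c hc => mem_filter.2 ⟨mem_univ c, h c hc⟩
      have h2 : ((G.filter fun c => bn c = B).card : ℝ) ≤ _ :=
        le_trans (by exact_mod_cast card_le_card h1) (card_ball_le c₀)
      linarith
    refine ⟨fun j => (sgn (c j) - sgn (c₀ j)) / 2, fun j => ?_, ?_, fun i => ?_⟩
    · dsimp only [sgn]
      cases c j <;> cases c₀ j <;> norm_num
    · refine le_of_le_of_eq hfar ?_
      congr 2
      refine filter_congr fun j _ => ?_
      rcases Bool.eq_false_or_eq_true (c j) with h | h <;>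
        rcases Bool.eq_false_or_eq_true (c₀ j) with h' | h' <;> norm_num [sgn, h, h']
    · have heq : bn c i = bn c₀ i := by
        rw [(mem_filter.1 hc).2, (mem_filter.1 hc₀).2]
      have h1 : |S c i / (2 * Δ) - ((bn c i : ℤ) : ℝ)| ≤ 1 / 2 := abs_sub_round _
      have h2 : |S c₀ i / (2 * Δ) - ((bn c i : ℤ) : ℝ)| ≤ 1 / 2 := by
        rw [heq]; exact abs_sub_round _
      have h3 : |S c i / (2 * Δ) - S c₀ i / (2 * Δ)| ≤ 1 := by
        rw [abs_le] at h1 h2 ⊢
        constructor <;> linarith [h1.1, h1.2, h2.1, h2.2]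
      have h4 : ∑ j, a i j * ((sgn (c j) - sgn (c₀ j)) / 2) =
          Δ * (S c i / (2 * Δ) - S c₀ i / (2 * Δ)) := by
        simp only [S, mul_div_assoc', mul_sub, ← sum_div, sum_sub_distrib]
        field_simp
      rw [h4, abs_mul, abs_of_pos hΔ0]
      exact mul_le_of_le_one_right hΔ0.le h3

/-- The budget decreases geometrically when a quarter of the variables are coloured. -/
theorem budget_step (m n n' : ℕ) (hn' : 0 < n') (hle : 4 * n' ≤ 3 * n) (hnm : n ≤ m) :
    (n' : ℝ) * (1 + Real.log (2 * m / n')) ≤ 9 / 10 * ((n : ℝ) * (1 + Real.log (2 * m / n))) := by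
  have h4 : 4 * (n' : ℝ) ≤ 3 * n := by exact_mod_cast hle
  have hnR : (n : ℝ) ≤ m := by exact_mod_cast hnm
  have hn'R : (0 : ℝ) < n' := Nat.cast_pos.2 hn'
  set x : ℝ := 3 * n / 4 with hx
  have hx0 : 0 < x := by linarith
  have hm0 : (0 : ℝ) < m := by linarith
  have hn0 : (0 : ℝ) < n := by linarith
  have hℓ : Real.log 2 ≤ Real.log (2 * m / n) :=
    Real.log_le_log (by norm_num) (by rw [le_div_iff₀ hn0]; linarith)
  have h1 : (n' : ℝ) * (1 + Real.log (2 * m / n')) ≤ x * (1 + Real.log (2 * m / x)) := by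
    have hsplit : Real.log (2 * m / n') = Real.log (2 * m / x) + Real.log (x / n') := by
      rw [← Real.log_mul (by positivity) (by positivity)]
      congr 1
      field_simp
    have h2 : Real.log (x / n') ≤ x / n' - 1 := Real.log_le_sub_one_of_pos (by positivity)
    have h3 : (n' : ℝ) * Real.log (x / n') ≤ x - n' := by
      calc (n' : ℝ) * Real.log (x / n') ≤ n' * (x / n' - 1) :=
            mul_le_mul_of_nonneg_left h2 hn'R.le
        _ = x - n' := by field_simp
    have h5 : 0 ≤ Real.log (2 * m / x) := Real.log_nonneg (by rw [le_div_iff₀ hx0]; linarith)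
    rw [hsplit]
    nlinarith
  have h6 : Real.log (2 * m / x) ≤ Real.log (2 * m / n) + 1 / 3 := by
    have h7 : Real.log (2 * m / x) = Real.log (2 * m / n) + Real.log (4 / 3) := by
      rw [← Real.log_mul (by positivity) (by norm_num), hx]
      congr 1
      field_simp
    have := Real.log_le_sub_one_of_pos (show (0 : ℝ) < 4 / 3 by norm_num)
    linarith
  have := Real.log_two_gt_d9
  calc (n' : ℝ) * (1 + Real.log (2 * m / n')) ≤ x * (1 + Real.log (2 * m / x)) := h1
    _ ≤ x * (1 + Real.log (2 * m / n) + 1 / 3) := mul_le_mul_of_nonneg_left (by linarith) hx0.le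
    _ ≤ 9 / 10 * ((n : ℝ) * (1 + Real.log (2 * m / n))) := by rw [hx]; nlinarith

/-- A colouring of every set of variables, by iterated partial colourings. -/
theorem colouring_of_card_le {ι : Type*} [DecidableEq ι] (m : ℕ) (a : Fin m → ι → ℝ)
    (ha : ∀ i j, |a i j| ≤ 1) (S : Finset ι) (hS : S.card ≤ m) :
    ∃ χ : ι → ℝ, (∀ j, χ j = 1 ∨ χ j = -1) ∧
      ∀ i, |∑ j ∈ S, a i j * χ j| ≤
        120 * Real.sqrt ((S.card : ℝ) * (1 + Real.log (2 * m / S.card))) := by
  induction S using Finset.strongInduction with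
  | _ S ih =>
    rcases Nat.eq_zero_or_pos S.card with h0 | hpos
    · exact ⟨fun _ => 1, fun _ => Or.inl rfl, fun i => by simp [card_eq_zero.1 h0]⟩
    obtain ⟨χ, hχ, hbig, hsmall⟩ := partial_colouring (ι := {x // x ∈ S}) m (fun i j => a i j.1)
      (by simpa using hpos) (by simpa using hS) (fun i j => ha i j.1)
    simp only [Fintype.card_coe] at hbig hsmall
    let χ' : ι → ℝ := fun j => if h : j ∈ S then χ ⟨j, h⟩ else 0
    have hχ' : ∀ j : {x // x ∈ S}, χ' j.1 = χ j := fun j => by simp [χ', j.2]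
    set T := S.filter fun j => χ' j = 0 with hT
    have hcard : T.card + (univ.filter fun j : {x // x ∈ S} => χ j ≠ 0).card = S.card := by
      have h1 : (univ.filter fun j : {x // x ∈ S} => χ j ≠ 0).card =
          (S.filter fun j => χ' j ≠ 0).card := by
        rw [← card_map (Function.Embedding.subtype _)]
        congr 1
        ext j
        simp only [mem_map, mem_filter, mem_univ, true_and, Function.Embedding.subtype_apply]
        constructor
        · rintro ⟨k, hk, rfl⟩
          exact ⟨k.2, by rw [hχ']; exact hk⟩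
        · rintro ⟨hj, hne⟩
          exact ⟨⟨j, hj⟩, by rw [← hχ']; exact hne, rfl⟩
      rw [h1]
      exact card_filter_add_card_filter_not (s := S) (fun j => χ' j = 0)
    have hTS : T ⊂ S := by
      refine (filter_subset _ _).ssubset_of_ne fun he => ?_
      have : T.card = S.card := congrArg Finset.card he
      omega
    obtain ⟨ψ, hψ, hψb⟩ := ih T hTS (by omega)
    refine ⟨fun j => if χ' j = 0 then ψ j else χ' j, fun j => ?_, fun i => ?_⟩
    · by_cases hj : χ' j = 0
      · simp only [hj, if_true]; exact hψ j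
      · simp only [hj, if_false]
        by_cases hjS : j ∈ S
        · rcases hχ ⟨j, hjS⟩ with h | h | h
          · left; rw [← hχ' ⟨j, hjS⟩] at h; exact h
          · right; rw [← hχ' ⟨j, hjS⟩] at h; exact h
          · exact absurd (by rw [← hχ' ⟨j, hjS⟩] at h; exact h) hj
        · exact absurd (by simp [χ', hjS]) hj
    · have hsplit : ∑ j ∈ S, a i j * (if χ' j = 0 then ψ j else χ' j) =
          ∑ j ∈ T, a i j * ψ j + ∑ j : {x // x ∈ S}, a i j.1 * χ j := by
        have h1 : ∑ j : {x // x ∈ S}, a i j.1 * χ j = ∑ j ∈ S, a i j * χ' j := by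
          rw [← sum_coe_sort S fun j => a i j * χ' j]
          exact sum_congr rfl fun j _ => by rw [hχ']
        rw [h1, hT, sum_filter, ← sum_add_distrib]
        refine sum_congr rfl fun j _ => ?_
        by_cases hj : χ' j = 0 <;> simp [hj]
      rw [hsplit]
      refine (abs_add_le _ _).trans ?_
      have hB := hsmall i
      have hnR : (0 : ℝ) < S.card := Nat.cast_pos.2 hpos
      have hℓ0 : 0 ≤ Real.log (2 * m / S.card) := Real.log_nonneg (by
        have : (S.card : ℝ) ≤ m := by exact_mod_cast hS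
        rw [le_div_iff₀ hnR]; linarith)
      set g := (S.card : ℝ) * (1 + Real.log (2 * m / S.card)) with hg
      have hBg : Real.sqrt ((S.card : ℝ) * Real.log (2 * m / S.card)) ≤ Real.sqrt g :=
        Real.sqrt_le_sqrt (by rw [hg]; nlinarith)
      have hA : |∑ j ∈ T, a i j * ψ j| ≤ 114 * Real.sqrt g := by
        refine (hψb i).trans ?_
        rcases Nat.eq_zero_or_pos T.card with hT0 | hT0
        · rw [hT0, Nat.cast_zero, zero_mul, Real.sqrt_zero, mul_zero]
          positivity
        · have h1 := budget_step m S.card T.card hT0 (by omega) hS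
          have h2 : Real.sqrt ((T.card : ℝ) * (1 + Real.log (2 * m / T.card))) ≤
              95 / 100 * Real.sqrt g := by
            rw [show (95 / 100 : ℝ) = Real.sqrt ((95 / 100) ^ 2) by
              rw [Real.sqrt_sq (by norm_num : (0 : ℝ) ≤ 95 / 100)], ← Real.sqrt_mul (by positivity)]
            exact Real.sqrt_le_sqrt (h1.trans (by rw [← hg]; nlinarith))
          linarith
      linarith

end Spencer

/-- M7 holds. -/
theorem spencerStmt : SpencerStmt := by
  refine ⟨360, by norm_num, fun n m a hnm ha => ?_⟩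
  obtain ⟨χ, hχ, hb⟩ := Spencer.colouring_of_card_le m a ha univ (by simpa using hnm)
  refine ⟨χ, hχ, fun i => (hb i).trans ?_⟩
  rw [card_univ, Fintype.card_fin]
  rcases Nat.eq_zero_or_pos n with h0 | hpos
  · simp [h0]
  have hnR : (0 : ℝ) < n := Nat.cast_pos.2 hpos
  have hℓ : Real.log 2 ≤ Real.log (2 * m / n) := by
    have : (n : ℝ) ≤ m := by exact_mod_cast hnm
    exact Real.log_le_log (by norm_num) (by rw [le_div_iff₀ hnR]; linarith)
  have h2 : (1 + Real.log (2 * m / n)) ≤ 9 * Real.log (2 * m / n) := by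
    have := Real.log_two_gt_d9
    linarith
  rw [show (360 : ℝ) = 120 * Real.sqrt 9 by
      rw [show (9 : ℝ) = 3 ^ 2 by norm_num, Real.sqrt_sq (by norm_num : (0 : ℝ) ≤ 3)]; norm_num,
    mul_assoc, ← Real.sqrt_mul (by norm_num : (0 : ℝ) ≤ 9)]
  refine mul_le_mul_of_nonneg_left (Real.sqrt_le_sqrt ?_) (by norm_num)
  nlinarith

end

end Vale.Agent.P110.Ultra
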