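import Vale.Agent.P110.Ultraflat.Interfaces

/-!
P110, module M1: a near square waveform with pairwise independent frequencies.

The product of Fejer smoothed square waves, restricted to primitive frequency vectors by
Moebius inversion. The non-primitive part is small when the dimension is large.
-/

namespace Vale.Agent.P110.Ultra

open Finset Real ArithmeticFunction

noncomputable section

namespace Wave

/-- Fejer's kernel is a square. -/
theorem fejer_sq (n : ℕ) (x : ℝ) :
    (n : ℝ) + 2 * ∑ l ∈ range n, ((n : ℝ) - (l + 1)) * Real.cos ((l + 1) * x) =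
      (∑ j ∈ range n, Real.cos (j * x)) ^ 2 + (∑ j ∈ range n, Real.sin (j * x)) ^ 2 := by
  induction n with
  | zero => simp
  | succ n ih =>
    have key : ∑ j ∈ range n, Real.cos (((j : ℝ) + 1) * x) =
        (∑ j ∈ range n, Real.cos (j * x)) * Real.cos (n * x) +
          (∑ j ∈ range n, Real.sin (j * x)) * Real.sin (n * x) := by
      rw [Finset.sum_mul, Finset.sum_mul, ← Finset.sum_add_distrib,
        ← Finset.sum_range_reflect (fun j => Real.cos (((j : ℝ) + 1) * x))]
      refine Finset.sum_congr rfl fun j hj => ?_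
      have hj : j < n := Finset.mem_range.1 hj
      have : ((n - 1 - j : ℕ) : ℝ) = (n : ℝ) - 1 - j := by
        rw [Nat.cast_sub (by omega), Nat.cast_sub (by omega)]; simp
      rw [this, show ((n : ℝ) - 1 - j + 1) * x = n * x - j * x by ring, Real.cos_sub]
      ring
    have step : ∑ l ∈ range (n + 1), (((n + 1 : ℕ) : ℝ) - (l + 1)) * Real.cos ((l + 1) * x) =
        ∑ l ∈ range n, ((n : ℝ) - (l + 1)) * Real.cos ((l + 1) * x) +
          ∑ l ∈ range n, Real.cos (((l : ℝ) + 1) * x) := by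
      rw [Finset.sum_range_succ, ← Finset.sum_add_distrib]
      push_cast
      rw [sub_self, zero_mul, add_zero]
      refine Finset.sum_congr rfl fun l _ => ?_
      ring
    rw [step, Finset.sum_range_succ, Finset.sum_range_succ]
    push_cast
    nlinarith [Real.sin_sq_add_cos_sq ((n : ℝ) * x), key, ih]

theorem integral_cos_mul (c a b : ℝ) (hc : c ≠ 0) :
    ∫ s in a..b, Real.cos (c * s) = (Real.sin (c * b) - Real.sin (c * a)) / c := by
  rw [intervalIntegral.integral_comp_mul_left (fun t => Real.cos t) hc, integral_cos, smul_eq_mul]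
  field_simp

/-- The harmonic `l` of the square wave. -/
def harm (l : ℕ) (y : ℝ) : ℝ :=
  4 * Real.sin (π * l / 2) / (π * l) * Real.cos (2 * π * l * y)

/-- The triangular weight of real order `X`. -/
def tri (X : ℝ) (l : ℕ) : ℝ := max 0 (1 - l / X)

theorem tri_eq_zero {X : ℝ} {l : ℕ} (hX : 0 < X) (h : X ≤ l) : tri X l = 0 := by
  unfold tri
  exact max_eq_left (by rw [sub_nonpos, le_div_iff₀ hX]; linarith)

theorem tri_eq {X : ℝ} {l : ℕ} (hX : 0 < X) (h : (l : ℝ) ≤ X) : tri X l = 1 - l / X := by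
  unfold tri
  exact max_eq_right (by rw [sub_nonneg, div_le_one hX]; exact h)

theorem abs_fejer_square_le (n : ℕ) (hn : 0 < n) (y : ℝ) :
    |∑ l ∈ range n, (1 - ((l + 1 : ℕ) : ℝ) / n) * harm (l + 1) y| ≤ 1 := by
  have hnR : (0 : ℝ) < n := by exact_mod_cast hn
  set F : ℝ → ℝ := fun s =>
    1 + ∑ l ∈ range n, 2 * (1 - ((l : ℝ) + 1) / n) * Real.cos ((2 * π * ((l : ℝ) + 1)) * s)
    with hF
  have hFnn : ∀ s, 0 ≤ F s := by
    intro s
    have h := fejer_sq n (2 * π * s)
    have h0 : 0 ≤ (n : ℝ) +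
        2 * ∑ l ∈ range n, ((n : ℝ) - (l + 1)) * Real.cos ((l + 1) * (2 * π * s)) := by
      rw [h]; positivity
    have he : F s = ((n : ℝ) +
        2 * ∑ l ∈ range n, ((n : ℝ) - (l + 1)) * Real.cos ((l + 1) * (2 * π * s))) / n := by
      simp only [hF]
      rw [Finset.mul_sum, add_div, div_self hnR.ne', Finset.sum_div]
      congr 1
      refine Finset.sum_congr rfl fun l _ => ?_
      field_simp
    rw [he]; positivity
  have hcont : Continuous F := by rw [hF]; fun_prop
  have hint : ∀ a b : ℝ, ∫ s in a..b, F s = (b - a) + ∑ l ∈ range n,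
      2 * (1 - ((l : ℝ) + 1) / n) *
        ((Real.sin (2 * π * ((l : ℝ) + 1) * b) - Real.sin (2 * π * ((l : ℝ) + 1) * a)) /
          (2 * π * ((l : ℝ) + 1))) := by
    intro a b
    simp only [hF]
    rw [intervalIntegral.integral_add (Continuous.intervalIntegrable (by fun_prop) a b)
        (Continuous.intervalIntegrable (by fun_prop) a b),
      intervalIntegral.integral_finsetSum
        (fun l _ => Continuous.intervalIntegrable (by fun_prop) a b)]
    congr 1
    · simp
    · refine Finset.sum_congr rfl fun l _ => ?_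
      rw [intervalIntegral.integral_const_mul, integral_cos_mul _ _ _ (by positivity)]
  have hfull : ∫ s in (y - 1 / 4)..(y - 1 / 4 + 1), F s = 1 := by
    rw [hint, Finset.sum_eq_zero, add_zero]
    · ring
    intro l _
    rw [show 2 * π * ((l : ℝ) + 1) * (y - 1 / 4 + 1) =
        2 * π * ((l : ℝ) + 1) * (y - 1 / 4) + ((l + 1 : ℕ) : ℝ) * (2 * π) by push_cast; ring,
      Real.sin_add_nat_mul_two_pi, sub_self, zero_div, mul_zero]
  have hsplit := intervalIntegral.integral_add_adjacent_intervals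
    (hcont.intervalIntegrable (μ := MeasureTheory.volume) (y - 1 / 4) (y + 1 / 4))
    (hcont.intervalIntegrable (μ := MeasureTheory.volume) (y + 1 / 4) (y - 1 / 4 + 1))
  have h1 : 0 ≤ ∫ s in (y - 1 / 4)..(y + 1 / 4), F s :=
    intervalIntegral.integral_nonneg (by linarith) fun s _ => hFnn s
  have h2 : 0 ≤ ∫ s in (y + 1 / 4)..(y - 1 / 4 + 1), F s :=
    intervalIntegral.integral_nonneg (by linarith) fun s _ => hFnn s
  have hval : ∫ s in (y - 1 / 4)..(y + 1 / 4), F s =
      1 / 2 + (1 / 2) * ∑ l ∈ range n, (1 - ((l + 1 : ℕ) : ℝ) / n) * harm (l + 1) y := by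
    rw [hint, Finset.mul_sum]
    congr 1
    · ring
    refine Finset.sum_congr rfl fun l _ => ?_
    rw [show 2 * π * ((l : ℝ) + 1) * (y + 1 / 4) =
        2 * π * ((l : ℝ) + 1) * y + π * ((l : ℝ) + 1) / 2 by ring,
      show 2 * π * ((l : ℝ) + 1) * (y - 1 / 4) =
        2 * π * ((l : ℝ) + 1) * y - π * ((l : ℝ) + 1) / 2 by ring,
      Real.sin_add, Real.sin_sub]
    unfold harm
    push_cast
    field_simp
    ring
  rw [abs_le]
  constructor <;> linarith

theorem abs_tri_nat_le (n M : ℕ) (hn : 0 < n) (hM : n < M) (y : ℝ) :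
    |∑ l ∈ range M, tri n l * harm l y| ≤ 1 := by
  have hnR : (0 : ℝ) < n := by exact_mod_cast hn
  have h : ∑ l ∈ range M, tri n l * harm l y = ∑ l ∈ range (n + 1), tri n l * harm l y := by
    symm
    refine Finset.sum_subset (Finset.range_subset_range.2 hM) fun l _ hl => ?_
    have : (n : ℝ) ≤ l := by exact_mod_cast (by simp at hl; omega : n ≤ l)
    rw [tri_eq_zero hnR this, zero_mul]
  rw [h, Finset.sum_range_succ']
  have h0 : tri n 0 * harm 0 y = 0 := by simp [harm]
  rw [h0, add_zero]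
  refine le_of_eq_of_le (congrArg abs (Finset.sum_congr rfl fun l hl => ?_))
    (abs_fejer_square_le n hn y)
  have : ((l + 1 : ℕ) : ℝ) ≤ n := by exact_mod_cast Finset.mem_range.1 hl
  rw [tri_eq hnR this]

theorem abs_tri_le (X : ℝ) (M : ℕ) (hX : 0 < X) (hM : X < M) (y : ℝ) :
    |∑ l ∈ range (M + 1), tri X l * harm l y| ≤ 1 := by
  rcases lt_or_ge X 1 with h | h
  · rw [Finset.sum_eq_zero]
    · simp
    intro l _
    rcases Nat.eq_zero_or_pos l with rfl | hl
    · simp [harm]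
    · rw [tri_eq_zero hX (h.le.trans (by exact_mod_cast hl)), zero_mul]
  set n := ⌊X⌋₊ with hn_def
  have hn1 : 1 ≤ n := (Nat.one_le_floor_iff X).2 h
  have hnX : (n : ℝ) ≤ X := Nat.floor_le hX.le
  have hXn : X < n + 1 := Nat.lt_floor_add_one X
  have hnM : n < M := by exact_mod_cast hnX.trans_lt hM
  have hnR : (0 : ℝ) < n := by exact_mod_cast hn1
  set t : ℝ := n * (n + 1) / X - n with ht
  have ht0 : 0 ≤ t := by
    rw [ht, sub_nonneg, le_div_iff₀ hX]; nlinarith
  have ht1 : t ≤ 1 := by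
    rw [ht, sub_le_iff_le_add, div_le_iff₀ hX]; nlinarith
  have key : ∀ l : ℕ, tri X l = t * tri n l + (1 - t) * tri ((n + 1 : ℕ) : ℝ) l := by
    intro l
    have hn' : (0 : ℝ) < ((n + 1 : ℕ) : ℝ) := by positivity
    rcases Nat.lt_or_ge n l with hl | hl
    · have : (n : ℝ) + 1 ≤ l := by exact_mod_cast hl
      rw [tri_eq_zero hX (hXn.le.trans this), tri_eq_zero hnR (by linarith),
        tri_eq_zero hn' (by push_cast; linarith)]
      ring
    · have : (l : ℝ) ≤ n := by exact_mod_cast hl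
      rw [tri_eq hX (this.trans hnX), tri_eq hnR this, tri_eq hn' (by push_cast; linarith), ht]
      push_cast
      field_simp
      ring
  simp_rw [key, add_mul, mul_assoc, Finset.sum_add_distrib, ← Finset.mul_sum]
  have hA := abs_tri_nat_le n (M + 1) hn1 (by omega) y
  have hB := abs_tri_nat_le (n + 1) (M + 1) (by omega) (by omega) y
  refine (abs_add_le _ _).trans ?_
  rw [abs_mul, abs_mul, abs_of_nonneg ht0, abs_of_nonneg (show (0 : ℝ) ≤ 1 - t by linarith)]
  nlinarith

theorem sin_odd_mul (e l : ℕ) (he : Odd e) :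
    Real.sin (π * ((l * e : ℕ) : ℝ) / 2) = (-1) ^ (e / 2) * Real.sin (π * l / 2) := by
  obtain ⟨i, rfl⟩ := he
  rw [show (2 * i + 1) / 2 = i by omega,
    show π * ((l * (2 * i + 1) : ℕ) : ℝ) / 2 = π * l / 2 + ((l * i : ℕ) : ℝ) * π by
      push_cast; ring, Real.sin_add_nat_mul_pi]
  rcases Nat.even_or_odd l with ⟨j, rfl⟩ | hl
  · rw [show π * ((j + j : ℕ) : ℝ) / 2 = (j : ℝ) * π by push_cast; ring, Real.sin_nat_mul_pi]
    simp
  · rw [pow_mul, hl.neg_one_pow]

/-- The coefficient of the frequency `k` in one coordinate. -/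
def coef (N : ℕ) (k : ℤ) : ℝ :=
  (1 - |(k : ℝ)| / N) * (2 * Real.sin (π * k / 2) / (π * k))

theorem coef_neg (N : ℕ) (k : ℤ) : coef N (-k) = coef N k := by
  unfold coef
  push_cast
  rw [abs_neg, show π * -(k : ℝ) / 2 = -(π * k / 2) by ring, Real.sin_neg]
  ring

/-- The odd multiples of `e` in the window. -/
def win (N e : ℕ) : Finset ℤ :=
  (Finset.Ioo (-(N : ℤ)) N).filter fun k => Odd k ∧ (e : ℤ) ∣ k

theorem mem_win {N e : ℕ} {k : ℤ} :
    k ∈ win N e ↔ (-(N : ℤ) < k ∧ k < N) ∧ Odd k ∧ (e : ℤ) ∣ k := by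
  simp [win]

theorem win_empty {N e : ℕ} (he : Even e) : win N e = ∅ := by
  refine Finset.eq_empty_iff_forall_notMem.2 fun k hk => ?_
  obtain ⟨_, hodd, hdvd⟩ := mem_win.1 hk
  have : Even k := (even_iff_two_dvd).2 (dvd_trans (by exact_mod_cast he.two_dvd) hdvd)
  exact (Int.not_odd_iff_even.2 this) hodd

theorem neg_mem_win {N e : ℕ} {k : ℤ} (h : k ∈ win N e) : -k ∈ win N e := by
  obtain ⟨hb, hodd, hdvd⟩ := mem_win.1 h
  exact mem_win.2 ⟨by omega, hodd.neg, hdvd.neg_right⟩

/-- The multipliers of the positive elements of the window. -/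
def pos (N e : ℕ) : Finset ℕ := (range (N + 1)).filter fun l => Odd l ∧ l * e < N

theorem sum_win {β : Type} [AddCommMonoid β] {N e : ℕ} (he : Odd e) (f : ℤ → β) :
    ∑ k ∈ win N e, f k =
      ∑ l ∈ pos N e, (f ((l * e : ℕ) : ℤ) + f (-((l * e : ℕ) : ℤ))) := by
  have hepos : 0 < e := he.pos
  rw [← Finset.sum_filter_add_sum_filter_not (win N e) (fun k => 0 < k), Finset.sum_add_distrib]
  congr 1
  · symm
    refine Finset.sum_bij' (fun l _ => ((l * e : ℕ) : ℤ)) (fun k _ => k.natAbs / e)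
      ?_ ?_ ?_ ?_ (fun _ _ => rfl)
    · intro l hl
      simp only [pos, Finset.mem_filter, Finset.mem_range] at hl
      simp only [Finset.mem_filter, mem_win]
      have hlpos : 0 < l := hl.2.1.pos
      refine ⟨⟨⟨by omega, by exact_mod_cast hl.2.2⟩, (Int.odd_coe_nat _).2 (hl.2.1.mul he),
        Int.natCast_dvd_natCast.2 (dvd_mul_left _ _)⟩, by exact_mod_cast Nat.mul_pos hlpos hepos⟩
    · intro k hk
      simp only [Finset.mem_filter, mem_win] at hk
      obtain ⟨⟨⟨_, hub⟩, hodd, hdvd⟩, hp⟩ := hk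
      have hd : e ∣ k.natAbs := Int.natCast_dvd.1 hdvd
      obtain ⟨q, hq⟩ := hd
      have hoq : Odd (e * q) := hq ▸ hodd.natAbs
      have hlt : e * q < N := by omega
      have hle : q ≤ e * q := Nat.le_mul_of_pos_left q hepos
      simp only [pos, Finset.mem_filter, Finset.mem_range, hq, Nat.mul_div_cancel_left _ hepos]
      exact ⟨by omega, (Nat.odd_mul.1 hoq).2, by rwa [mul_comm]⟩
    · intro l _
      simp only [Int.natAbs_natCast, Nat.mul_div_cancel _ hepos]
    · intro k hk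
      simp only [Finset.mem_filter, mem_win] at hk
      obtain ⟨⟨_, _, hdvd⟩, hp⟩ := hk
      rw [Nat.div_mul_cancel (Int.natCast_dvd.1 hdvd)]
      omega
  · symm
    refine Finset.sum_bij' (fun l _ => -((l * e : ℕ) : ℤ)) (fun k _ => k.natAbs / e)
      ?_ ?_ ?_ ?_ (fun _ _ => rfl)
    · intro l hl
      simp only [pos, Finset.mem_filter, Finset.mem_range] at hl
      simp only [Finset.mem_filter, mem_win]
      refine ⟨⟨⟨?_, by omega⟩, ((Int.odd_coe_nat _).2 (hl.2.1.mul he)).neg,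
        (Int.natCast_dvd_natCast.2 (dvd_mul_left _ _)).neg_right⟩, by omega⟩
      have : ((l * e : ℕ) : ℤ) < N := by exact_mod_cast hl.2.2
      omega
    · intro k hk
      simp only [Finset.mem_filter, mem_win] at hk
      obtain ⟨⟨⟨hlb, _⟩, hodd, hdvd⟩, hp⟩ := hk
      have hd : e ∣ k.natAbs := Int.natCast_dvd.1 hdvd
      obtain ⟨q, hq⟩ := hd
      have hoq : Odd (e * q) := hq ▸ hodd.natAbs
      have hlt : e * q < N := by omega
      have hle : q ≤ e * q := Nat.le_mul_of_pos_left q hepos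
      simp only [pos, Finset.mem_filter, Finset.mem_range, hq, Nat.mul_div_cancel_left _ hepos]
      exact ⟨by omega, (Nat.odd_mul.1 hoq).2, by rwa [mul_comm]⟩
    · intro l _
      simp only [Int.natAbs_neg, Int.natAbs_natCast, Nat.mul_div_cancel _ hepos]
    · intro k hk
      simp only [Finset.mem_filter, mem_win] at hk
      obtain ⟨⟨_, _, hdvd⟩, hp⟩ := hk
      rw [Nat.div_mul_cancel (Int.natCast_dvd.1 hdvd)]
      omega

/-- The one coordinate profile of the multiples of `e`. -/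
def prof (N e : ℕ) (y : ℝ) : ℝ := ∑ k ∈ win N e, coef N k * Real.cos (2 * π * k * y)

theorem abs_prof_le (N e : ℕ) (he : 0 < e) (y : ℝ) : |prof N e y| ≤ (e : ℝ)⁻¹ := by
  rcases Nat.even_or_odd e with hev | hodd
  · simp [prof, win_empty hev]
  rcases Nat.eq_zero_or_pos N with rfl | hN
  · simp [prof, win]
  have heR : (0 : ℝ) < e := by exact_mod_cast he
  have hNR : (0 : ℝ) < N := by exact_mod_cast hN
  set X : ℝ := (N : ℝ) / e with hX
  have hXpos : 0 < X := by positivity
  have hXM : X < ((N + 1 : ℕ) : ℝ) := by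
    have : X ≤ N := div_le_self hNR.le (by exact_mod_cast he)
    push_cast; linarith
  have hz : ∀ l ∈ range (N + 1 + 1), l ∉ pos N e → tri X l * harm l (e * y) = 0 := by
    intro l hl hl'
    rcases Nat.even_or_odd l with ⟨j, rfl⟩ | hlo
    · have hs : Real.sin (π * ((j + j : ℕ) : ℝ) / 2) = 0 := by
        rw [show π * ((j + j : ℕ) : ℝ) / 2 = (j : ℝ) * π by push_cast; ring, Real.sin_nat_mul_pi]
      rw [harm, hs]
      simp
    · have : N ≤ l * e := by
        by_contra hc
        refine hl' ?_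
        simp only [pos, Finset.mem_filter, Finset.mem_range]
        have := Nat.le_mul_of_pos_right l he
        exact ⟨by omega, hlo, by omega⟩
      rw [tri_eq_zero hXpos (by rw [hX, div_le_iff₀ heR]; exact_mod_cast this), zero_mul]
  have hsum : prof N e y =
      (-1) ^ (e / 2) * (e : ℝ)⁻¹ * ∑ l ∈ range (N + 1 + 1), tri X l * harm l (e * y) := by
    rw [← Finset.sum_subset (s₁ := pos N e) (fun l hl => ?_) hz, prof, sum_win hodd,
      Finset.mul_sum]
    swap
    · simp only [pos, Finset.mem_filter, Finset.mem_range] at hl ⊢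
      omega
    refine Finset.sum_congr rfl fun l hl => ?_
    simp only [pos, Finset.mem_filter, Finset.mem_range] at hl
    have hlpos : (0 : ℝ) < l := by exact_mod_cast hl.2.1.pos
    have hle : (l : ℝ) ≤ X := by
      rw [hX, le_div_iff₀ heR]; exact_mod_cast hl.2.2.le
    rw [tri_eq hXpos hle, coef_neg]
    push_cast
    rw [show 2 * π * -((l : ℝ) * e) * y = -(2 * π * ((l : ℝ) * e) * y) by ring, Real.cos_neg]
    unfold coef harm
    have hsin := sin_odd_mul e l hodd
    push_cast at hsin ⊢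
    rw [hsin, abs_of_pos (mul_pos hlpos heR), hX,
      show 2 * π * (l : ℝ) * (e * y) = 2 * π * ((l : ℝ) * e) * y by ring]
    field_simp
    ring
  rw [hsum, abs_mul, abs_mul, abs_pow, abs_neg, abs_one, one_pow, one_mul,
    abs_of_pos (inv_pos.2 heR)]
  exact mul_le_of_le_one_right (inv_pos.2 heR).le (abs_tri_le X (N + 1) hXpos hXM _)

theorem hasSum_odd_sq : HasSum (fun j : ℕ => 1 / (((2 * j + 1 : ℕ) : ℝ)) ^ 2) (π ^ 2 / 8) := by
  have hall := hasSum_zeta_two
  have he : HasSum (fun j : ℕ => 1 / (((2 * j : ℕ) : ℝ)) ^ 2) (π ^ 2 / 24) := by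
    have h := hall.mul_left (1 / 4 : ℝ)
    rw [show (1 / 4 : ℝ) * (π ^ 2 / 6) = π ^ 2 / 24 by ring] at h
    refine h.congr_fun fun j => ?_
    push_cast
    field_simp
    ring
  have ho : Summable (fun j : ℕ => 1 / (((2 * j + 1 : ℕ) : ℝ)) ^ 2) :=
    hall.summable.comp_injective (i := fun j => 2 * j + 1) fun a b h => by simp at h; exact h
  have h := (he.even_add_odd (f := fun n : ℕ => 1 / ((n : ℝ)) ^ 2) ho.hasSum).unique hall
  have := ho.hasSum
  rwa [show ∑' j : ℕ, 1 / (((2 * j + 1 : ℕ) : ℝ)) ^ 2 = π ^ 2 / 8 by linarith] at this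

theorem coef_sq (N e l : ℕ) (he : Odd e) (hl : Odd l) :
    coef N ((l * e : ℕ) : ℤ) ^ 2 =
      (1 - ((l * e : ℕ) : ℝ) / N) ^ 2 * (4 / π ^ 2) / ((e : ℝ) ^ 2 * (l : ℝ) ^ 2) := by
  obtain ⟨j, hj⟩ := hl.mul he
  unfold coef
  rw [Int.cast_natCast, abs_of_nonneg (Nat.cast_nonneg _)]
  have hs : Real.sin (π * ((l * e : ℕ) : ℝ) / 2) ^ 2 = 1 := by
    rw [hj, show π * ((2 * j + 1 : ℕ) : ℝ) / 2 = π / 2 + (j : ℝ) * π by push_cast; ring,
      Real.sin_add_nat_mul_pi, Real.sin_pi_div_two]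
    simp [← pow_mul]
  rw [mul_pow, div_pow, mul_pow, hs]
  push_cast
  ring

theorem sum_sq_win_le (N e : ℕ) (he : 0 < e) :
    ∑ k ∈ win N e, coef N k ^ 2 ≤ (e : ℝ)⁻¹ := by
  rcases Nat.even_or_odd e with hev | hodd
  · simp [win_empty hev]
  have heR : (1 : ℝ) ≤ e := by exact_mod_cast he
  have hb : ∑ l ∈ pos N e, 1 / ((l : ℝ)) ^ 2 ≤ π ^ 2 / 8 := by
    refine le_trans ?_ (sum_le_hasSum ((pos N e).image (fun l => l / 2))
      (fun j _ => by positivity) hasSum_odd_sq)
    rw [Finset.sum_image]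
    · refine le_of_eq (Finset.sum_congr rfl fun l hl => ?_)
      simp only [pos, Finset.mem_filter] at hl
      obtain ⟨j, rfl⟩ := hl.2.1
      rw [show (2 * j + 1) / 2 = j by omega]
    · intro a ha b hb h
      simp only [pos, Finset.coe_filter, Set.mem_ofPred_eq] at ha hb
      obtain ⟨i, rfl⟩ := ha.2.1
      obtain ⟨j, rfl⟩ := hb.2.1
      simp only at h
      omega
  rw [sum_win hodd]
  simp only [coef_neg]
  calc ∑ l ∈ pos N e, (coef N ((l * e : ℕ) : ℤ) ^ 2 + coef N ((l * e : ℕ) : ℤ) ^ 2)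
      ≤ ∑ l ∈ pos N e, (8 / π ^ 2 / (e : ℝ) ^ 2) * (1 / (l : ℝ) ^ 2) := by
        refine Finset.sum_le_sum fun l hl => ?_
        simp only [pos, Finset.mem_filter] at hl
        rw [coef_sq N e l hodd hl.2.1]
        have hlN : ((l * e : ℕ) : ℝ) ≤ N := by exact_mod_cast hl.2.2.le
        have h1 : (1 - ((l * e : ℕ) : ℝ) / N) ^ 2 ≤ 1 := by
          apply pow_le_one₀
          · rw [sub_nonneg]; exact div_le_one_of_le₀ hlN (Nat.cast_nonneg _)
          · rw [sub_le_self_iff]; positivity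
        have h2 := mul_le_mul_of_nonneg_right h1
          (show (0 : ℝ) ≤ 4 / π ^ 2 / ((e : ℝ) ^ 2 * (l : ℝ) ^ 2) by positivity)
        refine le_trans (le_of_eq (by ring)) (le_trans (mul_le_mul_of_nonneg_left h2 (show (0 : ℝ) ≤ 2 by norm_num))
          (le_of_eq (by ring)))
    _ = (8 / π ^ 2 / (e : ℝ) ^ 2) * ∑ l ∈ pos N e, 1 / (l : ℝ) ^ 2 := by rw [Finset.mul_sum]
    _ ≤ (8 / π ^ 2 / (e : ℝ) ^ 2) * (π ^ 2 / 8) := mul_le_mul_of_nonneg_left hb (by positivity)
    _ = ((e : ℝ) ^ 2)⁻¹ := by field_simp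
    _ ≤ (e : ℝ)⁻¹ := inv_anti₀ (by linarith) (by nlinarith)

theorem exists_mass (δ : ℝ) (hδ : 0 < δ) :
    ∃ N : ℕ, 0 < N ∧ 1 - δ ≤ ∑ k ∈ win N 1, coef N k ^ 2 := by
  have htend := hasSum_odd_sq.tendsto_sum_nat
  have hlt : π ^ 2 / 8 * (1 - δ / 2) < π ^ 2 / 8 := by nlinarith [sq_pos_of_pos Real.pi_pos]
  obtain ⟨J, hJ⟩ := (htend.eventually (eventually_gt_nhds hlt)).exists
  obtain ⟨N, hN⟩ := exists_nat_gt (max (8 * (J : ℝ) / δ) (2 * J + 2))
  have hN1 : 8 * (J : ℝ) / δ < N := lt_of_le_of_lt (le_max_left _ _) hN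
  have hN2 : 2 * (J : ℝ) + 2 < N := lt_of_le_of_lt (le_max_right _ _) hN
  have hNnat : 2 * J + 2 < N := by exact_mod_cast hN2
  have hNR : (0 : ℝ) < N := by exact_mod_cast (by omega : 0 < N)
  refine ⟨N, by omega, ?_⟩
  rw [sum_win odd_one]
  simp only [coef_neg]
  have hsub : (range J).image (fun j => 2 * j + 1) ⊆ pos N 1 := by
    intro l hl
    simp only [Finset.mem_image, Finset.mem_range] at hl
    obtain ⟨j, hj, rfl⟩ := hl
    simp only [pos, Finset.mem_filter, Finset.mem_range]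
    exact ⟨by omega, odd_two_mul_add_one j, by omega⟩
  refine le_trans ?_ (Finset.sum_le_sum_of_subset_of_nonneg hsub
    (fun l _ _ => by positivity))
  rw [Finset.sum_image (by intro a _ b _ h; simp at h; exact h)]
  have hδJ : 2 * (J : ℝ) / N ≤ δ / 4 := by
    rw [div_lt_iff₀ hδ] at hN1
    rw [div_le_iff₀ hNR]; nlinarith
  rcases le_or_gt 1 δ with hbig | hsmall
  · exact le_trans (by linarith) (Finset.sum_nonneg fun j _ => by positivity)
  have hterm : ∀ j ∈ range J,
      (1 - δ / 2) * (8 / π ^ 2) * (1 / (((2 * j + 1 : ℕ) : ℝ)) ^ 2) ≤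
        coef N (((2 * j + 1) * 1 : ℕ) : ℤ) ^ 2 + coef N (((2 * j + 1) * 1 : ℕ) : ℤ) ^ 2 := by
    intro j hj
    rw [coef_sq N 1 _ odd_one (odd_two_mul_add_one j)]
    have hj' : ((2 * j + 1 : ℕ) : ℝ) ≤ 2 * J := by
      exact_mod_cast (by have := Finset.mem_range.1 hj; omega : 2 * j + 1 ≤ 2 * J)
    have hq : (((2 * j + 1) * 1 : ℕ) : ℝ) / N ≤ δ / 4 := by
      rw [mul_one]; exact le_trans (by gcongr) hδJ
    have hw : 1 - δ / 2 ≤ (1 - (((2 * j + 1) * 1 : ℕ) : ℝ) / N) ^ 2 := by
      nlinarith [sq_nonneg ((((2 * j + 1) * 1 : ℕ) : ℝ) / N)]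
    have h2 := mul_le_mul_of_nonneg_right hw
      (show (0 : ℝ) ≤ 8 / π ^ 2 * (1 / (((2 * j + 1 : ℕ) : ℝ)) ^ 2) by positivity)
    refine le_trans (le_of_eq (by ring)) (h2.trans (le_of_eq ?_))
    push_cast
    ring
  refine le_trans ?_ (Finset.sum_le_sum hterm)
  rw [← Finset.mul_sum]
  have h3 : (1 - δ / 2) * (8 / π ^ 2) * (π ^ 2 / 8 * (1 - δ / 2)) = (1 - δ / 2) ^ 2 := by
    field_simp
  have h4 := mul_le_mul_of_nonneg_left hJ.le
    (mul_nonneg (show 0 ≤ 1 - δ / 2 by linarith) (show (0 : ℝ) ≤ 8 / π ^ 2 by positivity))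
  rw [h3] at h4
  nlinarith

/-- The greatest common divisor of the coordinates. -/
def content {d : ℕ} (m : Vec d) : ℕ := Finset.univ.gcd fun i => (m i).natAbs

/-- The cube of frequency vectors. -/
def cube (d N e : ℕ) : Finset (Vec d) := Fintype.piFinset fun _ => win N e

/-- The primitive vectors of the cube. -/
def prim (d N : ℕ) : Finset (Vec d) := (cube d N 1).filter fun m => content m = 1

/-- The frequencies of the waveform. -/
def freq (d N : ℕ) : Finset (Vec d) := (prim d N).filter fun m => 0 < m 0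

theorem dvd_content {d : ℕ} (m : Vec d) (e : ℕ) :
    e ∣ content m ↔ ∀ i, (e : ℤ) ∣ m i := by
  simp [content, Finset.dvd_gcd_iff, Int.natCast_dvd]

theorem cube_eq_filter (d N e : ℕ) :
    cube d N e = (cube d N 1).filter fun m => e ∣ content m := by
  ext m
  simp only [cube, Fintype.mem_piFinset, Finset.mem_filter, dvd_content, mem_win]
  constructor
  · exact fun h => ⟨fun i => ⟨(h i).1, (h i).2.1, by simp⟩, fun i => (h i).2.2⟩
  · exact fun h i => ⟨(h.1 i).1, (h.1 i).2.1, h.2 i⟩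

theorem content_mem {d N : ℕ} {m : Vec d} (hm : m ∈ cube d N 1) :
    content m ∈ Finset.Icc 1 N := by
  simp only [cube, Fintype.mem_piFinset, mem_win] at hm
  have h0 := hm 0
  have hne : m 0 ≠ 0 := fun h => by simp [h] at h0
  have hd : content m ∣ (m 0).natAbs :=
    Finset.gcd_dvd (f := fun i => (m i).natAbs) (Finset.mem_univ 0)
  have hpos : 0 < (m 0).natAbs := Int.natAbs_pos.2 hne
  have hle := Nat.le_of_dvd hpos hd
  have hgpos : 0 < content m := Nat.pos_of_dvd_of_pos hd hpos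
  simp only [Finset.mem_Icc]
  omega

theorem sum_prim (d N : ℕ) (f : Vec d → ℝ) :
    ∑ m ∈ prim d N, f m = ∑ e ∈ Finset.Icc 1 N, (moebius e : ℝ) * ∑ m ∈ cube d N e, f m := by
  have key : ∀ m ∈ cube d N 1, (if content m = 1 then f m else 0) =
      ∑ e ∈ Finset.Icc 1 N, (if e ∣ content m then (moebius e : ℝ) * f m else 0) := by
    intro m hm
    obtain ⟨hg1, hgN⟩ := Finset.mem_Icc.1 (content_mem hm)
    have hdiv : (Finset.Icc 1 N).filter (· ∣ content m) = (content m).divisors := by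
      ext e
      simp only [Finset.mem_filter, Finset.mem_Icc, Nat.mem_divisors]
      constructor
      · exact fun h => ⟨h.2, by omega⟩
      · exact fun h => ⟨⟨Nat.pos_of_dvd_of_pos h.1 (by omega),
          (Nat.le_of_dvd (by omega) h.1).trans hgN⟩, h.1⟩
    have hmu : ∑ e ∈ (content m).divisors, (moebius e : ℝ) = if content m = 1 then 1 else 0 := by
      have h := congrArg (fun g : ArithmeticFunction ℝ => g (content m))
        (coe_moebius_mul_coe_zeta (R := ℝ))
      simp only [coe_mul_zeta_apply, intCoe_apply, one_apply] at h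
      exact h
    rw [← Finset.sum_filter, hdiv, ← Finset.sum_mul, hmu, ite_mul, one_mul, zero_mul]
  rw [prim, Finset.sum_filter, Finset.sum_congr rfl key, Finset.sum_comm]
  refine Finset.sum_congr rfl fun e _ => ?_
  rw [cube_eq_filter d N e, Finset.mul_sum, Finset.sum_filter]

theorem sum_tail_le (D N : ℕ) :
    ∑ e ∈ Finset.Icc 2 N, ((e : ℝ)⁻¹) ^ (D + 2) ≤ (1 / 2 : ℝ) ^ D := by
  have h2 : ∀ M : ℕ, ∑ e ∈ Finset.Icc 2 M, ((e : ℝ)⁻¹) ^ 2 ≤ 1 - (M : ℝ)⁻¹ ∨ M < 2 := by
    intro M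
    induction M with
    | zero => right; omega
    | succ M ih =>
      rcases Nat.lt_or_ge (M + 1) 2 with h | h
      · right; exact h
      left
      rw [Finset.sum_Icc_succ_top h]
      rcases ih with ih | ih
      · have hM : (1 : ℝ) ≤ M := by exact_mod_cast (by omega : 1 ≤ M)
        have key : (((M : ℝ) + 1)⁻¹) ^ 2 ≤ (M : ℝ)⁻¹ - ((M : ℝ) + 1)⁻¹ := by
          field_simp
          nlinarith
        push_cast
        linarith
      · obtain rfl : M = 1 := by omega
        norm_num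
  calc ∑ e ∈ Finset.Icc 2 N, ((e : ℝ)⁻¹) ^ (D + 2)
      ≤ ∑ e ∈ Finset.Icc 2 N, (1 / 2 : ℝ) ^ D * ((e : ℝ)⁻¹) ^ 2 := by
        refine Finset.sum_le_sum fun e he => ?_
        have he2 : (2 : ℝ) ≤ e := by exact_mod_cast (Finset.mem_Icc.1 he).1
        rw [pow_add]
        gcongr
        rw [one_div]; exact inv_anti₀ two_pos he2
    _ ≤ (1 / 2 : ℝ) ^ D * 1 := by
        rw [← Finset.mul_sum]
        refine mul_le_mul_of_nonneg_left ?_ (by positivity)
        rcases h2 N with h | h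
        · exact h.trans (by simp)
        · rw [Finset.Icc_eq_empty (by omega), Finset.sum_empty]; norm_num
    _ = (1 / 2 : ℝ) ^ D := mul_one _

theorem sum_prim_error (d N D : ℕ) (hd : d + 1 = D + 2) (hN : 0 < N) (f : Vec d → ℝ)
    (hf : ∀ e, 0 < e → |∑ m ∈ cube d N e, f m| ≤ ((e : ℝ)⁻¹) ^ (d + 1)) :
    |∑ m ∈ prim d N, f m - ∑ m ∈ cube d N 1, f m| ≤ (1 / 2 : ℝ) ^ D := by
  rw [sum_prim, Finset.Icc_eq_cons_Ioc hN, Finset.sum_cons, moebius_apply_one]
  simp only [Int.cast_one, one_mul, add_sub_cancel_left]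
  refine (Finset.abs_sum_le_sum_abs _ _).trans (le_trans ?_ (sum_tail_le D N))
  rw [show Finset.Ioc 1 N = Finset.Icc 2 N from by ext; simp; omega]
  refine Finset.sum_le_sum fun e he => ?_
  rw [abs_mul, ← hd]
  refine le_trans (mul_le_of_le_one_left (abs_nonneg _) ?_)
    (hf e (by have := (Finset.mem_Icc.1 he).1; omega))
  rw [← Int.cast_abs]
  exact_mod_cast abs_moebius_le_one (n := e)

theorem cube_prod_cos (d N e : ℕ) (φ : Fin (d + 1) → ℝ) :
    ∑ m ∈ cube d N e, (∏ i, coef N (m i)) * Real.cos (2 * π * dotR m φ) =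
      ∏ i, prof N e (φ i) := by
  have hs : ∀ y : ℝ, ∑ k ∈ win N e, coef N k * Real.sin (2 * π * k * y) = 0 := by
    intro y
    have h : ∑ k ∈ win N e, coef N k * Real.sin (2 * π * k * y) =
        ∑ k ∈ win N e, -(coef N k * Real.sin (2 * π * k * y)) := by
      refine Finset.sum_nbij' (fun k => -k) (fun k => -k) (fun k => neg_mem_win)
        (fun k => neg_mem_win) (by simp) (by simp) fun k _ => ?_
      rw [coef_neg]
      push_cast
      rw [show 2 * π * -(k : ℝ) * y = -(2 * π * k * y) by ring, Real.sin_neg]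
      ring
    rw [Finset.sum_neg_distrib] at h
    linarith
  have hc : ∀ y : ℝ, (prof N e y : ℂ) =
      ∑ k ∈ win N e, (coef N k : ℂ) * Complex.exp (((2 * π * k * y : ℝ) : ℂ) * Complex.I) := by
    intro y
    apply Complex.ext
    · rw [Complex.re_sum, Complex.ofReal_re, prof]
      refine Finset.sum_congr rfl fun k _ => ?_
      rw [Complex.re_ofReal_mul, Complex.exp_ofReal_mul_I_re]
    · rw [Complex.im_sum, Complex.ofReal_im]
      refine (Eq.trans (Finset.sum_congr rfl fun k _ => ?_) (hs y)).symm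
      rw [Complex.im_ofReal_mul, Complex.exp_ofReal_mul_I_im]
  have h := congrArg Complex.re
    (Finset.prod_congr rfl (fun i (_ : i ∈ Finset.univ) => hc (φ i)))
  rw [← Complex.ofReal_prod, Complex.ofReal_re, Finset.prod_univ_sum, Complex.re_sum] at h
  rw [h, cube]
  refine Finset.sum_congr rfl fun m _ => ?_
  rw [Finset.prod_mul_distrib, ← Complex.ofReal_prod, ← Complex.exp_sum, ← Finset.sum_mul,
    ← Complex.ofReal_sum, Complex.re_ofReal_mul, Complex.exp_ofReal_mul_I_re, dotR,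
    Finset.mul_sum]
  congr 2
  refine Finset.sum_congr rfl fun i _ => ?_
  ring

theorem sum_prim_half (d N : ℕ) (f : Vec d → ℝ) (hf : ∀ m, f (-m) = f m) :
    ∑ m ∈ prim d N, f m = 2 * ∑ m ∈ freq d N, f m := by
  rw [← Finset.sum_filter_add_sum_filter_not (prim d N) (fun m => 0 < m 0), two_mul]
  congr 1
  have hc : ∀ m : Vec d, content (-m) = content m := fun m => by simp [content]
  have hp : ∀ m ∈ prim d N, -m ∈ prim d N := by
    intro m hm
    simp only [prim, cube, Finset.mem_filter, Fintype.mem_piFinset] at hm ⊢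
    exact ⟨fun i => neg_mem_win (hm.1 i), (hc m).trans hm.2⟩
  refine Finset.sum_nbij' (fun m => -m) (fun m => -m) ?_ ?_ (by simp) (by simp) (by simp [hf])
  · intro m hm
    simp only [freq, Finset.mem_filter] at hm ⊢
    refine ⟨hp m hm.1, ?_⟩
    have : m 0 ≠ 0 := by
      have h := hm.1
      simp only [prim, cube, Finset.mem_filter, Fintype.mem_piFinset, mem_win] at h
      intro h0
      simpa [h0] using (h.1 0).2.1
    simp only [Pi.neg_apply]
    omega
  · intro m hm
    simp only [freq, Finset.mem_filter] at hm ⊢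
    refine ⟨hp m hm.1, ?_⟩
    simp only [Pi.neg_apply]
    omega

theorem indep_freq (d N : ℕ) : Indep (freq d N) := by
  intro i hi j hj hne
  by_contra hk
  push Not at hk
  simp only [freq, prim, Finset.mem_filter] at hi hj
  have hg : ∀ k, (i 0).natAbs * (j k).natAbs = (j 0).natAbs * (i k).natAbs := by
    intro k
    rw [← Int.natAbs_mul, ← Int.natAbs_mul, hk k, mul_comm]
  have h : (Finset.univ.gcd fun k => (i 0).natAbs * (j k).natAbs) =
      Finset.univ.gcd fun k => (j 0).natAbs * (i k).natAbs :=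
    Finset.gcd_congr rfl fun k _ => hg k
  rw [Finset.gcd_mul_left, Finset.gcd_mul_left] at h
  have hi1 := hi.1.2
  have hj1 := hj.1.2
  simp only [content] at hi1 hj1
  rw [hi1, hj1, normalize_eq, normalize_eq, mul_one, mul_one] at h
  have h00 : i 0 = j 0 := by omega
  apply hne
  funext k
  have hk' := hk k
  rw [← h00, mul_comm (i k)] at hk'
  exact (mul_left_cancel₀ (by omega) hk').symm

theorem coef_ne_zero {N : ℕ} {k : ℤ} (hk : k ∈ win N 1) : coef N k ≠ 0 := by
  obtain ⟨⟨h1, h2⟩, ⟨j, rfl⟩, -⟩ := mem_win.1 hk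
  have hN : (0 : ℝ) < N := by exact_mod_cast (by omega : (0 : ℤ) < N)
  have habs : |((2 * j + 1 : ℤ) : ℝ)| < N := by
    rw [← Int.cast_abs]
    exact_mod_cast abs_lt.2 ⟨h1, h2⟩
  have hne : ((2 * j + 1 : ℤ) : ℝ) ≠ 0 := by exact_mod_cast (by omega : (2 * j + 1 : ℤ) ≠ 0)
  unfold coef
  refine mul_ne_zero (sub_pos.2 ((div_lt_one hN).2 habs)).ne' (div_ne_zero
    (mul_ne_zero two_ne_zero ?_) (mul_ne_zero Real.pi_ne_zero hne))
  rw [show π * ((2 * j + 1 : ℤ) : ℝ) / 2 = π / 2 + (j : ℝ) * π by push_cast; ring,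
    Real.sin_add_int_mul_pi, Real.sin_pi_div_two, mul_one]
  exact zpow_ne_zero _ (by norm_num)

end Wave

open Wave in
theorem waveStmt : WaveStmt := by
  intro η hη
  obtain ⟨D, hD⟩ := exists_pow_lt_of_lt_one (half_pos hη) (show (1 / 2 : ℝ) < 1 by norm_num)
  set δ : ℝ := min (1 / 2) (η / (2 * (D + 2))) with hδ
  obtain ⟨N, hN, hmass⟩ := exists_mass δ (by rw [hδ]; positivity)
  set C : Vec (D + 1) → ℝ := fun m => ∏ i, coef N (m i) with hC
  have hCneg : ∀ m, C (-m) = C m := fun m => by simp [hC, coef_neg]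
  refine ⟨D + 1, freq (D + 1) N, C, ?_, indep_freq _ N, ?_, ?_, ?_⟩
  · intro m hm
    simp only [freq, prim, cube, Finset.mem_filter, Fintype.mem_piFinset, mem_win] at hm
    exact ⟨hm.2, fun i => (hm.1.1 i).2.1⟩
  · intro m hm
    simp only [freq, prim, cube, Finset.mem_filter, Fintype.mem_piFinset] at hm
    exact Finset.prod_ne_zero_iff.2 fun i _ => coef_ne_zero (hm.1.1 i)
  · intro φ
    have hsym : ∀ m, C (-m) * Real.cos (2 * π * dotR (-m) φ) =
        C m * Real.cos (2 * π * dotR m φ) := by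
      intro m
      rw [hCneg]
      simp [dotR, Finset.sum_neg_distrib]
    rw [wave, ← sum_prim_half _ N (fun m => C m * Real.cos (2 * π * dotR m φ)) hsym]
    have hb : ∀ e, 0 < e → |∑ m ∈ cube (D + 1) N e, C m * Real.cos (2 * π * dotR m φ)| ≤
        ((e : ℝ)⁻¹) ^ (D + 1 + 1) := by
      intro e he
      simp only [hC]
      rw [cube_prod_cos, Finset.abs_prod]
      refine (Finset.prod_le_prod (fun i _ => abs_nonneg _)
        (fun i _ => abs_prof_le N e he (φ i))).trans ?_
      simp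
    have herr := abs_le.1 (sum_prim_error (D + 1) N D rfl hN _ hb)
    have h1 := abs_le.1 (hb 1 one_pos)
    rw [Nat.cast_one, inv_one, one_pow] at h1
    rw [abs_le]
    constructor <;> linarith
  · rw [← sum_prim_half _ N (fun m => C m ^ 2) (fun m => by rw [hCneg])]
    have hpow : ∀ e, ∑ m ∈ cube (D + 1) N e, C m ^ 2 =
        (∑ k ∈ win N e, coef N k ^ 2) ^ (D + 1 + 1) := by
      intro e
      rw [← Fin.prod_const, Finset.prod_univ_sum]
      simp only [hC, cube, Finset.prod_pow]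
    have hb : ∀ e, 0 < e → |∑ m ∈ cube (D + 1) N e, C m ^ 2| ≤ ((e : ℝ)⁻¹) ^ (D + 1 + 1) := by
      intro e he
      rw [hpow, abs_pow, abs_of_nonneg (Finset.sum_nonneg fun k _ => sq_nonneg _)]
      exact pow_le_pow_left₀ (Finset.sum_nonneg fun k _ => sq_nonneg _) (sum_sq_win_le N e he) _
    have herr := abs_le.1 (sum_prim_error (D + 1) N D rfl hN _ hb)
    have hm := hpow 1
    have hδ1 : δ ≤ 1 / 2 := min_le_left _ _
    have hδ2 : δ ≤ η / (2 * (D + 2)) := min_le_right _ _
    have hber : 1 + ((D + 1 + 1 : ℕ) : ℝ) * (-δ) ≤ (1 + (-δ)) ^ (D + 1 + 1) :=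
      one_add_mul_le_pow (by linarith) _
    have hmono : (1 + (-δ)) ^ (D + 1 + 1) ≤ (∑ k ∈ win N 1, coef N k ^ 2) ^ (D + 1 + 1) :=
      pow_le_pow_left₀ (by linarith) (by linarith) _
    rw [le_div_iff₀ (by positivity)] at hδ2
    push_cast at hber
    nlinarith

end

end Vale.Agent.P110.Ultra
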